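import Mathlib

/-!
# Preliminaries from one complex variable
-/

open Set Filter Metric Complex
open scoped Topology ComplexConjugate

namespace Vale.Agent.P116

/-- An open preconnected set on which nonvanishing holomorphic functions have square roots. -/
def SqrtSet (W : Set ℂ) : Prop :=
  IsOpen W ∧ IsPreconnected W ∧
    ∀ g : ℂ → ℂ, DifferentiableOn ℂ g W → (∀ z ∈ W, g z ≠ 0) →
      ∃ f : ℂ → ℂ, DifferentiableOn ℂ f W ∧ ∀ z ∈ W, f z ^ 2 = g z

/-- Continuous logarithms of holomorphic functions are holomorphic. -/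
lemma differentiableOn_of_exp_eqOn {W : Set ℂ} (hW : IsOpen W) {f g : ℂ → ℂ}
    (hf : ContinuousOn f W) (hg : DifferentiableOn ℂ g W) (h : ∀ z ∈ W, Complex.exp (f z) = g z) :
    DifferentiableOn ℂ f W := by
  intro z hz
  have hgz : DifferentiableAt ℂ g z := hg.differentiableAt (hW.mem_nhds hz)
  have hcont : ContinuousAt f z := hf.continuousAt (hW.mem_nhds hz)
  have hne : g z ≠ 0 := h z hz ▸ Complex.exp_ne_zero _
  have hd : DifferentiableAt ℂ (fun w => Complex.log (g w / g z) + f z) z :=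
    ((hgz.div_const _).clog (by simp [hne])).add_const _
  refine (hd.congr_of_eventuallyEq ?_).differentiableWithinAt
  have h1 : ∀ᶠ w in 𝓝 z, |(f w - f z).im| < Real.pi := by
    have : Tendsto (fun w => |(f w - f z).im|) (𝓝 z) (𝓝 0) := by
      have h0 : ContinuousAt (fun w => |(f w - f z).im|) z := by fun_prop
      simpa [ContinuousAt] using h0
    exact this.eventually (gt_mem_nhds Real.pi_pos)
  filter_upwards [h1, hW.mem_nhds hz] with w hw hwW
  have := abs_lt.mp hw
  rw [← h w hwW, ← h z hz, ← Complex.exp_sub, Complex.log_exp this.1 this.2.le]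
  ring

lemma isSimplyConnected_convex {W : Set ℂ} (hW : Convex ℝ W) (hne : W.Nonempty) :
    IsSimplyConnected W := by
  have := hW.contractibleSpace hne
  exact SimplyConnectedSpace.ofContractible W

lemma exists_holo_log_convex {W : Set ℂ} (hWo : IsOpen W) (hW : Convex ℝ W) {g : ℂ → ℂ}
    (hg : DifferentiableOn ℂ g W) (h0 : ∀ z ∈ W, g z ≠ 0) :
    ∃ f : ℂ → ℂ, DifferentiableOn ℂ f W ∧ ∀ z ∈ W, Complex.exp (f z) = g z := by
  rcases W.eq_empty_or_nonempty with rfl | hne
  · exact ⟨0, differentiableOn_empty, by simp⟩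
  obtain ⟨f, hfc, hf⟩ := Complex.exists_continuousOn_eqOn_exp_comp
    (isSimplyConnected_convex hW hne) hWo hg.continuousOn (by simpa using h0)
  exact ⟨f, differentiableOn_of_exp_eqOn hWo hfc hg (fun z hz => hf hz), fun z hz => hf hz⟩

lemma sqrtSet_convex {W : Set ℂ} (hWo : IsOpen W) (hW : Convex ℝ W) : SqrtSet W := by
  refine ⟨hWo, hW.isPreconnected, fun g hg h0 => ?_⟩
  obtain ⟨f, hf, hfe⟩ := exists_holo_log_convex hWo hW hg h0
  refine ⟨fun z => Complex.exp (f z / 2), by fun_prop, fun z hz => ?_⟩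
  rw [sq, ← Complex.exp_add, add_halves, hfe z hz]

/-- A maximum principle with boundary values understood as upper limits. -/
lemma norm_le_one_of_frontier {S : Set ℂ} (hS : IsOpen S) (hb : Bornology.IsBounded S)
    {g : ℂ → ℂ} (hg : DifferentiableOn ℂ g S)
    (hfr : ∀ z ∈ frontier S, ∀ ε : ℝ, 0 < ε → ∀ᶠ w in 𝓝[S] z, ‖g w‖ ≤ 1 + ε) :
    ∀ z ∈ S, ‖g z‖ ≤ 1 := by
  classical
  intro z hz
  by_contra hcon
  rw [not_le] at hcon
  set ε := (‖g z‖ - 1) / 2 with hε
  have hεp : 0 < ε := by rw [hε]; linarith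
  set K := {w : ℂ | w ∈ S ∧ 1 + 2 * ε ≤ ‖g w‖} with hK
  have hzK : z ∈ K := ⟨hz, by rw [hε]; linarith⟩
  have hKc : IsClosed K := by
    refine isClosed_of_closure_subset fun w hw => ?_
    have hwS : w ∈ closure S := closure_mono (fun x hx => hx.1) hw
    by_cases hwmem : w ∈ S
    · refine ⟨hwmem, ?_⟩
      have hcw : ContinuousAt (fun x => ‖g x‖) w :=
        (hg.continuousOn.continuousAt (hS.mem_nhds hwmem)).norm
      have : ∃ᶠ x in 𝓝 w, 1 + 2 * ε ≤ ‖g x‖ :=
        (mem_closure_iff_frequently.mp hw).mono fun x hx => hx.2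
      by_contra hh
      rw [not_le] at hh
      exact this ((hcw.tendsto.eventually (gt_mem_nhds hh)).mono fun x hx => not_le.mpr hx)
    · exfalso
      have hwf : w ∈ frontier S := by
        rw [hS.frontier_eq]; exact ⟨hwS, hwmem⟩
      have h1 := hfr w hwf ε hεp
      rw [eventually_nhdsWithin_iff] at h1
      obtain ⟨x, hx, hxK⟩ := ((mem_closure_iff_frequently.mp hw).and_eventually h1).exists.imp
        (fun x hx => (⟨hx.2, hx.1⟩ : (x ∈ S → ‖g x‖ ≤ 1 + ε) ∧ x ∈ K))
      linarith [hx hxK.1, hxK.2]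
  have hKcomp : IsCompact K := Metric.isCompact_of_isClosed_isBounded hKc (hb.subset fun x hx => hx.1)
  have hgK : ContinuousOn (fun x => ‖g x‖) K := (hg.continuousOn.mono fun x hx => hx.1).norm
  obtain ⟨x₀, hx₀, hmax⟩ := hKcomp.exists_isMaxOn ⟨z, hzK⟩ hgK
  have hmaxS : IsMaxOn (norm ∘ g) S x₀ := by
    intro x hx
    by_cases hxK : x ∈ K
    · exact hmax hxK
    · have hnot : ¬ (1 + 2 * ε ≤ ‖g x‖) := fun hh => hxK ⟨hx, hh⟩
      rw [not_le] at hnot
      exact hnot.le.trans hx₀.2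
  -- the modulus is constant on the component, which reaches the frontier
  set C := connectedComponentIn S x₀ with hC
  have hCo : IsOpen C := hS.connectedComponentIn
  have hCsub : C ⊆ S := connectedComponentIn_subset _ _
  have hx₀C : x₀ ∈ C := mem_connectedComponentIn hx₀.1
  have hconst : EqOn (norm ∘ g) (Function.const ℂ ‖g x₀‖) C :=
    Complex.norm_eqOn_of_isPreconnected_of_isMaxOn isPreconnected_connectedComponentIn hCo
      (hg.mono hCsub) hx₀C (hmaxS.on_subset hCsub)
  have hCK : C ⊆ K := fun x hx => ⟨hCsub hx, by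
    have := hconst hx; simp only [Function.comp_apply, Function.const_apply] at this
    rw [this]; exact hx₀.2⟩
  have hCcl : IsClosed C := by
    refine isClosed_of_closure_subset fun w hw => ?_
    have hwK : w ∈ S := (hKc.closure_subset_iff.mpr hCK hw).1
    by_contra hwC
    have hd : Disjoint (connectedComponentIn S w) C := by
      rw [Set.disjoint_left]
      intro a ha haC
      apply hwC
      rw [hC, connectedComponentIn_eq haC, ← connectedComponentIn_eq ha]
      exact mem_connectedComponentIn hwK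
    obtain ⟨a, ha, haC⟩ := mem_closure_iff.mp hw _ hS.connectedComponentIn
      (mem_connectedComponentIn hwK)
    exact Set.disjoint_left.mp hd ha haC
  have hCuniv : C = univ := IsClopen.eq_univ ⟨hCcl, hCo⟩ ⟨x₀, hx₀C⟩
  have : Bornology.IsBounded (univ : Set ℂ) := hb.subset (hCuniv ▸ hCsub)
  exact NoncompactSpace.noncompact_univ (X := ℂ)
    (Metric.isCompact_of_isClosed_isBounded isClosed_univ this)

/-- The Schwarz lemma for maps of a disc into the upper half plane. -/
lemma norm_deriv_le_im {f : ℂ → ℂ} {c : ℂ} {r : ℝ} (hr : 0 < r)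
    (hd : DifferentiableOn ℂ f (ball c r)) (him : ∀ z ∈ ball c r, 0 < (f z).im) :
    ‖deriv f c‖ ≤ 2 * (f c).im / r := by
  set a := f c with ha
  have ha0 : 0 < a.im := him c (mem_ball_self hr)
  set g := fun z => (f z - a) / (f z - conj a) with hg
  have hne : ∀ z ∈ ball c r, f z - conj a ≠ 0 := by
    intro z hz h0
    have := congrArg Complex.im h0
    simp at this
    linarith [him z hz]
  have hgd : DifferentiableOn ℂ g (ball c r) :=
    (hd.sub_const a).div (hd.sub_const _) hne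
  have hgc : g c = 0 := by simp [hg, ha]
  have hmaps : MapsTo g (ball c r) (closedBall (g c) 1) := by
    intro z hz
    rw [hgc, mem_closedBall_zero_iff, hg]
    simp only [norm_div]
    rw [div_le_one (norm_pos_iff.mpr (hne z hz)), Complex.norm_def, Complex.norm_def]
    apply Real.sqrt_le_sqrt
    simp only [Complex.normSq_apply, Complex.sub_re, Complex.sub_im, Complex.conj_re,
      Complex.conj_im]
    nlinarith [him z hz, ha0]
  have hbd := Complex.norm_deriv_le_div_of_mapsTo_ball hgd hmaps hr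
  have hfd : HasDerivAt f (deriv f c) c :=
    (hd.differentiableAt (isOpen_ball.mem_nhds (mem_ball_self hr))).hasDerivAt
  have hgderiv : HasDerivAt g ((deriv f c * (f c - conj a) - (f c - a) * deriv f c)
      / (f c - conj a) ^ 2) c :=
    (hfd.sub_const a).div (hfd.sub_const _) (hne c (mem_ball_self hr))
  rw [hgderiv.deriv, ← ha, sub_self, zero_mul, sub_zero] at hbd
  have hsub : a - conj a = ((2 * a.im : ℝ) : ℂ) * Complex.I := by
    rw [Complex.sub_conj]
  have hn : ‖a - conj a‖ = 2 * a.im := by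
    rw [hsub, norm_mul, Complex.norm_I, mul_one, Complex.norm_of_nonneg (by linarith)]
  rw [norm_div, norm_mul, norm_pow, hn] at hbd
  have e : ‖deriv f c‖ * (2 * a.im) / (2 * a.im) ^ 2 = ‖deriv f c‖ / (2 * a.im) := by
    field_simp
  rw [e, div_le_iff₀ (by linarith)] at hbd
  calc ‖deriv f c‖ ≤ 1 / r * (2 * a.im) := hbd
    _ = 2 * a.im / r := by ring

/-- Two continuous lifts through a locally injective map agree on a preconnected set. -/
lemma eqOn_of_lift {p : ℂ → ℂ} {V : Set ℂ} (hinj : ∀ y ∈ V, ∃ N ∈ 𝓝 y, InjOn p N)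
    {X : Type*} [TopologicalSpace X] {S : Set X} (hS : IsPreconnected S) {f g : X → ℂ}
    (hf : ContinuousOn f S) (hg : ContinuousOn g S) (hfV : MapsTo f S V)
    (hpe : ∀ x ∈ S, p (f x) = p (g x)) {x₀ : X} (hx₀ : x₀ ∈ S) (h₀ : f x₀ = g x₀) :
    EqOn f g S := by
  have := isPreconnected_iff_preconnectedSpace.mp hS
  let F : S → ℂ := S.domRestrict f
  let G : S → ℂ := S.domRestrict g
  have hF : Continuous F := continuousOn_iff_continuous_domRestrict.mp hf
  have hG : Continuous G := continuousOn_iff_continuous_domRestrict.mp hg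
  have hcl : IsClosed {x : S | F x = G x} := isClosed_eq hF hG
  have hop : IsOpen {x : S | F x = G x} := by
    rw [isOpen_iff_mem_nhds]
    intro x (hx : F x = G x)
    obtain ⟨N, hN, hNinj⟩ := hinj (f x) (hfV x.2)
    have h1 : ∀ᶠ y in 𝓝 x, F y ∈ N := hF.continuousAt.eventually_mem hN
    have h2 : ∀ᶠ y in 𝓝 x, G y ∈ N := hG.continuousAt.eventually_mem (by rw [← hx]; exact hN)
    filter_upwards [h1, h2] with y hy1 hy2
    exact hNinj hy1 hy2 (hpe y y.2)
  have huniv := IsClopen.eq_univ ⟨hcl, hop⟩ ⟨⟨x₀, hx₀⟩, h₀⟩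
  intro x hx
  have : (⟨x, hx⟩ : S) ∈ {x : S | F x = G x} := huniv ▸ mem_univ _
  exact this

/-- A holomorphic function with nonzero derivative is injective near the point. -/
lemma exists_injOn_nhds {p : ℂ → ℂ} {V : Set ℂ} (hV : IsOpen V) (hp : DifferentiableOn ℂ p V)
    {y : ℂ} (hy : y ∈ V) (hd : deriv p y ≠ 0) : ∃ N ∈ 𝓝 y, InjOn p N := by
  have h : HasStrictDerivAt p (deriv p y) y :=
    (hp.analyticAt (hV.mem_nhds hy)).hasStrictDerivAt
  obtain ⟨N, hN⟩ : ∃ e : OpenPartialHomeomorph ℂ ℂ, y ∈ e.source ∧ (e : ℂ → ℂ) = p :=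
    ⟨(h.hasStrictFDerivAt_equiv hd).toOpenPartialHomeomorph p,
      (h.hasStrictFDerivAt_equiv hd).mem_toOpenPartialHomeomorph_source, rfl⟩
  exact ⟨N.source, N.open_source.mem_nhds hN.1, hN.2 ▸ N.injOn⟩

/-- Pointwise limits of bounded holomorphic functions converge locally uniformly. -/
lemma tendstoUniformlyOn_of_bounded {ι : Type*} {F : Filter ι} {φ : ι → ℂ → ℂ} {f : ℂ → ℂ}
    {c : ℂ} {r M : ℝ} (hr : 0 < r) (hM : 0 ≤ M)
    (hd : ∀ᶠ i in F, DifferentiableOn ℂ (φ i) (ball c (2 * r)))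
    (hb : ∀ᶠ i in F, ∀ z ∈ ball c (2 * r), ‖φ i z‖ ≤ M)
    (hpt : ∀ z ∈ closedBall c r, Tendsto (fun i => φ i z) F (𝓝 (f z))) :
    TendstoUniformlyOn φ f F (closedBall c r) := by
  rcases F.eq_or_neBot with rfl | hF
  · intro u hu; simp
  have hlip : ∀ i, DifferentiableOn ℂ (φ i) (ball c (2 * r)) →
      (∀ z ∈ ball c (2 * r), ‖φ i z‖ ≤ M) → ∀ x ∈ closedBall c r, ∀ y ∈ closedBall c r,
      dist (φ i x) (φ i y) ≤ (2 * M / r) * dist x y := by
    intro i hdi hbi x hx y hy
    have hsub : closedBall c r ⊆ ball c (2 * r) := closedBall_subset_ball (by linarith)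
    have hder : ∀ z ∈ closedBall c r, ‖deriv (φ i) z‖ ≤ 2 * M / r := by
      intro z hz
      have hzsub : ball z r ⊆ ball c (2 * r) :=
        ball_subset_ball' (by have := mem_closedBall.mp hz; linarith)
      have := Complex.norm_deriv_le_div_of_mapsTo_ball (hdi.mono hzsub) (R₂ := 2 * M)
        (fun w hw => by
          rw [mem_closedBall, dist_eq_norm]
          calc ‖φ i w - φ i z‖ ≤ ‖φ i w‖ + ‖φ i z‖ := norm_sub_le _ _
            _ ≤ 2 * M := by linarith [hbi w (hzsub hw), hbi z (hzsub (mem_ball_self hr))]) hr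
      exact this
    have := (convex_closedBall c r).norm_image_sub_le_of_norm_deriv_le
      (fun z hz => hdi.differentiableAt (isOpen_ball.mem_nhds (hsub hz))) hder hy hx
    rw [dist_eq_norm, dist_eq_norm]
    exact this
  have hev := hd.and hb
  have hflip : ∀ x ∈ closedBall c r, ∀ y ∈ closedBall c r,
      dist (f x) (f y) ≤ (2 * M / r) * dist x y := by
    intro x hx y hy
    refine le_of_tendsto ((hpt x hx).dist (hpt y hy)) ?_
    filter_upwards [hev] with i hi using hlip i hi.1 hi.2 x hx y hy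
  rw [Metric.tendstoUniformlyOn_iff]
  intro ε hε
  set L := 2 * M / r with hL
  have hL0 : 0 ≤ L := by positivity
  set η := ε / (3 * (L + 1)) with hη
  have hηp : 0 < η := by positivity
  obtain ⟨t, hts, htf, htc⟩ :=
    finite_cover_balls_of_compact (isCompact_closedBall c r) hηp
  have hpts : ∀ᶠ i in F, ∀ x ∈ t, dist (f x) (φ i x) < ε / 3 := by
    rw [htf.eventually_all]
    intro x hx
    have := (tendsto_iff_dist_tendsto_zero.mp (hpt x (hts hx))).eventually
      (gt_mem_nhds (show (0:ℝ) < ε / 3 by positivity))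
    filter_upwards [this] with i hi
    rwa [dist_comm]
  filter_upwards [hev, hpts] with i hi hit z hz
  obtain ⟨x, hx, hzx⟩ := mem_iUnion₂.mp (htc hz)
  have hzx' : dist z x < η := hzx
  have hLη : L * η ≤ ε / 3 := by
    have h1 : L * η ≤ (L + 1) * η := by nlinarith
    have h2 : (L + 1) * η = ε / 3 := by rw [hη]; field_simp
    linarith
  have a1 : dist (f z) (f x) ≤ ε / 3 :=
    (hflip z hz x (hts hx)).trans ((mul_le_mul_of_nonneg_left hzx'.le hL0).trans hLη)
  have a2 : dist (φ i x) (φ i z) ≤ ε / 3 := by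
    refine (hlip i hi.1 hi.2 x (hts hx) z hz).trans ?_
    rw [dist_comm]
    exact (mul_le_mul_of_nonneg_left hzx'.le hL0).trans hLη
  calc dist (f z) (φ i z) ≤ dist (f z) (f x) + dist (f x) (φ i x) + dist (φ i x) (φ i z) :=
        dist_triangle4 _ _ _ _
    _ < ε := by linarith [hit x hx]

/-- A small Hurwitz theorem: limits of nonvanishing functions are zero or nonvanishing. -/
lemma hurwitz_ne_zero {ι : Type*} {F : Filter ι} [F.NeBot] {φ : ι → ℂ → ℂ} {f : ℂ → ℂ}
    {c : ℂ} {r : ℝ} (hr : 0 < r) (hf : DifferentiableOn ℂ f (ball c r))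
    (hconv : ∀ ρ < r, 0 < ρ → TendstoUniformlyOn φ f F (closedBall c ρ))
    (hd : ∀ ρ < r, ∀ᶠ i in F, DifferentiableOn ℂ (φ i) (ball c ρ))
    (h0 : ∀ ρ < r, ∀ᶠ i in F, ∀ z ∈ ball c ρ, φ i z ≠ 0)
    (hfc : f c = 0) : ∀ᶠ z in 𝓝 c, f z = 0 := by
  by_contra hcon
  have hfa : AnalyticAt ℂ f c := hf.analyticAt (isOpen_ball.mem_nhds (mem_ball_self hr))
  rcases hfa.eventually_eq_zero_or_eventually_ne_zero with h | h
  · exact hcon h
  rw [eventually_nhdsWithin_iff, Metric.eventually_nhds_iff] at h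
  obtain ⟨δ, hδ, hδ'⟩ := h
  obtain ⟨ρ, hρ, hρδ, hρr⟩ : ∃ ρ, 0 < ρ ∧ ρ < δ ∧ ρ < r :=
    ⟨min δ r / 2, half_pos (lt_min hδ hr), by linarith [min_le_left δ r],
      by linarith [min_le_right δ r]⟩
  have hsph : ∀ z ∈ sphere c ρ, f z ≠ 0 := fun z hz =>
    hδ' (by rw [mem_sphere] at hz; linarith) (ne_of_mem_sphere hz hρ.ne')
  have hne : (sphere c ρ).Nonempty := NormedSpace.sphere_nonempty.mpr hρ.le
  have hcont : ContinuousOn (fun z => ‖f z‖) (sphere c ρ) :=
    (hf.continuousOn.mono (sphere_subset_closedBall.trans (closedBall_subset_ball hρr))).norm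
  obtain ⟨z₀, hz₀, hmin⟩ := (isCompact_sphere c ρ).exists_isMinOn hne hcont
  set m := ‖f z₀‖ with hm
  have hmp : 0 < m := norm_pos_iff.mpr (hsph z₀ hz₀)
  have hu := Metric.tendstoUniformlyOn_iff.mp (hconv ρ hρr hρ) (m / 3) (by positivity)
  obtain ⟨ρ', hρ1, hρ2⟩ := exists_between hρr
  obtain ⟨i, hi1, hi2, hi3⟩ := (hu.and ((hd ρ' hρ2).and (h0 ρ' hρ2))).exists
  have hsub : closedBall c ρ ⊆ ball c ρ' := closedBall_subset_ball hρ1
  have hgd : DiffContOnCl ℂ (fun z => (φ i z)⁻¹) (ball c ρ) := by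
    apply DifferentiableOn.diffContOnCl
    rw [closure_ball c hρ.ne']
    exact (hi2.mono hsub).inv fun z hz => hi3 z (hsub hz)
  have hfr : ∀ z ∈ frontier (ball c ρ), ‖(φ i z)⁻¹‖ ≤ (2 * m / 3)⁻¹ := by
    intro z hz
    rw [frontier_ball c hρ.ne'] at hz
    rw [norm_inv]
    have h1 : m ≤ ‖f z‖ := hmin hz
    have h2 := hi1 z (sphere_subset_closedBall hz)
    rw [dist_eq_norm] at h2
    have h3 := norm_sub_norm_le (f z) (φ i z)
    exact inv_anti₀ (by positivity) (by linarith)
  have h4 := Complex.norm_le_of_forall_mem_frontier_norm_le isBounded_ball hgd hfr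
    (subset_closure (mem_ball_self hρ))
  have h5 := hi1 c (mem_closedBall_self hρ.le)
  rw [hfc, dist_zero_left] at h5
  rw [norm_inv, inv_le_inv₀ (norm_pos_iff.mpr (hi3 c (mem_ball_self (hρ.trans hρ1))))
    (by positivity)] at h4
  linarith

end Vale.Agent.P116
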