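import Mathlib
import Vale.Agent.P116.Basic

/-!
# An explicit conformal map between the upper half disc and the disc
-/

open Set Filter Metric Complex
open scoped Topology ComplexConjugate

namespace Vale.Agent.P116

/-- The numerator of `halfNu`. -/
noncomputable def nuNum (z : ℂ) : ℂ := 1 + 2 * I * z + z ^ 2

/-- The denominator of `halfNu`. -/
noncomputable def nuDen (z : ℂ) : ℂ := 1 - 2 * I * z + z ^ 2

/-- The conformal map of the upper half disc onto the disc. -/
noncomputable def halfNu (z : ℂ) : ℂ := -I * nuNum z / nuDen z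

/-- The closed upper half disc. -/
def halfCl : Set ℂ := closedBall 0 1 ∩ {z : ℂ | 0 ≤ z.im}

/-- The open upper half disc. -/
def halfOp : Set ℂ := ball 0 1 ∩ {z : ℂ | 0 < z.im}

lemma halfOp_subset : halfOp ⊆ halfCl := fun z hz =>
  ⟨ball_subset_closedBall hz.1, (show 0 < z.im from hz.2).le⟩

lemma isCompact_halfCl : IsCompact halfCl :=
  (isCompact_closedBall 0 1).inter_right (isClosed_le continuous_const Complex.continuous_im)

lemma nu_identity (z : ℂ) :
    Complex.normSq (nuNum z) - Complex.normSq (nuDen z) =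
      -8 * z.im * (1 - Complex.normSq z) := by
  simp [nuNum, nuDen, Complex.normSq_apply, pow_two]; ring

lemma nuDen_ne {z : ℂ} (hz : z ∈ halfCl) : nuDen z ≠ 0 := by
  intro h
  have h1 := nu_identity z
  rw [h, map_zero, sub_zero] at h1
  have h2 : 0 ≤ 1 - Complex.normSq z := by
    rw [Complex.normSq_eq_norm_sq]
    nlinarith [mem_closedBall_zero_iff.mp hz.1, norm_nonneg z]
  have h3 : 0 ≤ z.im := hz.2
  have h4 : Complex.normSq (nuNum z) = 0 :=
    le_antisymm (by rw [h1]; nlinarith [mul_nonneg h3 h2]) (Complex.normSq_nonneg _)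
  rw [Complex.normSq_eq_zero] at h4
  have h5 : (4 * I) * z = 0 := by
    have : nuNum z - nuDen z = 4 * I * z := by simp [nuNum, nuDen]; ring
    rw [← this, h4, h, sub_zero]
  have hz0 : z = 0 := by simpa using h5
  simp [hz0, nuDen] at h

lemma norm_halfNu_sq {z : ℂ} (hz : z ∈ halfCl) :
    ‖halfNu z‖ ^ 2 * Complex.normSq (nuDen z) = Complex.normSq (nuNum z) := by
  have h := nuDen_ne hz
  rw [← Complex.normSq_eq_norm_sq, halfNu, map_div₀, map_mul, Complex.normSq_neg, Complex.normSq_I,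
    one_mul]
  rw [div_mul_cancel₀]
  simpa using h

lemma norm_halfNu_le {z : ℂ} (hz : z ∈ halfCl) : ‖halfNu z‖ ≤ 1 := by
  have h1 := norm_halfNu_sq hz
  have h2 := nu_identity z
  have h3 := Complex.normSq_pos.mpr (nuDen_ne hz)
  have h4 : 0 ≤ 1 - Complex.normSq z := by
    rw [Complex.normSq_eq_norm_sq]
    nlinarith [mem_closedBall_zero_iff.mp hz.1, norm_nonneg z]
  have h5 : 0 ≤ z.im := hz.2
  by_contra hc
  rw [not_le] at hc
  have : 1 < ‖halfNu z‖ ^ 2 := by nlinarith
  nlinarith [mul_nonneg h5 h4, mul_lt_mul_of_pos_right this h3]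

lemma norm_halfNu_lt_iff {z : ℂ} (hz : z ∈ halfCl) : ‖halfNu z‖ < 1 ↔ z ∈ halfOp := by
  have h1 := norm_halfNu_sq hz
  have h2 := nu_identity z
  have h3 := Complex.normSq_pos.mpr (nuDen_ne hz)
  have h5 : 0 ≤ z.im := hz.2
  have h6 : ‖z‖ ≤ 1 := mem_closedBall_zero_iff.mp hz.1
  rw [Complex.normSq_eq_norm_sq z] at h2
  constructor
  · intro h
    have h7 : ‖halfNu z‖ ^ 2 < 1 := pow_lt_one₀ (norm_nonneg _) h two_ne_zero
    have h8 : 0 < z.im * (1 - ‖z‖ ^ 2) := by nlinarith [mul_lt_mul_of_pos_right h7 h3]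
    refine ⟨mem_ball_zero_iff.mpr (lt_of_le_of_ne h6 fun e => ?_), lt_of_le_of_ne h5 fun e => ?_⟩
    · rw [e] at h8; simp at h8
    · rw [← e] at h8; simp at h8
  · rintro ⟨h7, h8⟩
    rw [mem_ball_zero_iff] at h7
    have h8 : 0 < z.im := h8
    have h9 : 0 < 1 - ‖z‖ ^ 2 := by nlinarith [norm_nonneg z]
    have := mul_pos h8 h9
    by_contra hc
    rw [not_lt] at hc
    nlinarith [pow_le_pow_left₀ zero_le_one hc 2]

lemma norm_halfNu_eq_one {z : ℂ} (hz : z ∈ halfCl) (hno : z ∉ halfOp) : ‖halfNu z‖ = 1 :=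
  le_antisymm (norm_halfNu_le hz) (not_lt.mp fun h => hno ((norm_halfNu_lt_iff hz).mp h))

lemma halfNu_arc {z : ℂ} (h1 : ‖z‖ = 1) (h2 : 0 ≤ z.im) : 0 ≤ (halfNu z).im := by
  have hz : z ∈ halfCl := ⟨mem_closedBall_zero_iff.mpr h1.le, h2⟩
  have hne : z ≠ 0 := fun h => by simp [h] at h1
  have e : 1 + z ^ 2 = 2 * (z.re : ℂ) * z := by
    have hh : z * conj z = 1 := by rw [Complex.mul_conj', h1]; simp
    have hr : (2 * (z.re : ℂ)) = z + conj z := by rw [Complex.add_conj]; push_cast; ring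
    rw [hr, add_mul, mul_comm (conj z), hh]; ring
  have hxi : (z.re : ℂ) - I ≠ 0 := fun h => by simpa using congrArg Complex.im h
  have hd := nuDen_ne hz
  have : halfNu z = -I * ((z.re : ℂ) + I) / ((z.re : ℂ) - I) := by
    rw [halfNu, div_eq_div_iff hd hxi, nuNum, nuDen]
    linear_combination -I * ((z.re : ℂ) - I - ((z.re : ℂ) + I)) * e
  rw [this]
  simp only [Complex.div_im, Complex.mul_re, Complex.mul_im, Complex.neg_re, Complex.neg_im,
    Complex.I_re, Complex.I_im, Complex.add_re, Complex.add_im, Complex.sub_re, Complex.sub_im,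
    Complex.ofReal_re, Complex.ofReal_im, Complex.normSq_apply]
  have h3 : z.re ^ 2 ≤ 1 := by
    have := Complex.abs_re_le_norm z
    rw [h1, abs_le] at this
    nlinarith
  ring_nf
  have h4 : (1:ℝ) + z.re ^ 2 > 0 := by positivity
  field_simp
  nlinarith

lemma halfNu_injOn : InjOn halfNu halfCl := by
  intro a ha b hb h
  have hda := nuDen_ne ha
  have hdb := nuDen_ne hb
  rw [halfNu, halfNu, div_eq_div_iff hda hdb] at h
  have h4 : ((a - b) * (1 - a * b)) * 4 = 0 := by
    simp only [nuNum, nuDen] at h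
    linear_combination h + 4 * (a - b) * (1 - a * b) * Complex.I_sq
  simp only [mul_eq_zero, sub_eq_zero] at h4
  rcases h4 with (h4 | h4) | h4
  · exact h4
  · have ha1 : ‖a‖ ≤ 1 := mem_closedBall_zero_iff.mp ha.1
    have hb1 : ‖b‖ ≤ 1 := mem_closedBall_zero_iff.mp hb.1
    have hn := congrArg norm h4
    rw [norm_one, norm_mul] at hn
    have hna : ‖a‖ = 1 := by nlinarith [norm_nonneg a, norm_nonneg b]
    have hne : a ≠ 0 := fun h => by simp [h] at hna
    have hconj : b = conj a := by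
      have : a * conj a = 1 := by rw [Complex.mul_conj', hna]; simp
      exact mul_left_cancel₀ hne (h4.symm.trans this.symm)
    have h1 : 0 ≤ a.im := ha.2
    have h2 : 0 ≤ b.im := hb.2
    rw [hconj, Complex.conj_im] at h2
    rw [hconj, Complex.conj_eq_iff_im.mpr (le_antisymm (by linarith) h1)]
  · norm_num at h4

lemma halfNu_surj {w : ℂ} (hw : ‖w‖ ≤ 1) : ∃ z ∈ halfCl, halfNu z = w := by
  by_cases hwI : w + I = 0
  · exact ⟨0, ⟨by simp, by simp⟩, by simp [halfNu, nuNum, nuDen, eq_neg_of_add_eq_zero_left hwI]⟩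
  obtain ⟨d, hd⟩ := IsAlgClosed.exists_pow_nat_eq
    ((2 * I * (w - I) / (w + I)) ^ 2 - 4) (n := 2) (by norm_num)
  set s := 2 * I * (w - I) / (w + I) with hs
  set z₁ := (s + d) / 2
  set z₂ := (s - d) / 2
  have hprod : z₁ * z₂ = 1 := by simp only [z₁, z₂]; linear_combination (-1 / 4 : ℂ) * hd
  have hsum : z₁ + z₂ = s := by simp only [z₁, z₂]; ring
  obtain ⟨z, y, hzy, hsy, hz1⟩ : ∃ z y, z * y = 1 ∧ z + y = s ∧ ‖z‖ ≤ 1 := by
    rcases le_total ‖z₁‖ ‖z₂‖ with h | h
    · exact ⟨z₁, z₂, hprod, hsum, by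
        have := congrArg norm hprod; rw [norm_mul, norm_one] at this
        nlinarith [norm_nonneg z₁]⟩
    · exact ⟨z₂, z₁, (mul_comm _ _).trans hprod, (add_comm _ _).trans hsum, by
        have := congrArg norm hprod; rw [norm_mul, norm_one] at this
        nlinarith [norm_nonneg z₂]⟩
  have key : ∀ z y : ℂ, z * y = 1 → z + y = s → -I * nuNum z = w * nuDen z := by
    intro z y h1 h2
    have e : s * (w + I) = 2 * I * (w - I) := by rw [hs, div_mul_cancel₀ _ hwI]
    have hq : z ^ 2 + 1 = s * z := by rw [← h2, ← h1]; ring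
    simp only [nuNum, nuDen]
    linear_combination (-(w + I)) * hq - z * e
  have fin : ∀ z y : ℂ, z * y = 1 → z + y = s → ‖z‖ ≤ 1 → 0 ≤ z.im →
      ∃ z ∈ halfCl, halfNu z = w := by
    intro z y h1 h2 h3 h4
    have hz : z ∈ halfCl := ⟨mem_closedBall_zero_iff.mpr h3, h4⟩
    exact ⟨z, hz, by rw [halfNu, key z y h1 h2, mul_div_assoc, div_self (nuDen_ne hz), mul_one]⟩
  rcases eq_or_lt_of_le hz1 with h | h
  · rcases le_total 0 z.im with hi | hi
    · exact fin z y hzy hsy hz1 hi
    · have hy : y = conj z := by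
        have hne : z ≠ 0 := left_ne_zero_of_mul_eq_one hzy
        have : z * conj z = 1 := by rw [Complex.mul_conj', h]; simp
        exact mul_left_cancel₀ hne (hzy.trans this.symm)
      exact fin y z (by rw [mul_comm]; exact hzy) (by rw [add_comm]; exact hsy)
        (by rw [hy, Complex.norm_conj]; exact hz1) (by rw [hy, Complex.conj_im]; linarith)
  · refine fin z y hzy hsy hz1 ?_
    have hk := congrArg Complex.normSq (key z y hzy hsy)
    rw [map_mul, map_mul, Complex.normSq_neg, Complex.normSq_I, one_mul] at hk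
    have hi := nu_identity z
    have hden : 0 < Complex.normSq (nuDen z) := by
      rw [Complex.normSq_pos]
      intro h0
      rw [h0, map_zero, mul_zero, Complex.normSq_eq_zero] at hk
      have h5 : (4 * I) * z = 0 := by
        have : nuNum z - nuDen z = 4 * I * z := by simp [nuNum, nuDen]; ring
        rw [← this, hk, h0, sub_zero]
      have hz0 : z = 0 := by simpa using h5
      simp [hz0] at hzy
    have hw1 : Complex.normSq w ≤ 1 := by
      rw [Complex.normSq_eq_norm_sq]; nlinarith [norm_nonneg w]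
    have hz2 : 0 < 1 - Complex.normSq z := by
      rw [Complex.normSq_eq_norm_sq]; nlinarith [norm_nonneg z]
    by_contra hneg
    rw [not_le] at hneg
    nlinarith [mul_le_mul_of_nonneg_right hw1 hden.le, mul_neg_of_neg_of_pos hneg hz2]

lemma continuousOn_halfNu : ContinuousOn halfNu halfCl := by
  unfold halfNu
  refine ContinuousOn.div ?_ ?_ fun z hz => nuDen_ne hz
  · unfold nuNum; fun_prop
  · unfold nuDen; fun_prop

lemma hasDerivAt_halfNu {z : ℂ} (hz : z ∈ halfCl) :
    HasDerivAt halfNu (4 * (1 - z ^ 2) / nuDen z ^ 2) z := by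
  have h1 : HasDerivAt nuNum (2 * I + 2 * z) z := by
    have := (((hasDerivAt_id z).const_mul (2 * I)).const_add 1).add ((hasDerivAt_id z).pow 2)
    exact this.congr_deriv (by simp)
  have h2 : HasDerivAt nuDen (-(2 * I) + 2 * z) z := by
    have := (((hasDerivAt_id z).const_mul (2 * I)).const_sub 1).add ((hasDerivAt_id z).pow 2)
    exact this.congr_deriv (by simp)
  refine ((h1.const_mul (-I)).div h2 (nuDen_ne hz)).congr_deriv ?_
  congr 1
  simp only [nuNum, nuDen]
  linear_combination -4 * (1 - z ^ 2) * Complex.I_sq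

/-- The inverse map of `halfNu`. -/
theorem exists_halfDisc_map : ∃ μ : ℂ → ℂ, ContinuousOn μ (closedBall 0 1) ∧
    DifferentiableOn ℂ μ (ball 0 1) ∧ MapsTo μ (closedBall 0 1) halfCl ∧
    MapsTo μ (ball 0 1) halfOp ∧ (∀ w ∈ closedBall (0:ℂ) 1, halfNu (μ w) = w) ∧
    ∀ z ∈ halfCl, μ (halfNu z) = z := by
  classical
  have hex : ∀ w, ∃ z, ‖w‖ ≤ 1 → z ∈ halfCl ∧ halfNu z = w := fun w => by
    by_cases h : ‖w‖ ≤ 1
    · obtain ⟨z, hz, hze⟩ := halfNu_surj h
      exact ⟨z, fun _ => ⟨hz, hze⟩⟩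
    · exact ⟨0, fun h' => absurd h' h⟩
  choose μ hμ using hex
  have hmaps : MapsTo μ (closedBall 0 1) halfCl := fun w hw =>
    (hμ w (mem_closedBall_zero_iff.mp hw)).1
  have hright : ∀ w ∈ closedBall (0:ℂ) 1, halfNu (μ w) = w := fun w hw =>
    (hμ w (mem_closedBall_zero_iff.mp hw)).2
  have hleft : ∀ z ∈ halfCl, μ (halfNu z) = z := fun z hz => by
    have h := mem_closedBall_zero_iff.mpr (norm_halfNu_le hz)
    exact halfNu_injOn (hmaps h) hz (hright _ h)
  have hcont : ContinuousOn μ (closedBall 0 1) := by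
    rw [continuousOn_iff_isClosed]
    intro t ht
    refine ⟨halfNu '' (t ∩ halfCl), ((isCompact_halfCl.inter_left ht).image_of_continuousOn
      (continuousOn_halfNu.mono inter_subset_right)).isClosed, ?_⟩
    ext w
    constructor
    · rintro ⟨h1, h2⟩
      exact ⟨⟨μ w, ⟨h1, hmaps h2⟩, hright w h2⟩, h2⟩
    · rintro ⟨⟨z, hz, rfl⟩, h2⟩
      exact ⟨by rw [mem_preimage, hleft z hz.2]; exact hz.1, h2⟩
  have hop : MapsTo μ (ball 0 1) halfOp := fun w hw => by
    have h := ball_subset_closedBall hw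
    rw [← norm_halfNu_lt_iff (hmaps h), hright w h]
    exact mem_ball_zero_iff.mp hw
  refine ⟨μ, hcont, fun w hw => ?_, hmaps, hop, hright, hleft⟩
  have h := ball_subset_closedBall hw
  have hd := hasDerivAt_halfNu (hmaps h)
  have hne : 4 * (1 - μ w ^ 2) / nuDen (μ w) ^ 2 ≠ 0 := by
    refine div_ne_zero (mul_ne_zero (by norm_num) fun h0 => ?_) (pow_ne_zero 2 (nuDen_ne (hmaps h)))
    have hn := mem_ball_zero_iff.mp (hop hw).1
    have := congrArg norm (sub_eq_zero.mp h0)
    rw [norm_one, norm_pow] at this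
    nlinarith [norm_nonneg (μ w)]
  exact (hd.of_local_left_inverse
    ((hcont.mono ball_subset_closedBall).continuousAt (isOpen_ball.mem_nhds hw)) hne
    (eventually_of_mem (isOpen_ball.mem_nhds hw) fun v hv =>
      hright v (ball_subset_closedBall hv))).differentiableAt.differentiableWithinAt

end Vale.Agent.P116
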