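import Mathlib
import Vale.Agent.P116.Basic

/-!
# Logarithms on compact subsets of an open set without holes
-/

open Set Filter Metric Complex
open scoped Topology

namespace Vale.Agent.P116

/-- A lattice point. -/
def gpt (δ : ℝ) (v : ℤ × ℤ) : ℂ := ⟨δ * v.1, δ * v.2⟩

/-- A closed lattice square. -/
def gsq (δ : ℝ) (v : ℤ × ℤ) : Set ℂ :=
  Icc (δ * v.1) (δ * (v.1 + 1)) ×ℂ Icc (δ * v.2) (δ * (v.2 + 1))

/-- The far end of an edge. -/
def etgt (e : (ℤ × ℤ) × Bool) : ℤ × ℤ :=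
  if e.2 then (e.1.1 + 1, e.1.2) else (e.1.1, e.1.2 + 1)

/-- A lattice edge. -/
def eseg (δ : ℝ) (e : (ℤ × ℤ) × Bool) : Set ℂ := segment ℝ (gpt δ e.1) (gpt δ (etgt e))

/-- The lattice square of a point. -/
noncomputable def gfl (δ : ℝ) (z : ℂ) : ℤ × ℤ := (⌊z.re / δ⌋, ⌊z.im / δ⌋)

lemma convex_gsq (δ : ℝ) (v : ℤ × ℤ) : Convex ℝ (gsq δ v) :=
  ((convex_Icc _ _).linear_preimage Complex.reLm).inter
    ((convex_Icc _ _).linear_preimage Complex.imLm)

lemma isCompact_gsq (δ : ℝ) (v : ℤ × ℤ) : IsCompact (gsq δ v) :=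
  isCompact_Icc.reProdIm isCompact_Icc

lemma gpt_mem_gsq {δ : ℝ} (hδ : 0 ≤ δ) {u v : ℤ × ℤ}
    (h1 : v.1 ≤ u.1) (h2 : u.1 ≤ v.1 + 1) (h3 : v.2 ≤ u.2) (h4 : u.2 ≤ v.2 + 1) :
    gpt δ u ∈ gsq δ v := by
  have a1 : (v.1 : ℝ) ≤ u.1 := by exact_mod_cast h1
  have a2 : (u.1 : ℝ) ≤ v.1 + 1 := by exact_mod_cast h2
  have a3 : (v.2 : ℝ) ≤ u.2 := by exact_mod_cast h3
  have a4 : (u.2 : ℝ) ≤ v.2 + 1 := by exact_mod_cast h4
  exact ⟨⟨mul_le_mul_of_nonneg_left a1 hδ, mul_le_mul_of_nonneg_left a2 hδ⟩,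
    ⟨mul_le_mul_of_nonneg_left a3 hδ, mul_le_mul_of_nonneg_left a4 hδ⟩⟩

lemma mem_gsq_gfl {δ : ℝ} (hδ : 0 < δ) (z : ℂ) : z ∈ gsq δ (gfl δ z) := by
  refine ⟨⟨?_, ?_⟩, ⟨?_, ?_⟩⟩
  · have := mul_le_mul_of_nonneg_left (Int.floor_le (z.re / δ)) hδ.le
    simpa [gfl, mul_div_cancel₀ _ hδ.ne'] using this
  · have := mul_le_mul_of_nonneg_left (Int.lt_floor_add_one (z.re / δ)).le hδ.le
    simpa [gfl, mul_div_cancel₀ _ hδ.ne'] using this
  · have := mul_le_mul_of_nonneg_left (Int.floor_le (z.im / δ)) hδ.le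
    simpa [gfl, mul_div_cancel₀ _ hδ.ne'] using this
  · have := mul_le_mul_of_nonneg_left (Int.lt_floor_add_one (z.im / δ)).le hδ.le
    simpa [gfl, mul_div_cancel₀ _ hδ.ne'] using this

lemma dist_le_of_mem_gsq {δ : ℝ} {v : ℤ × ℤ} {z w : ℂ}
    (hz : z ∈ gsq δ v) (hw : w ∈ gsq δ v) : dist z w ≤ 2 * δ := by
  rw [dist_eq_norm]
  refine (Complex.norm_le_abs_re_add_abs_im _).trans ?_
  obtain ⟨⟨a1, a2⟩, a3, a4⟩ := hz
  obtain ⟨⟨b1, b2⟩, b3, b4⟩ := hw
  have e1 : |(z - w).re| ≤ δ := by rw [Complex.sub_re, abs_le]; constructor <;> linarith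
  have e2 : |(z - w).im| ≤ δ := by rw [Complex.sub_im, abs_le]; constructor <;> linarith
  linarith

lemma mem_eseg_vert {δ : ℝ} (hδ : 0 < δ) {i j : ℤ} {z : ℂ}
    (h1 : z ∈ gsq δ (i - 1, j)) (h2 : z ∈ gsq δ (i, j)) : z ∈ eseg δ ((i, j), false) := by
  obtain ⟨⟨_, a2⟩, a3, a4⟩ := h1
  obtain ⟨⟨b1, _⟩, _, _⟩ := h2
  push_cast at a2 a3 a4 b1
  have hre : z.re = δ * i := by
    have : δ * ((i : ℝ) - 1 + 1) = δ * i := by ring
    linarith
  refine ⟨1 - (z.im / δ - j), z.im / δ - j, ?_, ?_, by ring, ?_⟩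
  · rw [sub_nonneg, sub_le_iff_le_add, div_le_iff₀ hδ]; linarith
  · rw [sub_nonneg, le_div_iff₀ hδ]; linarith
  · apply Complex.ext
    · simp [gpt, etgt, hre]; ring
    · simp [gpt, etgt]; field_simp; ring

lemma mem_eseg_horiz {δ : ℝ} (hδ : 0 < δ) {i j : ℤ} {z : ℂ}
    (h1 : z ∈ gsq δ (i, j - 1)) (h2 : z ∈ gsq δ (i, j)) : z ∈ eseg δ ((i, j), true) := by
  obtain ⟨⟨a1, a2⟩, _, a4⟩ := h1
  obtain ⟨_, b1, _⟩ := h2
  push_cast at a1 a2 a4 b1
  have him : z.im = δ * j := by
    have : δ * ((j : ℝ) - 1 + 1) = δ * j := by ring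
    linarith
  refine ⟨1 - (z.re / δ - i), z.re / δ - i, ?_, ?_, by ring, ?_⟩
  · rw [sub_nonneg, sub_le_iff_le_add, div_le_iff₀ hδ]; linarith
  · rw [sub_nonneg, le_div_iff₀ hδ]; linarith
  · apply Complex.ext
    · simp [gpt, etgt]; field_simp; ring
    · simp [gpt, etgt, him]; ring

lemma log_diff_const {S : Set ℂ} (hS : IsPreconnected S) {g₁ g₂ : ℂ → ℂ}
    (h₁ : ContinuousOn g₁ S) (h₂ : ContinuousOn g₂ S)
    (he : ∀ z ∈ S, Complex.exp (g₁ z) = Complex.exp (g₂ z)) {x y : ℂ} (hx : x ∈ S) (hy : y ∈ S) :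
    g₁ y - g₁ x = g₂ y - g₂ x := by
  have hinj : ∀ w ∈ (univ : Set ℂ), ∃ N ∈ 𝓝 w, InjOn Complex.exp N := fun w _ =>
    exists_injOn_nhds isOpen_univ Complex.differentiable_exp.differentiableOn (mem_univ w)
      (by simp)
  have hk : Complex.exp (g₁ x - g₂ x) = 1 := by
    rw [Complex.exp_sub, he x hx, div_self (Complex.exp_ne_zero _)]
  have := eqOn_of_lift hinj hS h₁ (h₂.add continuousOn_const) (mapsTo_univ _ _)
    (g := fun z => g₂ z + (g₁ x - g₂ x))
    (fun z hz => by rw [Complex.exp_add, hk, mul_one, he z hz]) hx (by ring) hy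
  simp only at this
  rw [this]; ring

lemma exists_log_compact_convex {U : Set ℂ} (hU : IsOpen U) {f : ℂ → ℂ} (hf : ContinuousOn f U)
    (h0 : ∀ z ∈ U, f z ≠ 0) {Q : Set ℂ} (hQ : IsCompact Q) (hQc : Convex ℝ Q) (hQU : Q ⊆ U) :
    ∃ g : ℂ → ℂ, ContinuousOn g Q ∧ ∀ z ∈ Q, Complex.exp (g z) = f z := by
  rcases Q.eq_empty_or_nonempty with rfl | hne
  · exact ⟨0, continuousOn_empty _, by simp⟩
  obtain ⟨η, hη, hηU⟩ := hQ.exists_thickening_subset_open hU hQU
  have hne' : (thickening η Q).Nonempty := hne.mono (self_subset_thickening hη Q)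
  obtain ⟨g, hgc, hg⟩ := Complex.exists_continuousOn_eqOn_exp_comp
    (isSimplyConnected_convex (hQc.thickening η) hne') isOpen_thickening (hf.mono hηU)
    (by rintro ⟨z, hz, hz0⟩; exact h0 z (hηU hz) hz0)
  exact ⟨g, hgc.mono (self_subset_thickening hη Q),
    fun z hz => hg (self_subset_thickening hη Q hz)⟩

/-- The main combinatorial step: no integer cycle winds around the complement. -/
lemma cycle_weight_zero {U : Set ℂ} {δ : ℝ} (hδ : 0 < δ)
    (hK : ∀ a ∉ U, ∃ S, IsPreconnected S ∧ a ∈ S ∧ S ⊆ Uᶜ ∧ ¬ Bornology.IsBounded S)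
    (cH cV : ℤ × ℤ → ℂ) (N : ℤ) (w : ℤ × ℤ → ℂ)
    (hH : ∀ i j, w (i, j) - w (i, j - 1) = cH (i, j))
    (hV : ∀ i j, w (i - 1, j) - w (i, j) = cV (i, j))
    (hcH : ∀ i j, ¬ eseg δ ((i, j), true) ⊆ U → cH (i, j) = 0)
    (hcV : ∀ i j, ¬ eseg δ ((i, j), false) ⊆ U → cV (i, j) = 0)
    (hsupp : ∀ i j, (N < |i| ∨ N < |j|) → w (i, j) = 0) :
    ∀ v, w v ≠ 0 → gsq δ v ⊆ U := by
  have hsame : ∀ k ∉ U, ∀ v, k ∈ gsq δ v → w v = w (gfl δ k) := by
    intro k hk v hv
    obtain ⟨i, j⟩ := v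
    have hfl := mem_gsq_gfl hδ k
    have stepH : ∀ i j, k ∈ gsq δ (i - 1, j) → k ∈ gsq δ (i, j) → w (i - 1, j) = w (i, j) := by
      intro i j h1 h2
      have := hcV i j (fun hsub => hk (hsub (mem_eseg_vert hδ h1 h2)))
      rw [← sub_eq_zero, hV, this]
    have stepV : ∀ i j, k ∈ gsq δ (i, j - 1) → k ∈ gsq δ (i, j) → w (i, j) = w (i, j - 1) := by
      intro i j h1 h2
      have := hcH i j (fun hsub => hk (hsub (mem_eseg_horiz hδ h1 h2)))
      rw [← sub_eq_zero, hH, this]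
    obtain ⟨⟨a1, a2⟩, a3, a4⟩ := hv
    have b1 : i ≤ ⌊k.re / δ⌋ := Int.le_floor.mpr (by rw [le_div_iff₀ hδ]; linarith)
    have b2 : ⌊k.re / δ⌋ ≤ i + 1 := by
      have : (⌊k.re / δ⌋ : ℝ) ≤ i + 1 :=
        (Int.floor_le _).trans (by rw [div_le_iff₀ hδ]; linarith)
      exact_mod_cast this
    have b3 : j ≤ ⌊k.im / δ⌋ := Int.le_floor.mpr (by rw [le_div_iff₀ hδ]; linarith)
    have b4 : ⌊k.im / δ⌋ ≤ j + 1 := by
      have : (⌊k.im / δ⌋ : ℝ) ≤ j + 1 :=
        (Int.floor_le _).trans (by rw [div_le_iff₀ hδ]; linarith)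
      exact_mod_cast this
    have e1 : w (i, j) = w (⌊k.re / δ⌋, j) := by
      rcases eq_or_lt_of_le b1 with h | h
      · rw [← h]
      · have hi : ⌊k.re / δ⌋ = i + 1 := le_antisymm b2 h
        rw [hi]
        have := stepH (i + 1) j (by rw [add_sub_cancel_right]; exact ⟨⟨a1, a2⟩, a3, a4⟩)
          (by rw [← hi]; exact ⟨hfl.1, a3, a4⟩)
        rwa [add_sub_cancel_right] at this
    rw [e1]
    rcases eq_or_lt_of_le b3 with h | h
    · rw [h]; rfl
    · have hj : ⌊k.im / δ⌋ = j + 1 := le_antisymm b4 h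
      show _ = w (⌊k.re / δ⌋, ⌊k.im / δ⌋)
      rw [hj]
      have := stepV ⌊k.re / δ⌋ (j + 1)
        (by rw [add_sub_cancel_right]; exact ⟨hfl.1, a3, a4⟩) (by rw [← hj]; exact hfl)
      rw [add_sub_cancel_right] at this
      exact this.symm
  have hloc : ∀ k ∉ U, ∀ᶠ k' in 𝓝 k, k' ∉ U → w (gfl δ k') = w (gfl δ k) := by
    intro k hk
    have h1 : ∀ᶠ k' in 𝓝 k, k'.re / δ ∈ Ioo ((⌈k.re / δ⌉ : ℝ) - 1) (⌊k.re / δ⌋ + 1) :=
      (show ContinuousAt (fun z : ℂ => z.re / δ) k by fun_prop).eventually_mem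
        (Ioo_mem_nhds (by linarith [Int.ceil_lt_add_one (k.re / δ)]) (Int.lt_floor_add_one _))
    have h2 : ∀ᶠ k' in 𝓝 k, k'.im / δ ∈ Ioo ((⌈k.im / δ⌉ : ℝ) - 1) (⌊k.im / δ⌋ + 1) :=
      (show ContinuousAt (fun z : ℂ => z.im / δ) k by fun_prop).eventually_mem
        (Ioo_mem_nhds (by linarith [Int.ceil_lt_add_one (k.im / δ)]) (Int.lt_floor_add_one _))
    filter_upwards [h1, h2] with k' hr hi hk'
    have key : ∀ x x' : ℝ, x' ∈ Ioo ((⌈x⌉ : ℝ) - 1) (⌊x⌋ + 1) →
        (⌊x'⌋ : ℝ) ≤ x ∧ x ≤ ⌊x'⌋ + 1 := by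
      intro x x' hx
      have c1 : ⌊x'⌋ ≤ ⌊x⌋ := Int.lt_add_one_iff.mp (Int.floor_lt.mpr (by push_cast; exact hx.2))
      have c2 : ⌈x⌉ - 1 ≤ ⌊x'⌋ := Int.le_floor.mpr (by push_cast; exact hx.1.le)
      have c1' : (⌊x'⌋ : ℝ) ≤ ⌊x⌋ := by exact_mod_cast c1
      have c2' : (⌈x⌉ : ℝ) - 1 ≤ ⌊x'⌋ := by exact_mod_cast c2
      exact ⟨c1'.trans (Int.floor_le x), by linarith [Int.le_ceil x]⟩
    obtain ⟨r1, r2⟩ := key _ _ hr
    obtain ⟨i1, i2⟩ := key _ _ hi
    rw [le_div_iff₀ hδ] at r1 i1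
    rw [div_le_iff₀ hδ] at r2 i2
    exact hsame k hk _ ⟨⟨by simp [gfl]; linarith, by simp [gfl]; linarith⟩,
      ⟨by simp [gfl]; linarith, by simp [gfl]; linarith⟩⟩
  have hzero : ∀ k ∉ U, w (gfl δ k) = 0 := by
    intro k hk
    obtain ⟨S, hS, hkS, hSU, hSb⟩ := hK k hk
    have := isPreconnected_iff_preconnectedSpace.mp hS
    have hlc : IsLocallyConstant (fun s : S => w (gfl δ s)) := by
      rw [IsLocallyConstant.iff_eventually_eq]
      intro s
      have := (continuous_subtype_val.tendsto s).eventually (hloc s (hSU s.2))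
      filter_upwards [this] with t ht using ht (hSU t.2)
    obtain ⟨q, hqS, hq⟩ : ∃ q ∈ S, 2 * (δ * ((|N| : ℤ) + 2)) < ‖q‖ := by
      by_contra hh
      push Not at hh
      exact hSb (isBounded_iff_forall_norm_le.mpr ⟨_, hh⟩)
    have hkq : w (gfl δ k) = w (gfl δ q) :=
      hlc.apply_eq_of_preconnectedSpace ⟨k, hkS⟩ ⟨q, hqS⟩
    rw [hkq]
    have hq' := hq.trans_le (Complex.norm_le_abs_re_add_abs_im q)
    have big : ∀ x : ℝ, δ * (((|N| : ℤ) : ℝ) + 2) < |x| → N < |⌊x / δ⌋| := by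
      intro x hx
      have h1 : (((|N| : ℤ) : ℝ) + 2) < |x / δ| := by
        rw [abs_div, abs_of_pos hδ, lt_div_iff₀ hδ]; linarith
      have h2 : |x / δ| ≤ |(⌊x / δ⌋ : ℝ)| + 1 := by
        have := Int.floor_le (x / δ)
        have := Int.lt_floor_add_one (x / δ)
        rw [abs_le]
        constructor <;> linarith [le_abs_self (⌊x / δ⌋ : ℝ), neg_abs_le (⌊x / δ⌋ : ℝ)]
      have h3 : ((|N| : ℤ) : ℝ) + 1 < ((|⌊x / δ⌋| : ℤ) : ℝ) := by simp only [Int.cast_abs] at h1 ⊢; linarith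
      have h4 : |N| + 1 < |⌊x / δ⌋| := by exact_mod_cast h3
      linarith [le_abs_self N]
    refine hsupp _ _ ?_
    rcases le_or_gt (|q.im|) (|q.re|) with h | h
    · exact Or.inl (big q.re (by linarith))
    · exact Or.inr (big q.im (by linarith))
  intro v hv k hkv
  by_contra hk
  exact hv (by rw [hsame k hk v hkv, hzero k hk])

/-- Logarithms exist on compact subsets of an open set all whose complementary points can be
joined to infinity by a connected set avoiding the open set. -/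
theorem exists_log_on_compact {U : Set ℂ} (hU : IsOpen U)
    (hK : ∀ a ∉ U, ∃ S, IsPreconnected S ∧ a ∈ S ∧ S ⊆ Uᶜ ∧ ¬ Bornology.IsBounded S)
    {L : Set ℂ} (hL : IsCompact L) (hLU : L ⊆ U) {f : ℂ → ℂ} (hf : ContinuousOn f U)
    (h0 : ∀ z ∈ U, f z ≠ 0) :
    ∃ l : ℂ → ℂ, ContinuousOn l L ∧ ∀ z ∈ L, Complex.exp (l z) = f z := by
  classical
  obtain ⟨η, hη, hηU⟩ := hL.exists_thickening_subset_open hU hLU
  set δ := η / 3 with hδdef
  have hδ : 0 < δ := by positivity
  -- the finite set of squares meeting `L`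
  have hfin : {v : ℤ × ℤ | (gsq δ v ∩ L).Nonempty}.Finite := by
    obtain ⟨R, hR⟩ := hL.isBounded.exists_norm_le
    refine ((finite_Icc (-⌈R / δ⌉ - 1) (⌈R / δ⌉ + 1)).prod
      (finite_Icc (-⌈R / δ⌉ - 1) (⌈R / δ⌉ + 1))).subset ?_
    rintro v ⟨z, ⟨⟨a1, a2⟩, a3, a4⟩, hzL⟩
    have hzn := hR z hzL
    have hr := (Complex.abs_re_le_norm z).trans hzn
    have hi := (Complex.abs_im_le_norm z).trans hzn
    rw [abs_le] at hr hi
    have hc : R ≤ δ * ⌈R / δ⌉ := by
      have := mul_le_mul_of_nonneg_left (Int.le_ceil (R / δ)) hδ.le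
      rwa [mul_div_cancel₀ _ hδ.ne'] at this
    have key : ∀ x : ℤ, -R ≤ δ * ((x : ℝ) + 1) → δ * (x : ℝ) ≤ R →
        x ∈ Icc (-⌈R / δ⌉ - 1) (⌈R / δ⌉ + 1) := by
      intro x h1 h2
      constructor
      · have : (-(⌈R / δ⌉ : ℝ) - 1) ≤ x := by nlinarith
        exact_mod_cast this
      · have : (x : ℝ) ≤ ⌈R / δ⌉ + 1 := by nlinarith
        exact_mod_cast this
    exact ⟨key v.1 (by linarith) (by linarith), key v.2 (by linarith) (by linarith)⟩
  set S := hfin.toFinset with hSdef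
  have hSU : ∀ v ∈ S, gsq δ v ⊆ U := by
    intro v hv z hz
    rw [hSdef, Set.Finite.mem_toFinset] at hv
    obtain ⟨y, hy, hyL⟩ := hv
    exact hηU (mem_thickening_iff.mpr ⟨y, hyL,
      (dist_le_of_mem_gsq hz hy).trans_lt (by linarith)⟩)
  set E := S.biUnion (fun v => ({(v, true), ((v.1, v.2 + 1), true), (v, false),
      ((v.1 + 1, v.2), false)} : Finset ((ℤ × ℤ) × Bool))) with hEdef
  have hedge : ∀ v : ℤ × ℤ, eseg δ (v, true) ⊆ gsq δ v ∧
      eseg δ ((v.1, v.2 + 1), true) ⊆ gsq δ v ∧ eseg δ (v, false) ⊆ gsq δ v ∧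
      eseg δ ((v.1 + 1, v.2), false) ⊆ gsq δ v := by
    intro v
    refine ⟨?_, ?_, ?_, ?_⟩ <;>
      refine (convex_gsq δ v).segment_subset (gpt_mem_gsq hδ.le ?_ ?_ ?_ ?_)
        (gpt_mem_gsq hδ.le ?_ ?_ ?_ ?_) <;> (try simp [etgt]) <;> (try omega)
  have hEU : ∀ e ∈ E, eseg δ e ⊆ U := by
    intro e he
    rw [hEdef, Finset.mem_biUnion] at he
    obtain ⟨v, hv, he⟩ := he
    simp only [Finset.mem_insert, Finset.mem_singleton] at he
    obtain ⟨h1, h2, h3, h4⟩ := hedge v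
    rcases he with rfl | rfl | rfl | rfl
    · exact h1.trans (hSU v hv)
    · exact h2.trans (hSU v hv)
    · exact h3.trans (hSU v hv)
    · exact h4.trans (hSU v hv)
  -- increments of logarithms along edges
  have hlog : ∀ e, ∃ g : ℂ → ℂ, eseg δ e ⊆ U →
      ContinuousOn g (eseg δ e) ∧ ∀ z ∈ eseg δ e, Complex.exp (g z) = f z := by
    intro e
    by_cases h : eseg δ e ⊆ U
    · have hc : IsCompact (eseg δ e) := by
        rw [eseg, ← convexHull_pair]
        exact Set.Finite.isCompact_convexHull ℝ (toFinite _)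
      obtain ⟨g, hg⟩ := exists_log_compact_convex hU hf h0 hc (convex_segment _ _) h
      exact ⟨g, fun _ => hg⟩
    · exact ⟨0, fun h' => absurd h' h⟩
  choose g hg using hlog
  set a := fun e => g e (gpt δ (etgt e)) - g e (gpt δ e.1) with hadef
  have ha : ∀ (e : (ℤ × ℤ) × Bool) (Q : Set ℂ) (G : ℂ → ℂ), eseg δ e ⊆ Q → Q ⊆ U →
      ContinuousOn G Q → (∀ z ∈ Q, Complex.exp (G z) = f z) →
      G (gpt δ (etgt e)) - G (gpt δ e.1) = a e := by
    intro e Q G heQ hQU hG hGe
    obtain ⟨hg1, hg2⟩ := hg e (heQ.trans hQU)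
    exact log_diff_const (convex_segment _ _).isPreconnected (hG.mono heQ) hg1
      (fun z hz => by rw [hGe z (heQ hz), hg2 z hz])
      (left_mem_segment ℝ _ _) (right_mem_segment ℝ _ _)
  -- the coboundary
  let cob : ((ℤ × ℤ) → ℂ) →ₗ[ℂ] (E → ℂ) :=
    { toFun := fun l e => l (etgt e.1) - l e.1.1
      map_add' := by intros; ext; simp; ring
      map_smul' := by intros; ext; simp; ring }
  have hrange : (fun e : E => a e) ∈ LinearMap.range cob := by
    by_contra hcon
    obtain ⟨φ, hφ, hφ0⟩ := Submodule.exists_dual_map_eq_bot_of_notMem hcon inferInstance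
    have hφcob : ∀ l, φ (cob l) = 0 := by
      intro l
      have h1 : φ (cob l) ∈ (LinearMap.range cob).map φ :=
        Submodule.mem_map_of_mem (LinearMap.mem_range_self cob l)
      rw [hφ0] at h1
      simpa using h1
    set c : (ℤ × ℤ) × Bool → ℂ :=
      fun e => if h : e ∈ E then φ (Pi.single ⟨e, h⟩ 1) else 0 with hcdef
    have hc0 : ∀ e, e ∉ E → c e = 0 := fun e he => by simp [hcdef, he]
    have hφsum : ∀ m : (ℤ × ℤ) × Bool → ℂ, φ (fun e : E => m e) = ∑ e ∈ E, m e * c e := by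
      intro m
      rw [LinearMap.pi_apply_eq_sum_univ φ, ← Finset.sum_coe_sort E]
      refine Finset.sum_congr rfl fun e _ => ?_
      rw [smul_eq_mul, hcdef]
      simp only [e.2, dite_true]
      congr 2
      ext x
      simp [Pi.single_apply, eq_comm]
    have hcyc : ∀ v : ℤ × ℤ,
        c ((v.1 - 1, v.2), true) + c ((v.1, v.2 - 1), false) - c (v, true) - c (v, false) = 0 := by
      intro v
      have := hφcob (Pi.single v 1)
      have e2 : φ (cob (Pi.single v 1)) = ∑ e ∈ E,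
          ((Pi.single v (1:ℂ) : ℤ × ℤ → ℂ) (etgt e) -
            (Pi.single v (1:ℂ) : ℤ × ℤ → ℂ) e.1) * c e :=
        hφsum (fun e => (Pi.single v (1:ℂ) : ℤ × ℤ → ℂ) (etgt e) -
            (Pi.single v (1:ℂ) : ℤ × ℤ → ℂ) e.1)
      rw [e2] at this
      simp only [sub_mul, Finset.sum_sub_distrib, Pi.single_apply, ite_mul, one_mul, zero_mul,
        ← Finset.sum_filter] at this
      have s1 : ∑ e ∈ E.filter (fun e => etgt e = v), c e =
          ∑ e ∈ ({((v.1 - 1, v.2), true), ((v.1, v.2 - 1), false)} :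
            Finset ((ℤ × ℤ) × Bool)), c e := by
        refine Finset.sum_subset_zero_on_sdiff ?_ ?_ (fun _ _ => rfl)
        · intro e he
          obtain ⟨⟨i, j⟩, b⟩ := e
          obtain ⟨-, he⟩ := Finset.mem_filter.mp he
          subst he
          cases b <;> simp [etgt]
        · intro e he
          apply hc0
          obtain ⟨he1, he2⟩ := Finset.mem_sdiff.mp he
          intro heE
          apply he2
          simp only [Finset.mem_insert, Finset.mem_singleton] at he1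
          rcases he1 with rfl | rfl <;> exact Finset.mem_filter.mpr ⟨heE, by simp [etgt]⟩
      have s2 : ∑ e ∈ E.filter (fun e => e.1 = v), c e =
          ∑ e ∈ ({(v, true), (v, false)} : Finset ((ℤ × ℤ) × Bool)), c e := by
        refine Finset.sum_subset_zero_on_sdiff ?_ ?_ (fun _ _ => rfl)
        · intro e he
          obtain ⟨u, b⟩ := e
          obtain ⟨-, he⟩ := Finset.mem_filter.mp he
          subst he
          cases b <;> simp
        · intro e he
          apply hc0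
          obtain ⟨he1, he2⟩ := Finset.mem_sdiff.mp he
          intro heE
          apply he2
          simp only [Finset.mem_insert, Finset.mem_singleton] at he1
          rcases he1 with rfl | rfl <;> simp [heE]
      rw [s1, s2, Finset.sum_pair (by simp), Finset.sum_pair (by simp)] at this
      linear_combination this
    -- a bound for the edges
    obtain ⟨N, hN⟩ : ∃ N : ℤ, ∀ e ∈ E, |e.1.1| < N ∧ |e.1.2| < N := by
      refine ⟨(∑ e ∈ E, (|e.1.1| + |e.1.2|)) + 1, fun e he => ?_⟩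
      have := Finset.single_le_sum (f := fun e : (ℤ × ℤ) × Bool => |e.1.1| + |e.1.2|)
        (fun e _ => by positivity) he
      constructor <;> linarith [abs_nonneg e.1.1, abs_nonneg e.1.2]
    have hcN : ∀ i j b, (N ≤ |i| ∨ N ≤ |j|) → c ((i, j), b) = 0 := by
      intro i j b h
      apply hc0
      intro he
      have := hN _ he
      simp only at this
      rcases h with h | h <;> linarith
    set w : ℤ × ℤ → ℂ := fun v => ∑ l ∈ Finset.Icc (-N) v.2, c ((v.1, l), true) with hwdef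
    have hwlow : ∀ i j, j < -N → w (i, j) = 0 := fun i j h => by
      simp [hwdef, Finset.Icc_eq_empty_of_lt h]
    have hH : ∀ i j, w (i, j) - w (i, j - 1) = c ((i, j), true) := by
      intro i j
      rcases le_or_gt (-N) j with h | h
      · have : Finset.Icc (-N) j = insert j (Finset.Icc (-N) (j - 1)) := by
          ext x; simp only [Finset.mem_Icc, Finset.mem_insert]; omega
        simp only [hwdef]
        rw [this, Finset.sum_insert (by simp)]
        ring
      · rw [hwlow i j h, hwlow i (j - 1) (by omega), hcN i j true (Or.inr (by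
          have := neg_abs_le j; linarith)), sub_zero]
    have hV : ∀ i j, w (i - 1, j) - w (i, j) = c ((i, j), false) := by
      intro i
      have base : ∀ j, j < -N → w (i - 1, j) - w (i, j) = c ((i, j), false) := by
        intro j h
        rw [hwlow _ j h, hwlow _ j h, hcN i j false (Or.inr (by
          have := neg_abs_le j; linarith)), sub_zero]
      intro j
      rcases lt_or_ge j (-N) with h | h
      · exact base j h
      · refine Int.leInduction (m := -N - 1)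
          (motive := fun j _ => w (i - 1, j) - w (i, j) = c ((i, j), false))
          (base (-N - 1) (by omega)) (fun m hm ih => ?_) j (by omega)
        have h1 := hH (i - 1) (m + 1)
        have h2 := hH i (m + 1)
        have h3 := hcyc (i, m + 1)
        simp only [add_sub_cancel_right] at h1 h2 h3
        linear_combination ih + h1 - h2 + h3
    have hwside : ∀ i j, N < |i| → w (i, j) = 0 := fun i j h => by
      simp only [hwdef]
      exact Finset.sum_eq_zero fun l _ => hcN i l true (Or.inl h.le)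
    have hsupp : ∀ i j, (N < |i| ∨ N < |j|) → w (i, j) = 0 := by
      intro i j h
      rcases h with h | h
      · exact hwside i j h
      have hstep : ∀ i, w (i - 1, j) = w (i, j) := fun i => by
        rw [← sub_eq_zero, hV, hcN i j false (Or.inr h.le)]
      have hup : w (|i| + |N| + 1, j) = 0 := hwside _ j (by
        rw [abs_of_nonneg (by positivity)]; linarith [abs_nonneg i, le_abs_self N])
      rw [← hup]
      exact Int.leInduction (m := i) (motive := fun n _ => w (i, j) = w (n, j)) rfl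
        (fun n _ ih => by rw [ih]; simpa using hstep (n + 1)) _
        (by linarith [le_abs_self i, abs_nonneg N])
    have hwU := cycle_weight_zero hδ hK (fun v => c (v, true)) (fun v => c (v, false)) N w hH hV
      (fun i j h => hc0 _ fun he => h (hEU _ he)) (fun i j h => hc0 _ fun he => h (hEU _ he)) hsupp
    apply hφ
    rw [hφsum]
    -- summation by parts
    set B := Finset.Icc (-N) N ×ˢ Finset.Icc (-N) N with hBdef
    set B' := Finset.Icc (-N - 1) (N + 1) ×ˢ Finset.Icc (-N - 1) (N + 1) with hB'def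
    have hwB : ∀ v, v ∉ B → w v = 0 := by
      rintro ⟨i, j⟩ hv
      apply hsupp
      by_contra hh
      push Not at hh
      rw [abs_le, abs_le] at hh
      exact hv (by simp [hBdef, hh.1.1, hh.1.2, hh.2.1, hh.2.2])
    have shift : ∀ (d : ℤ × ℤ) (A : ℤ × ℤ → ℂ), d.1 ∈ Icc (0:ℤ) 1 → d.2 ∈ Icc (0:ℤ) 1 →
        ∑ v ∈ B', w (v - d) * A v = ∑ u ∈ B, w u * A (u + d) := by
      intro d A h1 h2
      symm
      rw [show ∑ u ∈ B, w u * A (u + d) =
        ∑ v ∈ B.map ⟨fun u => u + d, add_left_injective d⟩, w (v - d) * A v by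
          rw [Finset.sum_map]; simp]
      apply Finset.sum_subset
      · rintro x hx
        simp only [Finset.mem_map, Function.Embedding.coeFn_mk] at hx
        obtain ⟨⟨p, q⟩, hpq, rfl⟩ := hx
        obtain ⟨d1, d2⟩ := d
        simp only [hBdef, hB'def, Finset.mem_product, Finset.mem_Icc, Prod.mk_add_mk, mem_Icc]
          at hpq h1 h2 ⊢
        omega
      · intro v _ hv
        rw [hwB, zero_mul]
        intro hvB
        exact hv (Finset.mem_map.mpr ⟨v - d, hvB, by simp⟩)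
    have hEB : E ⊆ B' ×ˢ (Finset.univ : Finset Bool) := by
      rintro ⟨⟨i, j⟩, b⟩ he
      have := hN _ he
      simp only [abs_lt] at this
      simp only [hB'def, Finset.mem_product, Finset.mem_Icc, Finset.mem_univ, and_true]
      omega
    rw [Finset.sum_subset hEB (fun e _ he => by rw [hc0 e he, mul_zero]), Finset.sum_product]
    have hsum : ∑ v ∈ B', ∑ b : Bool, a (v, b) * c (v, b) =
        ∑ v ∈ B', (w (v - (0, 0)) * a (v, true) - w (v - (0, 1)) * a (v, true) +
          (w (v - (1, 0)) * a (v, false) - w (v - (0, 0)) * a (v, false))) := by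
      refine Finset.sum_congr rfl fun v _ => ?_
      obtain ⟨i, j⟩ := v
      simp only [Fintype.univ_bool, Finset.mem_singleton, Bool.true_eq_false, not_false_iff,
        Finset.sum_insert, Finset.sum_singleton, Prod.mk_sub_mk, sub_zero]
      rw [← hH i j, ← hV i j]
      ring
    rw [hsum]
    simp only [Finset.sum_add_distrib, Finset.sum_sub_distrib]
    rw [shift (0, 0) (fun v => a (v, true)) (by simp) (by simp),
      shift (0, 1) (fun v => a (v, true)) (by simp) (by simp),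
      shift (1, 0) (fun v => a (v, false)) (by simp) (by simp),
      shift (0, 0) (fun v => a (v, false)) (by simp) (by simp),
      ← Finset.sum_sub_distrib, ← Finset.sum_sub_distrib, ← Finset.sum_add_distrib]
    refine Finset.sum_eq_zero fun u _ => ?_
    by_cases hw0 : w u = 0
    · simp [hw0]
    have hsub := hwU u hw0
    obtain ⟨G, hG, hGe⟩ :=
      exists_log_compact_convex hU hf h0 (isCompact_gsq δ u) (convex_gsq δ u) hsub
    obtain ⟨h1, h2, h3, h4⟩ := hedge u
    obtain ⟨i, j⟩ := u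
    simp only [Prod.mk_add_mk, add_zero]
    have q1 := ha _ _ G h1 hsub hG hGe
    have q2 := ha _ _ G h2 hsub hG hGe
    have q3 := ha _ _ G h3 hsub hG hGe
    have q4 := ha _ _ G h4 hsub hG hGe
    rw [← q1, ← q2, ← q3, ← q4]
    simp only [etgt, if_true, Bool.false_eq_true, if_false]
    ring
  obtain ⟨l₀, hl₀⟩ := hrange
  have hl₀' : ∀ e ∈ E, l₀ (etgt e) - l₀ e.1 = a e := fun e he => congrFun hl₀ ⟨e, he⟩
  set l₁ := fun v => l₀ v - Complex.log (Complex.exp (l₀ v) / f (gpt δ v)) with hl₁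
  have hl₁e : ∀ v, gpt δ v ∈ U → Complex.exp (l₁ v) = f (gpt δ v) := by
    intro v hv
    have := h0 _ hv
    rw [hl₁, Complex.exp_sub, Complex.exp_log (div_ne_zero (Complex.exp_ne_zero _) this),
      div_div_cancel₀ (Complex.exp_ne_zero _)]
  have hl₁' : ∀ e ∈ E, l₁ (etgt e) - l₁ e.1 = a e := by
    intro e he
    obtain ⟨hg1, hg2⟩ := hg e (hEU e he)
    have e1 := hl₀' e he
    have hs : f (gpt δ e.1) ≠ 0 := h0 _ (hEU e he (left_mem_segment ℝ _ _))
    have ht : f (gpt δ (etgt e)) ≠ 0 := h0 _ (hEU e he (right_mem_segment ℝ _ _))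
    have hk : Complex.exp (l₀ (etgt e)) / f (gpt δ (etgt e)) =
        Complex.exp (l₀ e.1) / f (gpt δ e.1) := by
      have : Complex.exp (l₀ (etgt e)) = Complex.exp (l₀ e.1) * Complex.exp (a e) := by
        rw [← Complex.exp_add, ← e1]; congr 1; ring
      rw [this]
      simp only [hadef]
      have hs' : f (gpt δ e.1) = Complex.exp (g e (gpt δ e.1)) :=
        (hg2 _ (left_mem_segment ℝ _ _)).symm
      have ht' : f (gpt δ (etgt e)) = Complex.exp (g e (gpt δ (etgt e))) :=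
        (hg2 _ (right_mem_segment ℝ _ _)).symm
      rw [hs', ht', Complex.exp_sub]
      field_simp
    simp only [hl₁, hk]
    linear_combination e1
  have hG : ∀ v, ∃ G : ℂ → ℂ, v ∈ S → ContinuousOn G (gsq δ v) ∧
      (∀ z ∈ gsq δ v, Complex.exp (G z) = f z) ∧
      ∀ u, v.1 ≤ u.1 → u.1 ≤ v.1 + 1 → v.2 ≤ u.2 → u.2 ≤ v.2 + 1 → G (gpt δ u) = l₁ u := by
    intro v
    by_cases hv : v ∈ S
    swap
    · exact ⟨0, fun h => absurd h hv⟩
    have hsub := hSU v hv
    have hv0 : gpt δ v ∈ gsq δ v := gpt_mem_gsq hδ.le le_rfl (by omega) le_rfl (by omega)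
    obtain ⟨G, hGc, hGe⟩ :=
      exists_log_compact_convex hU hf h0 (isCompact_gsq δ v) (convex_gsq δ v) hsub
    set k := l₁ v - G (gpt δ v) with hk
    have hk1 : Complex.exp k = 1 := by
      rw [hk, Complex.exp_sub, hl₁e v (hsub hv0), hGe _ hv0, div_self (h0 _ (hsub hv0))]
    refine ⟨fun z => G z + k, fun _ => ⟨hGc.add continuousOn_const, fun z hz => by
      rw [Complex.exp_add, hk1, mul_one, hGe z hz], ?_⟩⟩
    have hmem : ∀ e ∈ ({(v, true), ((v.1, v.2 + 1), true), (v, false),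
        ((v.1 + 1, v.2), false)} : Finset ((ℤ × ℤ) × Bool)), e ∈ E := fun e he => by
      rw [hEdef, Finset.mem_biUnion]; exact ⟨v, hv, he⟩
    obtain ⟨h1, h2, h3, h4⟩ := hedge v
    have q1 := (ha _ _ G h1 hsub hGc hGe).trans (hl₁' _ (hmem _ (by simp))).symm
    have q2 := (ha _ _ G h2 hsub hGc hGe).trans (hl₁' _ (hmem _ (by simp))).symm
    have q3 := (ha _ _ G h3 hsub hGc hGe).trans (hl₁' _ (hmem _ (by simp))).symm
    simp only [etgt, if_true, Bool.false_eq_true, if_false] at q1 q2 q3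
    obtain ⟨i, j⟩ := v
    rintro ⟨p, q⟩ b1 b2 b3 b4
    simp only at b1 b2 b3 b4 q1 q2 q3
    rcases (show p = i ∨ p = i + 1 by omega) with rfl | rfl <;>
      rcases (show q = j ∨ q = j + 1 by omega) with rfl | rfl
    · simp [hk]
    · simp only [hk]; linear_combination q3
    · simp only [hk]; linear_combination q1
    · simp only [hk]; linear_combination q2 + q3
  choose G hGprop using hG
  refine ⟨fun z => G (gfl δ z) z, ?_, ?_⟩
  · have hsame : ∀ v ∈ S, EqOn (fun z => G (gfl δ z) z) (G v) (L ∩ gsq δ v) := by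
      intro v hv z hz
      have hv' : gfl δ z ∈ S := by
        rw [hSdef, Set.Finite.mem_toFinset]
        exact ⟨z, mem_gsq_gfl hδ z, hz.1⟩
      obtain ⟨c1, e1, p1⟩ := hGprop _ hv'
      obtain ⟨c2, e2, p2⟩ := hGprop _ hv
      set u : ℤ × ℤ := (max (gfl δ z).1 v.1, max (gfl δ z).2 v.2) with hu
      have i1 := mem_gsq_gfl hδ z
      have i2 := hz.2
      have near : ∀ p q : ℤ, ∀ x : ℝ, x ∈ Icc (δ * p) (δ * (p + 1)) →
          x ∈ Icc (δ * q) (δ * (q + 1)) → p ≤ q + 1 := by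
        intro p q x hp hq
        have : δ * (p : ℝ) ≤ δ * (q + 1) := hp.1.trans hq.2
        have := le_of_mul_le_mul_left this hδ
        exact_mod_cast this
      have n1 := near _ _ _ i1.1 i2.1
      have n2 := near _ _ _ i2.1 i1.1
      have n3 := near _ _ _ i1.2 i2.2
      have n4 := near _ _ _ i2.2 i1.2
      have u1 : gpt δ u ∈ gsq δ (gfl δ z) := gpt_mem_gsq hδ.le (le_max_left _ _)
        (max_le (by omega) n2) (le_max_left _ _) (max_le (by omega) n4)
      have u2 : gpt δ u ∈ gsq δ v := gpt_mem_gsq hδ.le (le_max_right _ _)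
        (max_le n1 (by omega)) (le_max_right _ _) (max_le n3 (by omega))
      have := log_diff_const ((convex_gsq δ (gfl δ z)).inter (convex_gsq δ v)).isPreconnected
        (c1.mono inter_subset_left) (c2.mono inter_subset_right)
        (fun y hy => by rw [e1 y hy.1, e2 y hy.2]) (x := gpt δ u) ⟨u1, u2⟩ (y := z) ⟨i1, i2⟩
      rw [p1 u (le_max_left _ _) (max_le (by omega) n2) (le_max_left _ _) (max_le (by omega) n4),
        p2 u (le_max_right _ _) (max_le n1 (by omega)) (le_max_right _ _) (max_le n3 (by omega))]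
        at this
      simpa using this
    have hLeq : L = ⋃ v : S, L ∩ gsq δ v.1 := by
      ext z
      simp only [mem_iUnion, mem_inter_iff]
      refine ⟨fun hz => ⟨⟨gfl δ z, ?_⟩, hz, mem_gsq_gfl hδ z⟩, fun ⟨_, hz, _⟩ => hz⟩
      rw [hSdef, Set.Finite.mem_toFinset]
      exact ⟨z, mem_gsq_gfl hδ z, hz⟩
    rw [hLeq]
    exact (locallyFinite_of_finite _).continuousOn_iUnion
      (fun v => hL.isClosed.inter (isCompact_gsq δ v.1).isClosed)
      (fun v => (((hGprop v.1 v.2).1).mono inter_subset_right).congr (hsame v.1 v.2))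
  · intro z hz
    have hv' : gfl δ z ∈ S := by
      rw [hSdef, Set.Finite.mem_toFinset]
      exact ⟨z, mem_gsq_gfl hδ z, hz⟩
    exact (hGprop _ hv').2.1 z (mem_gsq_gfl hδ z)

end Vale.Agent.P116
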