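import Mathlib
import Vale.Agent.P116.Basic

/-!
# Automorphisms of the unit disc
-/

open Set Filter Metric Complex
open scoped Topology ComplexConjugate

namespace Vale.Agent.P116

/-- The disc automorphism sending `a` to `0`. -/
noncomputable def mob (a z : ℂ) : ℂ := (z - a) / (1 - conj a * z)

lemma mob_den_ne {a z : ℂ} (ha : ‖a‖ < 1) (hz : ‖z‖ ≤ 1) : 1 - conj a * z ≠ 0 := by
  intro h
  have h1 : conj a * z = 1 := (sub_eq_zero.mp h).symm
  have h2 := congrArg norm h1
  rw [norm_mul, Complex.norm_conj, norm_one] at h2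
  nlinarith [norm_nonneg a, norm_nonneg z]

lemma mob_identity (a z : ℂ) :
    Complex.normSq (1 - conj a * z) - Complex.normSq (z - a) =
      (1 - Complex.normSq a) * (1 - Complex.normSq z) := by
  simp [Complex.normSq_apply]; ring

lemma norm_mob_lt {a z : ℂ} (ha : ‖a‖ < 1) (hz : ‖z‖ < 1) : ‖mob a z‖ < 1 := by
  have hne := mob_den_ne ha hz.le
  rw [mob, norm_div, div_lt_one (norm_pos_iff.mpr hne)]
  have h := mob_identity a z
  simp only [Complex.normSq_eq_norm_sq] at h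
  have h3 : 0 < (1 - ‖a‖ ^ 2) * (1 - ‖z‖ ^ 2) := by
    apply mul_pos <;> nlinarith [norm_nonneg a, norm_nonneg z]
  nlinarith [norm_nonneg (z - a), norm_nonneg (1 - conj a * z)]

lemma norm_mob_eq_one {a z : ℂ} (ha : ‖a‖ < 1) (hz : ‖z‖ = 1) : ‖mob a z‖ = 1 := by
  have hne := mob_den_ne ha hz.le
  rw [mob, norm_div, div_eq_one_iff_eq (norm_ne_zero_iff.mpr hne)]
  have h := mob_identity a z
  simp only [Complex.normSq_eq_norm_sq, hz] at h
  nlinarith [norm_nonneg (z - a), norm_nonneg (1 - conj a * z)]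

lemma mob_mapsTo {a : ℂ} (ha : ‖a‖ < 1) : MapsTo (mob a) (ball 0 1) (ball 0 1) := fun z hz => by
  rw [mem_ball_zero_iff] at hz ⊢; exact norm_mob_lt ha hz

@[simp] lemma mob_self (a : ℂ) : mob a a = 0 := by simp [mob]

@[simp] lemma mob_zero (a : ℂ) : mob a 0 = -a := by simp [mob]

lemma mob_eq_zero {a z : ℂ} (ha : ‖a‖ < 1) (hz : ‖z‖ ≤ 1) : mob a z = 0 ↔ z = a := by
  simp [mob, mob_den_ne ha hz, sub_eq_zero]

lemma mob_neg_mob {a z : ℂ} (ha : ‖a‖ < 1) (hz : ‖z‖ ≤ 1) : mob (-a) (mob a z) = z := by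
  have h := mob_den_ne ha hz
  have h2 := mob_den_ne ha ha.le
  simp only [mob, sub_neg_eq_add, map_neg, neg_mul]
  have e1 : (z - a) / (1 - conj a * z) + a = z * (1 - conj a * a) / (1 - conj a * z) := by
    rw [div_add' _ _ _ h]; ring
  have e2 : 1 + conj a * ((z - a) / (1 - conj a * z)) =
      (1 - conj a * a) / (1 - conj a * z) := by
    rw [mul_div_assoc', one_add_div h]; ring
  rw [e1, e2, div_div_div_cancel_right₀ h, mul_div_assoc, div_self h2, mul_one]

lemma mob_mob_neg {a z : ℂ} (ha : ‖a‖ < 1) (hz : ‖z‖ ≤ 1) : mob a (mob (-a) z) = z := by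
  simpa using mob_neg_mob (a := -a) (by simpa using ha) hz

lemma hasDerivAt_mob {a z : ℂ} (ha : ‖a‖ < 1) (hz : ‖z‖ ≤ 1) :
    HasDerivAt (mob a) ((1 - conj a * a) / (1 - conj a * z) ^ 2) z := by
  have h := mob_den_ne ha hz
  have := ((hasDerivAt_id z).sub_const a).div (((hasDerivAt_id z).const_mul (conj a)).const_sub 1) h
  refine this.congr_deriv ?_
  simp only [id]
  ring

lemma differentiableOn_mob {a : ℂ} (ha : ‖a‖ < 1) :
    DifferentiableOn ℂ (mob a) (closedBall 0 1) := fun z hz =>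
  (hasDerivAt_mob ha (mem_closedBall_zero_iff.mp hz)).differentiableAt.differentiableWithinAt

lemma differentiableOn_mob_comp {a : ℂ} (ha : ‖a‖ < 1) {f : ℂ → ℂ} {W : Set ℂ}
    (hf : DifferentiableOn ℂ f W) (hmaps : MapsTo f W (ball 0 1)) :
    DifferentiableOn ℂ (fun z => mob a (f z)) W :=
  ((differentiableOn_mob ha).mono ball_subset_closedBall).comp hf hmaps

end Vale.Agent.P116
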