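import Mathlib
import Vale.Agent.P116.Basic
import Vale.Agent.P116.Mob
import Vale.Agent.P116.Grid

/-!
# The universal covering of a bounded open set by the disc, and the Riemann mapping theorem
-/

open Set Filter Metric Complex
open scoped Topology ComplexConjugate

namespace Vale.Agent.P116

/-- A holomorphic map `p : V → U` along which every map from a `SqrtSet` lifts. -/
structure IsStage (U : Set ℂ) (w₀ : ℂ) (V : Set ℂ) (p : ℂ → ℂ) : Prop where
  isOpen : IsOpen V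
  subset : V ⊆ ball 0 1
  zero_mem : (0 : ℂ) ∈ V
  map_zero : p 0 = w₀
  diff : DifferentiableOn ℂ p V
  maps : MapsTo p V U
  lift : ∀ (W : Set ℂ) (g : ℂ → ℂ), SqrtSet W → DifferentiableOn ℂ g W → MapsTo g W U →
    ∀ y ∈ V, ∀ x ∈ W, g x = p y →
      ∃ s : ℂ → ℂ, DifferentiableOn ℂ s W ∧ MapsTo s W V ∧ (∀ z ∈ W, p (s z) = g z) ∧ s x = y

variable {U : Set ℂ} {w₀ : ℂ} {V : Set ℂ} {p : ℂ → ℂ}

lemma IsStage.le_norm_deriv (hS : IsStage U w₀ V p) {R : ℝ} (hR : 0 < R)
    (hRU : ball w₀ R ⊆ U) : R ≤ ‖deriv p 0‖ := by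
  obtain ⟨s, hsd, hsV, hps, hsx⟩ := hS.lift (ball w₀ R) id
    (sqrtSet_convex isOpen_ball (convex_ball _ _)) differentiableOn_id hRU 0 hS.zero_mem w₀
    (mem_ball_self hR) hS.map_zero.symm
  have h1 : ‖deriv s w₀‖ ≤ 1 / R := Complex.norm_deriv_le_div_of_mapsTo_ball hsd
    (fun z hz => by
      rw [hsx, mem_closedBall_zero_iff]
      exact (mem_ball_zero_iff.mp (hS.subset (hsV hz))).le) hR
  have hs : HasDerivAt s (deriv s w₀) w₀ :=
    (hsd.differentiableAt (isOpen_ball.mem_nhds (mem_ball_self hR))).hasDerivAt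
  have hp : HasDerivAt p (deriv p 0) (s w₀) := by
    rw [hsx]; exact (hS.diff.differentiableAt (hS.isOpen.mem_nhds hS.zero_mem)).hasDerivAt
  have hc : HasDerivAt (fun z => p (s z)) (deriv p 0 * deriv s w₀) w₀ := hp.comp w₀ hs
  have he : deriv p 0 * deriv s w₀ = 1 := by
    refine hc.unique ?_
    refine (hasDerivAt_id w₀).congr_of_eventuallyEq ?_
    filter_upwards [isOpen_ball.mem_nhds (mem_ball_self hR)] with z hz using hps z hz
  have h2 := congrArg norm he
  rw [norm_mul, norm_one] at h2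
  have h3 : ‖deriv p 0‖ * ‖deriv s w₀‖ ≤ ‖deriv p 0‖ * (1 / R) :=
    mul_le_mul_of_nonneg_left h1 (norm_nonneg _)
  rw [h2, mul_one_div, le_div_iff₀ hR, one_mul] at h3
  exact h3

lemma IsStage.improve (hS : IsStage U w₀ V p) {a : ℂ} (ha : ‖a‖ < 1) (haV : a ∉ V) :
    ∃ V' p', IsStage U w₀ V' p' ∧
      ‖deriv p' 0‖ = ‖deriv p 0‖ * (2 * √‖a‖ / (1 + ‖a‖)) := by
  obtain ⟨b, hb⟩ := IsAlgClosed.exists_pow_nat_eq (-a) (n := 2) (by norm_num)
  have hbn : ‖b‖ ^ 2 = ‖a‖ := by rw [← norm_pow, hb, norm_neg]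
  have hb1 : ‖b‖ < 1 := by nlinarith [norm_nonneg b]
  have hbs : ‖b‖ = √‖a‖ := by rw [← hbn, Real.sqrt_sq (norm_nonneg b)]
  have hna : ‖(-a : ℂ)‖ < 1 := by simpa using ha
  have hnb : ‖(-b : ℂ)‖ < 1 := by simpa using hb1
  set q := fun z => mob (-a) (mob b z ^ 2) with hq
  have hsq : MapsTo (fun z => mob b z ^ 2) (ball 0 1) (ball 0 1) := fun z hz => by
    have := mem_ball_zero_iff.mp (mob_mapsTo hb1 hz)
    rw [mem_ball_zero_iff, norm_pow]
    exact pow_lt_one₀ (norm_nonneg _) this two_ne_zero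
  have hqmaps : MapsTo q (ball 0 1) (ball 0 1) := (mob_mapsTo hna).comp hsq
  have hqd : DifferentiableOn ℂ q (ball 0 1) := differentiableOn_mob_comp hna
    (((differentiableOn_mob hb1).mono ball_subset_closedBall).pow 2) hsq
  have hq0 : q 0 = 0 := by simp [hq, hb]
  set V' := ball (0 : ℂ) 1 ∩ q ⁻¹' V with hV'
  have hsub : V' ⊆ ball 0 1 := inter_subset_left
  have hmV : MapsTo q V' V := fun z hz => hz.2
  refine ⟨V', p ∘ q, ⟨hqd.continuousOn.isOpen_inter_preimage isOpen_ball hS.isOpen, hsub,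
    ⟨mem_ball_self one_pos, by simp [hq0, hS.zero_mem]⟩, by simp [hq0, hS.map_zero],
    hS.diff.comp (hqd.mono hsub) hmV, hS.maps.comp hmV, ?_⟩, ?_⟩
  · intro W g hW hg hgU y hy x hx hgx
    obtain ⟨s, hsd, hsV, hps, hsx⟩ := hS.lift W g hW hg hgU (q y) (hmV hy) x hx hgx
    have hsb : MapsTo s W (ball 0 1) := fun z hz => hS.subset (hsV hz)
    obtain ⟨r, hrd, hr⟩ := hW.2.2 (fun z => mob a (s z)) (differentiableOn_mob_comp ha hsd hsb)
      (fun z hz h0 => haV (((mob_eq_zero ha (mem_ball_zero_iff.mp (hsb hz)).le).mp h0) ▸ hsV hz))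
    have hyb : mob b y ∈ ball (0:ℂ) 1 := mob_mapsTo hb1 (hsub hy)
    have hrx : r x ^ 2 = mob b y ^ 2 := by
      rw [hr x hx, hsx, hq]
      exact mob_mob_neg ha (mem_ball_zero_iff.mp (hsq (hsub hy))).le
    obtain ⟨ε, hε, hεx⟩ : ∃ ε : ℂ, ε ^ 2 = 1 ∧ ε * r x = mob b y := by
      rcases sq_eq_sq_iff_eq_or_eq_neg.mp hrx with h | h
      · exact ⟨1, by simp, by simp [h]⟩
      · exact ⟨-1, by simp, by simp [h]⟩
    have hεn : ‖ε‖ = 1 := by
      have := congrArg norm hε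
      rw [norm_pow, norm_one] at this
      nlinarith [norm_nonneg ε]
    have hrb : MapsTo (fun z => ε * r z) W (ball 0 1) := fun z hz => by
      have h1 := mem_ball_zero_iff.mp (mob_mapsTo ha (hsb hz))
      rw [← hr z hz, norm_pow] at h1
      rw [mem_ball_zero_iff, norm_mul, hεn, one_mul]
      nlinarith [norm_nonneg (r z)]
    have hqs : ∀ z ∈ W, q (mob (-b) (ε * r z)) = s z := fun z hz => by
      simp only [hq]
      rw [mob_mob_neg hb1 (mem_ball_zero_iff.mp (hrb hz)).le, mul_pow, hε, one_mul, hr z hz,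
        mob_neg_mob ha (mem_ball_zero_iff.mp (hsb hz)).le]
    refine ⟨fun z => mob (-b) (ε * r z), differentiableOn_mob_comp hnb (hrd.const_mul ε) hrb,
      fun z hz => ⟨mob_mapsTo hnb (hrb hz), by rw [mem_preimage, hqs z hz]; exact hsV hz⟩,
      fun z hz => by rw [Function.comp_apply, hqs z hz, hps z hz], ?_⟩
    show mob (-b) (ε * r x) = y
    rw [hεx, mob_neg_mob hb1 (mem_ball_zero_iff.mp (hsub hy)).le]
  · have d1 : HasDerivAt (fun z => mob b z ^ 2)
        (((2 : ℕ) : ℂ) * mob b 0 ^ 1 * (1 - conj b * b)) 0 := by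
      have := (hasDerivAt_mob hb1 (z := 0) (by simp)).pow 2
      simpa [Pi.pow_def] using this
    have d2 : HasDerivAt (mob (-a)) ((1 - conj a * a) / (1 - conj a * a) ^ 2)
        ((fun z => mob b z ^ 2) 0) := by
      have hp : (fun z => mob b z ^ 2) 0 = -a := by simp [hb]
      rw [hp]
      convert hasDerivAt_mob hna (z := -a) (by simpa using ha.le) using 1
      simp
    have d3 : HasDerivAt p (deriv p 0) (q 0) := by
      rw [hq0]; exact (hS.diff.differentiableAt (hS.isOpen.mem_nhds hS.zero_mem)).hasDerivAt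
    have d23 : HasDerivAt q ((1 - conj a * a) / (1 - conj a * a) ^ 2 *
        (((2 : ℕ) : ℂ) * mob b 0 ^ 1 * (1 - conj b * b))) 0 := HasDerivAt.comp (h := fun z => mob b z ^ 2) (h₂ := mob (-a)) 0 d2 d1
    have d4 : HasDerivAt (p ∘ q) (deriv p 0 * ((1 - conj a * a) / (1 - conj a * a) ^ 2 *
        (((2 : ℕ) : ℂ) * mob b 0 ^ 1 * (1 - conj b * b)))) 0 := d3.comp 0 d23
    rw [d4.deriv, norm_mul]
    congr 1
    have hA : (1 - conj a * a) = (((1 - ‖a‖ ^ 2 : ℝ)) : ℂ) := by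
      push_cast; rw [Complex.conj_mul']
    have hB : (1 - conj b * b) = (((1 - ‖b‖ ^ 2 : ℝ)) : ℂ) := by
      push_cast; rw [Complex.conj_mul']
    have hpa : (0:ℝ) < 1 - ‖a‖ ^ 2 := by nlinarith [norm_nonneg a]
    have hpb : (0:ℝ) < 1 - ‖b‖ ^ 2 := by nlinarith [norm_nonneg b]
    rw [hA, hB]
    simp only [mob_zero, pow_one, norm_mul, norm_div, norm_pow, norm_neg, Complex.norm_natCast,
      Complex.norm_of_nonneg hpa.le, Complex.norm_of_nonneg hpb.le]
    rw [← hbs, ← hbn]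
    have h1 : (0:ℝ) < 1 + ‖b‖ ^ 2 := by positivity
    rw [← hbn] at hpa
    push_cast
    have e : (1:ℝ) - (‖b‖ ^ 2) ^ 2 = (1 - ‖b‖ ^ 2) * (1 + ‖b‖ ^ 2) := by ring
    rw [e]
    field_simp

lemma exists_stage (hU : IsOpen U) (hUb : U ⊆ ball 0 1) (hw : w₀ ∈ U) :
    ∃ V p, IsStage U w₀ V p := by
  have hw1 : ‖w₀‖ < 1 := mem_ball_zero_iff.mp (hUb hw)
  have hn : ‖(-w₀ : ℂ)‖ < 1 := by simpa using hw1
  have hd := (differentiableOn_mob hn).mono ball_subset_closedBall
  refine ⟨ball 0 1 ∩ mob (-w₀) ⁻¹' U, mob (-w₀),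
    hd.continuousOn.isOpen_inter_preimage isOpen_ball hU, inter_subset_left,
    ⟨mem_ball_self one_pos, by simp [hw]⟩, by simp, hd.mono inter_subset_left,
    fun z hz => hz.2, ?_⟩
  intro W g hW hg hgU y hy x hx hgx
  have hgb : MapsTo g W (ball 0 1) := fun z hz => hUb (hgU hz)
  refine ⟨fun z => mob w₀ (g z), differentiableOn_mob_comp hw1 hg hgb, fun z hz => ?_,
    fun z hz => mob_neg_mob hw1 (mem_ball_zero_iff.mp (hgb hz)).le, ?_⟩
  · exact ⟨mob_mapsTo hw1 (hgb hz), by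
      rw [mem_preimage, mob_neg_mob hw1 (mem_ball_zero_iff.mp (hgb hz)).le]; exact hgU hz⟩
  · show mob w₀ (g x) = y
    rw [hgx, mob_mob_neg hw1 (mem_ball_zero_iff.mp hy.1).le]

/-- Stages with arbitrarily large inner radius. -/
lemma exists_stage_large (hU : IsOpen U) (hUb : U ⊆ ball 0 1) (hw : w₀ ∈ U) :
    ∃ Vs : ℕ → Set ℂ, ∃ ps : ℕ → ℂ → ℂ, (∀ n, IsStage U w₀ (Vs n) (ps n)) ∧
      ∀ ρ < 1, ∀ᶠ n in atTop, ball 0 ρ ⊆ Vs n := by
  obtain ⟨R, hR, hRU⟩ := Metric.isOpen_iff.mp hU w₀ hw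
  set T := {t : ℝ | ∃ V p, IsStage U w₀ V p ∧ ‖deriv p 0‖ = t} with hT
  obtain ⟨V0, p0, h0⟩ := exists_stage hU hUb hw
  have hTne : T.Nonempty := ⟨_, V0, p0, h0, rfl⟩
  have hTb : ∀ t ∈ T, R ≤ t := by rintro t ⟨V, p, h, rfl⟩; exact h.le_norm_deriv hR hRU
  have hTbdd : BddBelow T := ⟨R, hTb⟩
  set m := sInf T with hm
  have hmpos : 0 < m := hR.trans_le (le_csInf hTne hTb)
  have key : ∀ n : ℕ, ∃ V p, IsStage U w₀ V p ∧ ball (0:ℂ) (1 - 1 / (n + 1)) ⊆ V := by
    intro n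
    set ρ : ℝ := 1 - 1 / (n + 1) with hρ
    rcases le_or_gt ρ 0 with h | h
    · exact ⟨V0, p0, h0, by simp [ball_eq_empty.mpr h]⟩
    have hρ1 : ρ < 1 := by rw [hρ]; linarith [show (0:ℝ) < 1 / ((n:ℝ) + 1) by positivity]
    have hsr : 0 < √ρ := Real.sqrt_pos.mpr h
    have hρsq : √ρ ^ 2 = ρ := Real.sq_sqrt h.le
    set κ := 2 * √ρ / (1 + ρ) with hκ
    have hκ0 : 0 < κ := by positivity
    have hκ1 : κ < 1 := by
      rw [hκ, div_lt_one (by positivity)]
      nlinarith [sq_nonneg (√ρ - 1)]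
    obtain ⟨t, ⟨V, p, hS, rfl⟩, ht⟩ :=
      exists_lt_of_csInf_lt hTne (show m < m / κ by
        rw [lt_div_iff₀ hκ0]; nlinarith)
    refine ⟨V, p, hS, fun a ha => ?_⟩
    by_contra haV
    rw [mem_ball_zero_iff] at ha
    obtain ⟨V', p', hS', hd⟩ := hS.improve (ha.trans hρ1) haV
    have h1 : m ≤ ‖deriv p' 0‖ := csInf_le hTbdd ⟨V', p', hS', rfl⟩
    have h2 : 2 * √‖a‖ / (1 + ‖a‖) ≤ κ := by
      rw [hκ, div_le_div_iff₀ (by positivity) (by positivity)]
      have hs : √‖a‖ ≤ √ρ := Real.sqrt_le_sqrt ha.le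
      have ha2 : √‖a‖ ^ 2 = ‖a‖ := Real.sq_sqrt (norm_nonneg a)
      have hprod : √‖a‖ * √ρ ≤ 1 := by
        have h5 : √ρ ≤ 1 := Real.sqrt_le_one.mpr hρ1.le
        have h6 : √‖a‖ ≤ 1 := hs.trans h5
        nlinarith [Real.sqrt_nonneg ‖a‖]
      generalize √‖a‖ = u at *
      generalize √ρ = v at *
      rw [← ha2, ← hρsq]
      nlinarith [mul_nonneg (sub_nonneg.mpr hs) (sub_nonneg.mpr hprod)]
    rw [hd] at h1
    rw [lt_div_iff₀ hκ0] at ht
    nlinarith [mul_le_mul_of_nonneg_left h2 (norm_nonneg (deriv p 0))]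
  choose Vs ps hS hball using key
  refine ⟨Vs, ps, hS, fun ρ hρ => ?_⟩
  have : Tendsto (fun n : ℕ => (1:ℝ) / (n + 1)) atTop (𝓝 0) :=
    tendsto_one_div_add_atTop_nhds_zero_nat
  filter_upwards [this.eventually (gt_mem_nhds (show (0:ℝ) < 1 - ρ by linarith))] with n hn
  exact (ball_subset_ball (by linarith)).trans (hball n)

lemma exists_ultra_limit (F : Ultrafilter ℕ) {u : ℕ → ℂ} (hu : ∀ n, ‖u n‖ ≤ 1) :
    ∃ l, ‖l‖ ≤ 1 ∧ Tendsto u F (𝓝 l) := by
  obtain ⟨l, hl, hF⟩ := (isCompact_closedBall (0:ℂ) 1).ultrafilter_le_nhds (F.map u)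
    (by
      rw [Ultrafilter.coe_map, le_principal_iff, Filter.mem_map]
      exact Filter.univ_mem' fun n => mem_closedBall_zero_iff.mpr (hu n))
  exact ⟨l, mem_closedBall_zero_iff.mp hl, hF⟩

/-- Every bounded open set has a covering by the disc along which maps from `SqrtSet`s lift. -/
theorem exists_cover (hU : IsOpen U) (hUb : U ⊆ ball 0 1) (hw : w₀ ∈ U) :
    ∃ p, IsStage U w₀ (ball 0 1) p := by
  classical
  obtain ⟨R, hR, hRU⟩ := Metric.isOpen_iff.mp hU w₀ hw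
  obtain ⟨Vs, ps, hS, hball⟩ := exists_stage_large hU hUb hw
  set F := Ultrafilter.of (atTop : Filter ℕ) with hF
  have hFle : (F : Filter ℕ) ≤ atTop := Ultrafilter.of_le _
  have hball' : ∀ ρ < 1, ∀ᶠ n in (F : Filter ℕ), ball 0 ρ ⊆ Vs n := fun ρ h => hFle (hball ρ h)
  set φ := fun n z => if z ∈ Vs n then ps n z else 0 with hφ
  have hφb : ∀ n z, ‖φ n z‖ ≤ 1 := by
    intro n z
    simp only [hφ]
    split_ifs with h
    · exact (mem_ball_zero_iff.mp (hUb ((hS n).maps h))).le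
    · simp
  choose P hP1 hP using fun z => exists_ultra_limit F (fun n => hφb n z)
  have hφd : ∀ ρ < 1, ∀ᶠ n in (F : Filter ℕ), DifferentiableOn ℂ (φ n) (ball 0 ρ) := by
    intro ρ hρ
    filter_upwards [hball' ρ hρ] with n hn
    exact ((hS n).diff.mono hn).congr fun z hz => by simp [hφ, hn hz]
  have hunif : ∀ y r, 0 < r → ‖y‖ + 2 * r < 1 →
      TendstoUniformlyOn φ P (F : Filter ℕ) (closedBall y r) := by
    intro y r hr hyr
    refine tendstoUniformlyOn_of_bounded hr zero_le_one ?_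
      (Filter.Eventually.of_forall fun n z _ => hφb n z) fun z _ => hP z
    filter_upwards [hφd _ hyr] with n hn
    exact hn.mono (ball_subset_ball' (by rw [dist_zero_right]; linarith))
  have hloc : TendstoLocallyUniformlyOn φ P (F : Filter ℕ) (ball 0 1) := by
    intro u hu y hy
    rw [mem_ball_zero_iff] at hy
    exact ⟨closedBall y ((1 - ‖y‖) / 3), mem_nhdsWithin_of_mem_nhds
      (closedBall_mem_nhds _ (by linarith)), hunif y _ (by linarith) (by linarith) u hu⟩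
  -- local differentiability of the limit
  have hPd : DifferentiableOn ℂ P (ball 0 1) := by
    intro y hy
    rw [mem_ball_zero_iff] at hy
    obtain ⟨ρ, h1, h2⟩ := exists_between hy
    have h := (hloc.mono (ball_subset_ball h2.le)).differentiableOn (hφd ρ h2) isOpen_ball
    exact (h.differentiableAt (isOpen_ball.mem_nhds (mem_ball_zero_iff.mpr h1))).differentiableWithinAt
  have hPd0 : R ≤ ‖deriv P 0‖ := by
    have h := ((hloc.mono (ball_subset_ball (show (1/2:ℝ) ≤ 1 by norm_num))).deriv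
      (hφd (1/2) (by norm_num)) isOpen_ball).tendsto_at (mem_ball_self (x := (0:ℂ)) (by norm_num))
    refine ge_of_tendsto h.norm ?_
    filter_upwards [hball' (1/2) (by norm_num)] with n hn
    refine ((hS n).le_norm_deriv hR hRU).trans_eq ?_
    rw [Function.comp_apply, Filter.EventuallyEq.deriv_eq]
    filter_upwards [isOpen_ball.mem_nhds (mem_ball_self (x := (0:ℂ)) (show (0:ℝ) < 1/2 by norm_num))]
      with z hz
    simp [hφ, hn hz]
  have hP0 : P 0 = w₀ := tendsto_nhds_unique (hP 0)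
    (tendsto_const_nhds.congr fun n => by simp [hφ, (hS n).zero_mem, (hS n).map_zero])
  have hPU : MapsTo P (ball 0 1) U := by
    intro y hy
    by_contra hyU
    rw [mem_ball_zero_iff] at hy
    have hr : 0 < (1 - ‖y‖) / 3 := by linarith
    have key := hurwitz_ne_zero (F := (F : Filter ℕ)) (φ := fun n z => φ n z - P y)
      (f := fun z => P z - P y) (c := y) hr
      ((hPd.mono (ball_subset_ball' (by rw [dist_zero_right]; linarith))).sub_const _)
      (fun ρ hρ hρ0 => by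
        have h := Metric.tendstoUniformlyOn_iff.mp (hunif y ρ hρ0 (by linarith))
        rw [Metric.tendstoUniformlyOn_iff]
        intro ε hε
        simpa [dist_sub_right] using h ε hε)
      (fun ρ hρ => by
        filter_upwards [hφd _ (show ‖y‖ + (1 - ‖y‖) / 3 < 1 by linarith)] with n hn
        exact (hn.mono (ball_subset_ball' (by rw [dist_zero_right]; linarith))).sub_const _)
      (fun ρ hρ => by
        filter_upwards [hball' _ (show ‖y‖ + (1 - ‖y‖) / 3 < 1 by linarith)] with n hn z hz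
        have hzV : z ∈ Vs n := hn (ball_subset_ball' (by rw [dist_zero_right]; linarith) hz)
        simp only [hφ, hzV, if_true, ne_eq, sub_eq_zero]
        exact fun e => hyU (e ▸ (hS n).maps hzV))
      (sub_self _)
    have heq : EqOn P (fun _ => P y) (ball 0 1) :=
      (hPd.analyticOnNhd isOpen_ball).eqOn_of_preconnected_of_eventuallyEq analyticOnNhd_const
        (convex_ball _ _).isPreconnected (mem_ball_zero_iff.mpr hy)
        (key.mono fun z hz => sub_eq_zero.mp hz)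
    have : deriv P 0 = 0 := by
      rw [Filter.EventuallyEq.deriv_eq (eventuallyEq_of_mem
        (isOpen_ball.mem_nhds (mem_ball_self one_pos)) heq)]
      simp
    rw [this, norm_zero] at hPd0
    linarith
  refine ⟨P, isOpen_ball, Subset.rfl, mem_ball_self one_pos, hP0, hPd, hPU, ?_⟩
  intro W g hW hg hgU y hy x hx hgx
  obtain ⟨r, hr, hrU⟩ := Metric.isOpen_iff.mp hU (g x) (hgU hx)
  have hyn : ∀ᶠ n in (F : Filter ℕ), y ∈ Vs n := by
    rw [mem_ball_zero_iff] at hy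
    obtain ⟨ρ, h1, h2⟩ := exists_between hy
    filter_upwards [hball' ρ h2] with n hn using hn (mem_ball_zero_iff.mpr h1)
  have hpy : Tendsto (fun n => ps n y) F (𝓝 (g x)) := by
    rw [hgx]
    refine (hP y).congr' ?_
    filter_upwards [hyn] with n hn
    simp [hφ, hn]
  -- lifts at each stage, starting close to `y`
  have hex : ∀ n, ∃ σ : ℂ → ℂ, (∀ z, ‖σ z‖ ≤ 1) ∧
      (y ∈ Vs n → dist (ps n y) (g x) < r / 4 →
        DifferentiableOn ℂ σ W ∧ MapsTo σ W (Vs n) ∧ (∀ z ∈ W, ps n (σ z) = g z) ∧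
        dist (σ x) y ≤ 2 / (r / 2) * dist (g x) (ps n y)) := by
    intro n
    by_cases h : y ∈ Vs n ∧ dist (ps n y) (g x) < r / 4
    swap
    · exact ⟨0, fun z => by simp, fun h1 h2 => absurd ⟨h1, h2⟩ h⟩
    obtain ⟨hyV, hdist⟩ := h
    have hbU : ball (ps n y) (r / 2) ⊆ U :=
      (ball_subset_ball' (by linarith)).trans hrU
    have hxin : g x ∈ ball (ps n y) (r / 2) := by rw [mem_ball, dist_comm]; linarith
    obtain ⟨τ, hτd, hτV, hpτ, hτy⟩ := (hS n).lift (ball (ps n y) (r / 2)) id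
      (sqrtSet_convex isOpen_ball (convex_ball _ _)) differentiableOn_id hbU y hyV (ps n y)
      (mem_ball_self (by positivity)) rfl
    have hclose : dist (τ (g x)) y ≤ 2 / (r / 2) * dist (g x) (ps n y) := by
      have := Complex.dist_le_div_mul_dist_of_mapsTo_ball hτd (R₂ := 2) (fun z hz => by
        rw [hτy, mem_closedBall, dist_eq_norm]
        have := mem_ball_zero_iff.mp ((hS n).subset (hτV hz))
        have := mem_ball_zero_iff.mp ((hS n).subset hyV)
        linarith [norm_sub_le (τ z) y]) hxin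
      rwa [hτy] at this
    obtain ⟨s, hsd, hsV, hps, hsx⟩ :=
      (hS n).lift W g hW hg hgU (τ (g x)) (hτV hxin) x hx (hpτ _ hxin).symm
    refine ⟨fun z => if z ∈ W then s z else 0, fun z => ?_, fun _ _ => ⟨?_, ?_, ?_, ?_⟩⟩
    · show ‖if z ∈ W then s z else 0‖ ≤ 1
      split_ifs with hzW
      · exact (mem_ball_zero_iff.mp ((hS n).subset (hsV hzW))).le
      · simp
    · exact hsd.congr fun z hz => by simp [hz]
    · exact fun z hz => by simpa [hz] using hsV hz
    · exact fun z hz => by simpa [hz] using hps z hz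
    · simpa [hx, hsx] using hclose
  choose σ hσb hσ using hex
  have hgood : ∀ᶠ n in (F : Filter ℕ), y ∈ Vs n ∧ dist (ps n y) (g x) < r / 4 :=
    hyn.and ((tendsto_iff_dist_tendsto_zero.mp hpy).eventually (gt_mem_nhds (by positivity)))
  choose S hS1 hSlim using fun z => exists_ultra_limit F (fun n => hσb n z)
  have hσd : ∀ᶠ n in (F : Filter ℕ), DifferentiableOn ℂ (σ n) W :=
    hgood.mono fun n hn => (hσ n hn.1 hn.2).1
  have hlocS : TendstoLocallyUniformlyOn σ S (F : Filter ℕ) W := by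
    intro u hu z hz
    obtain ⟨δ, hδ, hδW⟩ := Metric.isOpen_iff.mp hW.1 z hz
    refine ⟨closedBall z (δ / 2),
      mem_nhdsWithin_of_mem_nhds (closedBall_mem_nhds _ (by linarith)),
      tendstoUniformlyOn_of_bounded (half_pos hδ) zero_le_one (hσd.mono fun n hn => hn.mono ?_)
        (Filter.Eventually.of_forall fun n w _ => hσb n w) (fun w _ => hSlim w) u hu⟩
    rw [mul_div_cancel₀ _ (two_ne_zero' ℝ)]; exact hδW
  have hSd : DifferentiableOn ℂ S W := hlocS.differentiableOn hσd hW.1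
  have hSx : S x = y := by
    refine tendsto_nhds_unique (hSlim x) ?_
    rw [tendsto_iff_dist_tendsto_zero]
    have h0 : Tendsto (fun n => 2 / (r / 2) * dist (g x) (ps n y)) F (𝓝 0) := by
      have := (tendsto_iff_dist_tendsto_zero.mp hpy).const_mul (2 / (r / 2))
      simpa [dist_comm] using this
    refine squeeze_zero' (Filter.Eventually.of_forall fun n => dist_nonneg) ?_ h0
    filter_upwards [hgood] with n hn using (hσ n hn.1 hn.2).2.2.2
  have hSb : MapsTo S W (ball 0 1) := by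
    intro z hz
    rw [mem_ball_zero_iff]
    refine lt_of_le_of_ne (hS1 z) fun h1 => ?_
    have hmax : IsMaxOn (norm ∘ S) W z := fun w _ => by
      simp only [mem_setOf_eq, Function.comp_apply, h1]; exact hS1 w
    have := Complex.norm_eqOn_of_isPreconnected_of_isMaxOn hW.2.1 hW.1 hSd hz hmax hx
    simp only [Function.comp_apply, Function.const_apply, hSx, h1] at this
    rw [mem_ball_zero_iff, this] at hy
    exact lt_irrefl _ hy
  refine ⟨S, hSd, hSb, fun z hz => ?_, hSx⟩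
  have hzb := mem_ball_zero_iff.mp (hSb hz)
  obtain ⟨ρ, h1, h2⟩ := exists_between hzb
  have hcomp : Tendsto (fun n => φ n (σ n z)) F (𝓝 (P (S z))) :=
    (hloc.mono (ball_subset_ball h2.le)).tendsto_comp
      ((hPd.continuousOn.mono (ball_subset_ball h2.le)) _ (mem_ball_zero_iff.mpr h1))
      (mem_ball_zero_iff.mpr h1)
      (tendsto_nhdsWithin_iff.mpr ⟨hSlim z,
        (hSlim z).eventually (isOpen_ball.mem_nhds (mem_ball_zero_iff.mpr h1))⟩)
  refine tendsto_nhds_unique hcomp (tendsto_const_nhds.congr' ?_)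
  filter_upwards [hgood] with n hn
  obtain ⟨-, hm, hp', -⟩ := hσ n hn.1 hn.2
  simp [hφ, hm hz, hp' z hz]

variable (hc : IsStage U w₀ (ball 0 1) p)
include hc

lemma IsStage.deriv_ne_zero {y : ℂ} (hy : y ∈ ball (0:ℂ) 1) (hU : IsOpen U) : deriv p y ≠ 0 := by
  obtain ⟨r, hr, hrU⟩ := Metric.isOpen_iff.mp hU (p y) (hc.maps hy)
  obtain ⟨s, hsd, hsV, hps, hsy⟩ := hc.lift (ball (p y) r) id
    (sqrtSet_convex isOpen_ball (convex_ball _ _)) differentiableOn_id hrU y hy (p y)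
    (mem_ball_self hr) rfl
  intro h0
  have hs := (hsd.differentiableAt (isOpen_ball.mem_nhds (mem_ball_self hr))).hasDerivAt
  have hp : HasDerivAt p 0 (s (p y)) := by
    rw [hsy, ← h0]; exact (hc.diff.differentiableAt (isOpen_ball.mem_nhds hy)).hasDerivAt
  have h1 : HasDerivAt (fun z => p (s z)) (0 * deriv s (p y)) (p y) := hp.comp (p y) hs
  have h2 : HasDerivAt (fun z => p (s z)) 1 (p y) := by
    refine (hasDerivAt_id (p y)).congr_of_eventuallyEq ?_
    filter_upwards [isOpen_ball.mem_nhds (mem_ball_self hr)] with z hz using hps z hz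
  simpa using h2.unique h1

lemma IsStage.loc_inj (hU : IsOpen U) :
    ∀ y ∈ ball (0:ℂ) 1, ∃ N ∈ 𝓝 y, InjOn p N := fun _ hy =>
  exists_injOn_nhds isOpen_ball hc.diff hy (hc.deriv_ne_zero hy hU)

lemma IsStage.surjOn (hU : IsOpen U) (hUc : IsPreconnected U) :
    SurjOn p (ball 0 1) U := by
  intro w hw
  have sec : ∀ v ∈ U, ∃ r > 0, ball v r ⊆ U ∧
      ∀ y ∈ ball (0:ℂ) 1, p y ∈ ball v r → ball v r ⊆ p '' ball 0 1 := by
    intro v hv
    obtain ⟨r, hr, hrU⟩ := Metric.isOpen_iff.mp hU v hv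
    refine ⟨r, hr, hrU, fun y hy hyb z hz => ?_⟩
    obtain ⟨s, -, hsV, hps, -⟩ := hc.lift (ball v r) id
      (sqrtSet_convex isOpen_ball (convex_ball _ _)) differentiableOn_id hrU y hy (p y) hyb rfl
    exact ⟨s z, hsV hz, hps z hz⟩
  choose r hr hrU hsec using sec
  by_contra hcon
  set A := ⋃ v, ⋃ hv : v ∈ U, ⋃ (_ : v ∈ p '' ball 0 1), ball v (r v hv) with hA
  set B := ⋃ v, ⋃ hv : v ∈ U, ⋃ (_ : v ∉ p '' ball 0 1), ball v (r v hv) with hB
  have hAo : IsOpen A := isOpen_iUnion fun v => isOpen_iUnion fun h => isOpen_iUnion fun _ =>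
    isOpen_ball
  have hBo : IsOpen B := isOpen_iUnion fun v => isOpen_iUnion fun h => isOpen_iUnion fun _ =>
    isOpen_ball
  have hAsub : A ⊆ p '' ball 0 1 := by
    intro z hz
    simp only [hA, mem_iUnion] at hz
    obtain ⟨v, hv, ⟨y, hy, rfl⟩, hz⟩ := hz
    exact hsec _ hv y hy (mem_ball_self (hr _ hv)) hz
  have hBsub : B ⊆ (p '' ball 0 1)ᶜ := by
    rintro z hz ⟨y, hy, rfl⟩
    simp only [hB, mem_iUnion] at hz
    obtain ⟨v, hv, hnot, hz⟩ := hz
    exact hnot (hsec v hv y hy hz (mem_ball_self (hr _ hv)))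
  obtain ⟨z, -, hzA, hzB⟩ := hUc A B hAo hBo
    (fun v hv => by
      by_cases h : v ∈ p '' ball 0 1
      · exact Or.inl (mem_iUnion.mpr ⟨v, mem_iUnion.mpr ⟨hv, mem_iUnion.mpr
          ⟨h, mem_ball_self (hr v hv)⟩⟩⟩)
      · exact Or.inr (mem_iUnion.mpr ⟨v, mem_iUnion.mpr ⟨hv, mem_iUnion.mpr
          ⟨h, mem_ball_self (hr v hv)⟩⟩⟩))
    ⟨p 0, hc.maps (mem_ball_self one_pos), mem_iUnion.mpr ⟨p 0, mem_iUnion.mpr
      ⟨hc.maps (mem_ball_self one_pos), mem_iUnion.mpr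
        ⟨mem_image_of_mem p (mem_ball_self one_pos), mem_ball_self (hr _ _)⟩⟩⟩⟩
    ⟨w, hw, mem_iUnion.mpr ⟨w, mem_iUnion.mpr ⟨hw, mem_iUnion.mpr
      ⟨hcon, mem_ball_self (hr w hw)⟩⟩⟩⟩
  exact hBsub hzB (hAsub hzA)

omit hc in
/-- An open connected bounded set without holes is a `SqrtSet`. -/
theorem sqrtSet_of_no_holes (hU : IsOpen U) (hUc : IsPreconnected U) (hUb : U ⊆ ball 0 1)
    (hw : w₀ ∈ U)
    (hK : ∀ a ∉ U, ∃ S, IsPreconnected S ∧ a ∈ S ∧ S ⊆ Uᶜ ∧ ¬ Bornology.IsBounded S) :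
    SqrtSet U := by
  refine ⟨hU, hUc, fun f hf h0 => ?_⟩
  obtain ⟨p, hc⟩ := exists_cover hU hUb hw
  obtain ⟨L, hL, hLe⟩ := exists_holo_log_convex isOpen_ball (convex_ball (0:ℂ) 1)
    (g := f ∘ p) (hf.comp hc.diff hc.maps) (fun z hz => h0 _ (hc.maps hz))
  have hwd : ∀ y₁ ∈ ball (0:ℂ) 1, ∀ y₂ ∈ ball (0:ℂ) 1, p y₁ = p y₂ → L y₁ = L y₂ := by
    intro y₁ h1 y₂ h2 he
    have hseg : segment ℝ y₁ y₂ ⊆ ball 0 1 := (convex_ball (0:ℂ) 1).segment_subset h1 h2
    have hsc : IsCompact (segment ℝ y₁ y₂) := by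
      rw [← convexHull_pair]; exact Set.Finite.isCompact_convexHull ℝ (toFinite _)
    obtain ⟨l, hlc, hle⟩ := exists_log_on_compact hU hK
      (hsc.image_of_continuousOn (hc.diff.continuousOn.mono hseg))
      (image_subset_iff.mpr fun z hz => hc.maps (hseg hz)) hf.continuousOn h0
    have := log_diff_const (convex_segment y₁ y₂).isPreconnected (hL.continuousOn.mono hseg)
      (g₂ := l ∘ p) (hlc.comp (hc.diff.continuousOn.mono hseg) (mapsTo_image _ _))
      (fun z hz => by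
        rw [hLe z (hseg hz)]; exact (hle _ (mem_image_of_mem p hz)).symm)
      (left_mem_segment ℝ _ _) (right_mem_segment ℝ _ _)
    simp only [Function.comp_apply, he, sub_self, sub_eq_zero] at this
    exact this.symm
  choose y hy hpy using hc.surjOn hU hUc
  classical
  refine ⟨fun w => if h : w ∈ U then Complex.exp (L (y h) / 2) else 0, ?_, ?_⟩
  · intro w hwU
    obtain ⟨r, hr, hrU⟩ := Metric.isOpen_iff.mp hU w hwU
    obtain ⟨s, hsd, hsV, hps, -⟩ := hc.lift (ball w r) id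
      (sqrtSet_convex isOpen_ball (convex_ball _ _)) differentiableOn_id hrU (y hwU) (hy hwU) w
      (mem_ball_self hr) (hpy hwU).symm
    have hd : DifferentiableAt ℂ (fun z => Complex.exp (L (s z) / 2)) w :=
      (((hL.comp hsd hsV).differentiableAt
        (isOpen_ball.mem_nhds (mem_ball_self hr))).div_const 2).cexp
    refine (hd.congr_of_eventuallyEq ?_).differentiableWithinAt
    filter_upwards [isOpen_ball.mem_nhds (mem_ball_self hr)] with z hz
    rw [dif_pos (hrU hz), hwd _ (hy (hrU hz)) _ (hsV hz) ((hpy _).trans (hps z hz).symm)]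
  · intro w hwU
    show (if h : w ∈ U then Complex.exp (L (y h) / 2) else 0) ^ 2 = f w
    rw [dif_pos hwU, sq, ← Complex.exp_add, add_halves, hLe _ (hy hwU), Function.comp_apply, hpy]

omit hc in
/-- The Riemann mapping theorem for bounded open sets without holes. -/
theorem exists_riemann_map (hU : IsOpen U) (hUc : IsPreconnected U) (hUb : U ⊆ ball 0 1)
    (hw : w₀ ∈ U)
    (hK : ∀ a ∉ U, ∃ S, IsPreconnected S ∧ a ∈ S ∧ S ⊆ Uᶜ ∧ ¬ Bornology.IsBounded S) :
    ∃ ψ p : ℂ → ℂ, DifferentiableOn ℂ ψ U ∧ DifferentiableOn ℂ p (ball 0 1) ∧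
      MapsTo ψ U (ball 0 1) ∧ MapsTo p (ball 0 1) U ∧
      (∀ z ∈ U, p (ψ z) = z) ∧ ∀ w ∈ ball (0:ℂ) 1, ψ (p w) = w := by
  have hsq := sqrtSet_of_no_holes hU hUc hUb hw hK
  obtain ⟨p, hc⟩ := exists_cover hU hUb hw
  obtain ⟨s, hsd, hsV, hps, hs0⟩ := hc.lift U id hsq differentiableOn_id (mapsTo_id U) 0
    (mem_ball_self one_pos) w₀ hw hc.map_zero.symm
  refine ⟨s, p, hsd, hc.diff, hsV, hc.maps, hps, ?_⟩
  exact eqOn_of_lift (hc.loc_inj hU) (convex_ball (0:ℂ) 1).isPreconnected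
    (hsd.continuousOn.comp hc.diff.continuousOn hc.maps) continuousOn_id
    (hsV.comp hc.maps) (fun z hz => hps _ (hc.maps hz)) (mem_ball_self one_pos)
    (by simp [hc.map_zero, hs0])

end Vale.Agent.P116
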