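import Mathlib

/-!
# The Riemann sphere, conformal equivalence and circle domains
-/

open Set Filter Metric Complex
open scoped Topology ComplexConjugate OnePoint

namespace Vale.Agent.P116

/-- The value of a finite point of the sphere (and `0` at infinity). -/
noncomputable def finVal (x : OnePoint ℂ) : ℂ :=
  OnePoint.rec 0 (fun z => z) x

/-- Inversion `z ↦ 1/z` of the sphere, exchanging `0` and infinity. -/
noncomputable def sphInv (x : OnePoint ℂ) : OnePoint ℂ :=
  OnePoint.rec ((0 : ℂ) : OnePoint ℂ) (fun z => if z = 0 then ∞ else ((z⁻¹ : ℂ) : OnePoint ℂ)) x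

/-- The standard chart around a point: the identity at finite points, `z ↦ 1/z` at infinity. -/
noncomputable def sphChart (x : OnePoint ℂ) : OnePoint ℂ → OnePoint ℂ :=
  OnePoint.rec sphInv (fun _ => id) x

/-- Holomorphy of a map of the sphere at a point, read in the standard charts. -/
def HolAt (f : OnePoint ℂ → OnePoint ℂ) (x : OnePoint ℂ) : Prop :=
  ContinuousAt f x ∧
    DifferentiableAt ℂ (fun z : ℂ => finVal (sphChart (f x) (f (sphChart x (z : OnePoint ℂ)))))
      (finVal (sphChart x x))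

/-- Conformal equivalence of subsets of the sphere: a holomorphic bijection. -/
def ConformallyEquiv (G Ω : Set (OnePoint ℂ)) : Prop :=
  ∃ f : OnePoint ℂ → OnePoint ℂ, BijOn f G Ω ∧ ∀ x ∈ G, HolAt f x

/-- A closed round disc: a Möbius image of the closed unit disc. -/
def IsRoundDisk (K : Set (OnePoint ℂ)) : Prop :=
  ∃ g : GL (Fin 2) ℂ, K = (fun x => g • x) '' ((fun z : ℂ => (z : OnePoint ℂ)) '' closedBall 0 1)

/-- A circle domain: every complementary component is a point or a closed round disc. -/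
def IsCircleDomain (Ω : Set (OnePoint ℂ)) : Prop :=
  IsOpen Ω ∧ IsConnected Ω ∧
    ∀ x ∉ Ω, connectedComponentIn Ωᶜ x = {x} ∨ IsRoundDisk (connectedComponentIn Ωᶜ x)

/-- Complex conjugation of the sphere, fixing infinity. -/
noncomputable def sphConj (x : OnePoint ℂ) : OnePoint ℂ :=
  OnePoint.map (fun z : ℂ => conj z) x

/-- The extended real line in the sphere. -/
def sphRealLine : Set (OnePoint ℂ) :=
  insert ∞ (range fun t : ℝ => ((t : ℂ) : OnePoint ℂ))

@[simp] lemma finVal_coe (z : ℂ) : finVal (z : OnePoint ℂ) = z := rfl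

@[simp] lemma finVal_infty : finVal ∞ = 0 := rfl

@[simp] lemma sphInv_infty : sphInv ∞ = ((0 : ℂ) : OnePoint ℂ) := rfl

@[simp] lemma sphInv_zero : sphInv ((0 : ℂ) : OnePoint ℂ) = ∞ := by
  show (if (0:ℂ) = 0 then ∞ else _) = _
  simp

lemma sphInv_coe {z : ℂ} (hz : z ≠ 0) :
    sphInv (z : OnePoint ℂ) = ((z⁻¹ : ℂ) : OnePoint ℂ) := by
  show (if z = 0 then ∞ else _) = _
  simp [hz]

@[simp] lemma sphChart_coe (z : ℂ) : sphChart (z : OnePoint ℂ) = id := rfl

@[simp] lemma sphChart_infty : sphChart ∞ = sphInv := rfl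

@[simp] lemma sphConj_coe (z : ℂ) : sphConj (z : OnePoint ℂ) = ((conj z : ℂ) : OnePoint ℂ) := rfl

@[simp] lemma sphConj_infty : sphConj ∞ = ∞ := rfl

end Vale.Agent.P116
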