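import Mathlib
import Vale.Agent.P116.Basic
import Vale.Agent.P116.Sphere

/-!
# Schwarz reflection in the unit circle
-/

open Set Filter Metric Complex
open scoped Topology ComplexConjugate OnePoint

namespace Vale.Agent.P116

/-- The open upper half plane. -/
def upHP : Set ℂ := {z : ℂ | 0 < z.im}

lemma isOpen_upHP : IsOpen upHP := isOpen_lt continuous_const Complex.continuous_im

lemma convex_upHP : Convex ℝ upHP := convex_halfSpace_im_gt 0

lemma closure_upHP : closure upHP = {z : ℂ | 0 ≤ z.im} := Complex.closure_setOfPred_lt_im 0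

lemma nhdsWithin_upHP_neBot {x : ℂ} (hx : 0 ≤ x.im) : (𝓝[upHP] x).NeBot :=
  mem_closure_iff_nhdsWithin_neBot.mp (by rw [closure_upHP]; exact hx)

/-- A continuous function on a disc that is holomorphic off the real axis is holomorphic. -/
lemma differentiableOn_of_off_real {c : ℂ} {r : ℝ} {g : ℂ → ℂ}
    (hc : ContinuousOn g (ball c r))
    (hd : ∀ z ∈ ball c r, z.im ≠ 0 → DifferentiableAt ℂ g z) :
    DifferentiableOn ℂ g (ball c r) := by
  rw [← Complex.isConservativeOn_and_continuousOn_iff_isDifferentiableOn isOpen_ball]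
  refine ⟨fun z w hzw => ?_, hc⟩
  rw [eq_neg_iff_add_eq_zero, Complex.wedgeIntegral_add_wedgeIntegral_eq]
  set Q := uIcc z.re w.re ×ℂ uIcc z.im w.im with hQdef
  have hQ : Q ⊆ ball c r := hzw
  have part : ∀ a b : ℝ, uIcc a b ⊆ uIcc z.im w.im → (∀ y ∈ Ioo (min a b) (max a b), y ≠ 0) →
      (∫ x : ℝ in z.re..w.re, g (x + a * I)) - (∫ x : ℝ in z.re..w.re, g (x + b * I)) +
      I • (∫ y : ℝ in a..b, g (w.re + y * I)) - I • (∫ y : ℝ in a..b, g (z.re + y * I)) = 0 := by
    intro a b hab hne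
    have := Complex.integral_boundary_rect_eq_zero_of_continuousOn_of_differentiableOn g
      ⟨z.re, a⟩ ⟨w.re, b⟩
      (hc.mono (fun p hp => hQ ⟨hp.1, hab hp.2⟩))
      (fun p hp => (hd p (hQ ⟨Ioo_subset_Icc_self hp.1, hab (Ioo_subset_Icc_self hp.2)⟩)
        (hne _ hp.2)).differentiableWithinAt)
    exact this
  by_cases h0 : (0:ℝ) ∈ uIcc z.im w.im
  · have hint : ∀ (u : ℝ), u ∈ uIcc z.re w.re → ∀ a b : ℝ, uIcc a b ⊆ uIcc z.im w.im →
        IntervalIntegrable (fun y : ℝ => g (u + y * I)) MeasureTheory.volume a b := by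
      intro u hu a b hab
      refine (hc.comp (Continuous.continuousOn (by fun_prop)) fun y hy => hQ ⟨?_, ?_⟩).intervalIntegrable
      · simpa using hu
      · simpa using hab hy
    have e1 := uIcc_subset_uIcc left_mem_uIcc h0
    have e2 := uIcc_subset_uIcc h0 right_mem_uIcc
    have p1 := part z.im 0 e1 (fun y hy h => by
      subst h; rw [mem_Ioo, min_lt_iff, lt_max_iff] at hy
      rcases hy with ⟨h1 | h1, h2 | h2⟩ <;> linarith)
    have p2 := part 0 w.im e2 (fun y hy h => by
      subst h; rw [mem_Ioo, min_lt_iff, lt_max_iff] at hy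
      rcases hy with ⟨h1 | h1, h2 | h2⟩ <;> linarith)
    rw [← intervalIntegral.integral_add_adjacent_intervals
        (hint _ right_mem_uIcc _ _ e1) (hint _ right_mem_uIcc _ _ e2),
      ← intervalIntegral.integral_add_adjacent_intervals
        (hint _ left_mem_uIcc _ _ e1) (hint _ left_mem_uIcc _ _ e2)]
    simp only [smul_add] at p1 p2 ⊢
    linear_combination p1 + p2
  · exact part z.im w.im Subset.rfl fun y hy h => h0 (by subst h; exact Ioo_subset_Icc_self hy)

/-- A holomorphic disc-valued function whose modulus tends to one at the real points of a disc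
has a limit at the centre. -/
lemma exists_limit_of_norm_tendsto_one {x : ℂ} (hx : x.im = 0) {r : ℝ} (hr : 0 < r) {f : ℂ → ℂ}
    (hd : DifferentiableOn ℂ f (ball x r ∩ upHP))
    (hlt : ∀ z ∈ ball x r ∩ upHP, ‖f z‖ < 1)
    (hbd : ∀ y ∈ ball x r, y.im = 0 → Tendsto (fun z => ‖f z‖) (𝓝[upHP] y) (𝓝 1)) :
    ∃ L, ‖L‖ = 1 ∧ Tendsto f (𝓝[upHP] x) (𝓝 L) := by
  -- shrink the disc so that the modulus stays above one half
  obtain ⟨ρ, hρ, hρr, hhalf⟩ : ∃ ρ, 0 < ρ ∧ ρ ≤ r ∧ ∀ z ∈ ball x ρ ∩ upHP, 1 / 2 < ‖f z‖ := by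
    have := (hbd x (mem_ball_self hr) hx).eventually (lt_mem_nhds (show (1/2:ℝ) < 1 by norm_num))
    rw [eventually_nhdsWithin_iff, Metric.eventually_nhds_iff] at this
    obtain ⟨δ, hδ, h⟩ := this
    exact ⟨min δ r, lt_min hδ hr, min_le_right _ _,
      fun z hz => h (lt_of_lt_of_le (mem_ball.mp hz.1) (min_le_left _ _)) hz.2⟩
  set S := ball x ρ ∩ upHP with hS
  have hSsub : S ⊆ ball x r ∩ upHP := inter_subset_inter_left _ (ball_subset_ball hρr)
  have hSo : IsOpen S := isOpen_ball.inter isOpen_upHP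
  obtain ⟨ψ, hψd, hψ⟩ := exists_holo_log_convex hSo ((convex_ball _ _).inter convex_upHP)
    (hd.mono hSsub) (fun z hz h => by have := hhalf z hz; rw [h, norm_zero] at this; linarith)
  have hfn : ∀ z ∈ S, ‖f z‖ = Real.exp (ψ z).re := fun z hz => by
    rw [← hψ z hz, Complex.norm_exp]
  have hu0 : ∀ z ∈ S, 0 < -(ψ z).re := fun z hz => by
    have := hlt z (hSsub hz)
    rw [hfn z hz, Real.exp_lt_one_iff] at this
    linarith
  have hu1 : ∀ z ∈ S, -(ψ z).re ≤ Real.log 2 := fun z hz => by
    have := hhalf z hz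
    rw [hfn z hz, ← Real.log_lt_iff_lt_exp (by norm_num), one_div, Real.log_inv] at this
    linarith
  -- the harmonic majorant on a half disc
  set a := ρ / 2 with ha
  have hap : 0 < a := by positivity
  set w := fun z : ℂ => ((a : ℂ) + (z - x)) / ((a : ℂ) - (z - x)) with hw
  have hwre : ∀ z, (w z).re = (a ^ 2 - Complex.normSq (z - x)) / Complex.normSq ((a:ℂ) - (z - x)) := by
    intro z
    simp only [hw, Complex.div_re, Complex.add_re, Complex.sub_re, Complex.add_im, Complex.sub_im,
      Complex.ofReal_re, Complex.ofReal_im, Complex.normSq_apply]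
    ring
  have hwim : ∀ z, (w z).im = 2 * a * z.im / Complex.normSq ((a:ℂ) - (z - x)) := by
    intro z
    simp only [hw, Complex.div_im, Complex.add_re, Complex.sub_re, Complex.add_im, Complex.sub_im,
      Complex.ofReal_re, Complex.ofReal_im, Complex.normSq_apply, hx]
    ring
  have hden : ∀ z, 0 < z.im → 0 < Complex.normSq ((a:ℂ) - (z - x)) := fun z hz => by
    rw [Complex.normSq_pos]
    intro h
    have := congrArg Complex.im h
    simp [hx] at this
    linarith
  have hwpos : ∀ z, 0 < z.im → 0 < (w z).im := fun z hz => by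
    rw [hwim]; have := hden z hz; positivity
  set K := 2 * Real.log 2 / Real.pi with hK
  have hK0 : 0 ≤ K := by positivity
  set S' := ball x a ∩ upHP with hS'
  have hS'sub : S' ⊆ S := inter_subset_inter_left _ (ball_subset_ball (by rw [ha]; linarith))
  set G := fun z => Complex.exp (-ψ z + I * (K : ℂ) * Complex.log (w z)) with hG
  have hGn : ∀ z, ‖G z‖ = Real.exp (-(ψ z).re - K * Complex.arg (w z)) := fun z => by
    rw [hG, Complex.norm_exp]
    simp [Complex.mul_re, Complex.log_im]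
    ring
  have hwd : ∀ z, 0 < z.im → DifferentiableAt ℂ (fun z => Complex.log (w z)) z := fun z hz => by
    refine DifferentiableAt.clog ?_ (Or.inr (hwpos z hz).ne')
    exact ((differentiableAt_id.sub_const x).const_add _).div
      ((differentiableAt_id.sub_const x).const_sub _) (Complex.normSq_pos.mp (hden z hz))
  have hGd : ∀ z ∈ S, DifferentiableAt ℂ G z := fun z hz =>
    ((hψd.differentiableAt (hSo.mem_nhds hz)).neg.add ((hwd z hz.2).const_mul _)).cexp
  have hmax : ∀ z ∈ S', ‖G z‖ ≤ 1 := by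
    refine norm_le_one_of_frontier (isOpen_ball.inter isOpen_upHP)
      (isBounded_ball.subset inter_subset_left)
      (fun z hz => (hGd z (hS'sub hz)).differentiableWithinAt) ?_
    intro y hy ε hε
    have hyc : y ∈ closure S' := frontier_subset_closure hy
    have hy0 : 0 ≤ y.im := by
      have := closure_mono (inter_subset_right (s := ball x a)) hyc
      rwa [closure_upHP] at this
    have hya : dist y x ≤ a :=
      closure_ball_subset_closedBall (closure_mono (inter_subset_left (t := upHP)) hyc)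
    have hyρ : y ∈ ball x ρ := mem_ball.mpr (by rw [ha] at hya; linarith)
    rcases eq_or_lt_of_le hy0 with h0 | h0
    · have hy' : y ∈ ball x r := ball_subset_ball hρr hyρ
      have hev := ((hbd y hy' h0.symm).inv₀ one_ne_zero).eventually
        (gt_mem_nhds (show (1:ℝ)⁻¹ < 1 + ε by rw [inv_one]; linarith))
      have hmono : 𝓝[S'] y ≤ 𝓝[upHP] y := nhdsWithin_mono _ inter_subset_right
      filter_upwards [hev.filter_mono hmono, self_mem_nhdsWithin] with z hz hzS
      refine le_trans ?_ hz.le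
      rw [hGn, hfn z (hS'sub hzS), ← Real.exp_neg]
      apply Real.exp_le_exp.mpr
      have : 0 ≤ Complex.arg (w z) := Complex.arg_nonneg_iff.mpr (hwpos z hzS.2).le
      nlinarith
    · have hyS : y ∈ S := ⟨hyρ, h0⟩
      have hynot : y ∉ ball x a := by
        intro hmem
        have : y ∈ frontier S' := hy
        rw [(isOpen_ball.inter isOpen_upHP).frontier_eq] at this
        exact this.2 ⟨hmem, h0⟩
      have hyeq : ‖y - x‖ = a := by
        rw [← dist_eq_norm]; exact le_antisymm hya (not_lt.mp (fun h => hynot (mem_ball.mpr h)))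
      have harg : Complex.arg (w y) = Real.pi / 2 := by
        rw [Complex.arg_eq_pi_div_two_iff]
        refine ⟨?_, hwpos y h0⟩
        rw [hwre, Complex.normSq_eq_norm_sq, hyeq]; simp
      have hle : ‖G y‖ ≤ 1 := by
        rw [hGn, harg, Real.exp_le_one_iff, hK]
        have := hu1 y hyS
        field_simp
        linarith
      have := (hGd y hyS).continuousAt.norm.tendsto.eventually
        (gt_mem_nhds (show ‖G y‖ < 1 + ε by linarith))
      exact (this.mono fun z hz => hz.le).filter_mono nhdsWithin_le_nhds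
  -- a linear bound near the centre and a bound for the derivative
  set b := a / 4 with hb
  have hlin : ∀ z, dist z x < a / 2 → 0 < z.im → -(ψ z).re ≤ K * (4 * z.im / a) := by
    intro z hz hzi
    have hzS : z ∈ S' := ⟨mem_ball.mpr (by linarith), hzi⟩
    have h1 := hmax z hzS
    rw [hGn, Real.exp_le_one_iff] at h1
    have hns : Complex.normSq (z - x) ≤ (a / 2) ^ 2 := by
      rw [Complex.normSq_eq_norm_sq, ← dist_eq_norm]
      exact pow_le_pow_left₀ dist_nonneg hz.le 2
    have hrep : 0 < (w z).re := by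
      rw [hwre]; exact div_pos (by nlinarith) (hden z hzi)
    have harg0 : 0 ≤ Complex.arg (w z) := Complex.arg_nonneg_iff.mpr (hwpos z hzi).le
    have harg1 : Complex.arg (w z) < Real.pi / 2 := by
      have := Complex.abs_arg_lt_pi_div_two_iff.mpr (Or.inl hrep)
      exact (abs_lt.mp this).2
    have h2 := Real.le_tan harg0 harg1
    rw [Complex.tan_arg, hwre, hwim] at h2
    have h3 : 2 * a * z.im / Complex.normSq ((a:ℂ) - (z - x)) /
        ((a ^ 2 - Complex.normSq (z - x)) / Complex.normSq ((a:ℂ) - (z - x))) ≤ 4 * z.im / a := by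
      rw [div_div_div_cancel_right₀ (hden z hzi).ne', div_le_div_iff₀ (by nlinarith) hap]
      nlinarith
    nlinarith [h2.trans h3]
  set C := 2 * (K * (4 / a)) with hC
  have hC0 : 0 ≤ C := by positivity
  have hder : ∀ z ∈ ball x b ∩ upHP, ‖deriv f z‖ ≤ C := by
    rintro z ⟨hzb, hzi⟩
    rw [mem_ball] at hzb
    have hzball : ball z z.im ⊆ S := by
      intro p hp
      rw [mem_ball] at hp
      have hzx : z.im ≤ dist z x := by
        rw [dist_eq_norm]
        simpa [hx] using (le_abs_self _).trans (Complex.abs_im_le_norm (z - x))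
      constructor
      · rw [mem_ball]
        have : ρ = 2 * a := by rw [ha]; ring
        linarith [dist_triangle p z x]
      · have := (Complex.abs_im_le_norm (p - z)).trans_lt (by rwa [← dist_eq_norm])
        rw [Complex.sub_im, abs_lt] at this
        show 0 < p.im
        linarith
    have hzS : z ∈ S := hzball (mem_ball_self hzi)
    have hφd : DifferentiableOn ℂ (fun p => -(I * ψ p)) (ball z z.im) :=
      (((hψd.mono hzball).const_mul I).neg)
    have h1 := norm_deriv_le_im hzi hφd (fun p hp => by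
      simp only [Complex.neg_im, Complex.mul_im, Complex.I_re, Complex.I_im, zero_mul, one_mul,
        zero_add]
      exact hu0 p (hzball hp))
    have hψz := (hψd.differentiableAt (hSo.mem_nhds hzS)).hasDerivAt
    rw [(hψz.const_mul I).fun_neg.deriv, norm_neg, norm_mul, Complex.norm_I, one_mul] at h1
    simp only [Complex.neg_im, Complex.mul_im, Complex.I_re, Complex.I_im, zero_mul, one_mul,
      zero_add] at h1
    have h2 : ‖deriv ψ z‖ ≤ C := by
      refine h1.trans ?_
      rw [hC, div_le_iff₀ hzi]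
      have := hlin z (by linarith) hzi
      calc 2 * -(ψ z).re ≤ 2 * (K * (4 * z.im / a)) := by linarith
        _ = _ := by ring
    have hfd : HasDerivAt f (Complex.exp (ψ z) * deriv ψ z) z := by
      refine hψz.cexp.congr_of_eventuallyEq ?_
      filter_upwards [hSo.mem_nhds hzS] with p hp using (hψ p hp).symm
    rw [hfd.deriv, norm_mul, hψ z hzS]
    calc ‖f z‖ * ‖deriv ψ z‖ ≤ 1 * C := by
          gcongr
          exact (hlt z (hSsub hzS)).le
      _ = C := one_mul C
  have hsub : ball x b ∩ upHP ⊆ ball x r ∩ upHP :=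
    inter_subset_inter_left _ (ball_subset_ball (by rw [hb, ha]; linarith))
  have hlip : LipschitzOnWith (Real.toNNReal C) f (ball x b ∩ upHP) := by
    refine LipschitzOnWith.of_dist_le_mul fun p hp q hq => ?_
    rw [Real.coe_toNNReal C hC0, dist_eq_norm, dist_eq_norm]
    exact ((convex_ball x b).inter convex_upHP).norm_image_sub_le_of_norm_deriv_le
      (fun z hz => hd.differentiableAt ((isOpen_ball.inter isOpen_upHP).mem_nhds (hsub hz)))
      hder hq hp
  obtain ⟨g, hg, heq⟩ := hlip.extend_finite_dimension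
  have hmem : ball x b ∩ upHP ∈ 𝓝[upHP] x :=
    inter_mem (mem_nhdsWithin_of_mem_nhds (ball_mem_nhds _ (by positivity))) self_mem_nhdsWithin
  have hlim : Tendsto f (𝓝[upHP] x) (𝓝 (g x)) :=
    ((hg.continuous.tendsto x).mono_left nhdsWithin_le_nhds).congr'
      (eventually_of_mem hmem fun z hz => (heq hz).symm)
  have := nhdsWithin_upHP_neBot hx.ge
  exact ⟨g x, tendsto_nhds_unique hlim.norm (hbd x (mem_ball_self hr) hx), hlim⟩

/-- Reflection `v ↦ 1 / conj v` in the unit circle, with values in the sphere. -/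
noncomputable def circRefl (v : ℂ) : OnePoint ℂ :=
  if v = 0 then ∞ else (((conj v)⁻¹ : ℂ) : OnePoint ℂ)

/-- The reflected extension of a function on the upper half plane. -/
noncomputable def reflExt (f : ℂ → ℂ) (z : ℂ) : OnePoint ℂ :=
  if 0 ≤ z.im then ((extendFrom upHP f z : ℂ) : OnePoint ℂ)
  else circRefl (extendFrom upHP f (conj z))

/-- Data for reflection across the real points of a symmetric open set. -/
structure ReflData (W : Set ℂ) (f : ℂ → ℂ) : Prop where
  isOpen : IsOpen W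
  symm : ∀ z ∈ W, conj z ∈ W
  diff : DifferentiableOn ℂ f (W ∩ upHP)
  maps : MapsTo f (W ∩ upHP) (ball 0 1)
  inj : InjOn f (W ∩ upHP)
  bdy : ∀ x ∈ W, x.im = 0 → Tendsto (fun z => ‖f z‖) (𝓝[upHP] x) (𝓝 1)

variable {W : Set ℂ} {f : ℂ → ℂ} (hf : ReflData W f)
include hf

lemma ReflData.ext_eq {z : ℂ} (hz : z ∈ W ∩ upHP) : extendFrom upHP f z = f z :=
  extendFrom_eq (subset_closure hz.2)
    ((hf.diff.differentiableAt ((hf.isOpen.inter isOpen_upHP).mem_nhds hz)).continuousAt.mono_left
      nhdsWithin_le_nhds)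

lemma ReflData.reflExt_upper {z : ℂ} (hz : z ∈ W ∩ upHP) : reflExt f z = (f z : OnePoint ℂ) := by
  have : (0:ℝ) ≤ z.im := (show 0 < z.im from hz.2).le
  rw [reflExt, if_pos this, hf.ext_eq hz]

lemma ReflData.reflExt_lower {z : ℂ} (hz : z ∈ W) (hi : z.im < 0) :
    reflExt f z = circRefl (f (conj z)) := by
  rw [reflExt, if_neg (not_le.mpr hi), hf.ext_eq ⟨hf.symm z hz, by simp [upHP, hi]⟩]

lemma ReflData.real_spec {x : ℂ} (hx : x ∈ W) (hi : x.im = 0) :
    ∃ L : ℂ, ‖L‖ = 1 ∧ Tendsto f (𝓝[upHP] x) (𝓝 L) ∧ extendFrom upHP f x = L ∧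
      reflExt f x = (L : OnePoint ℂ) := by
  obtain ⟨r, hr, hrW⟩ := Metric.isOpen_iff.mp hf.isOpen x hx
  obtain ⟨L, hL, hlim⟩ := exists_limit_of_norm_tendsto_one hi hr
    (hf.diff.mono (inter_subset_inter_left _ hrW))
    (fun z hz => mem_ball_zero_iff.mp (hf.maps ⟨hrW hz.1, hz.2⟩))
    (fun y hy => hf.bdy y (hrW hy))
  have he : extendFrom upHP f x = L := extendFrom_eq (by rw [closure_upHP]; exact hi.ge) hlim
  exact ⟨L, hL, hlim, he, by rw [reflExt, if_pos hi.ge, he]⟩

lemma ReflData.norm_ext_le {z : ℂ} (hz : z ∈ W) (hi : 0 ≤ z.im) :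
    ‖extendFrom upHP f z‖ ≤ 1 := by
  rcases eq_or_lt_of_le hi with h | h
  · obtain ⟨L, hL, -, he, -⟩ := hf.real_spec hz h.symm
    rw [he, hL]
  · rw [hf.ext_eq ⟨hz, h⟩]; exact (mem_ball_zero_iff.mp (hf.maps ⟨hz, h⟩)).le

lemma ReflData.continuousOn_ext : ContinuousOn (extendFrom upHP f) (W ∩ {z | 0 ≤ z.im}) := by
  refine continuousOn_extendFrom (by rw [closure_upHP]; exact inter_subset_right) ?_
  rintro z ⟨hz, hi⟩
  rcases eq_or_lt_of_le (show (0:ℝ) ≤ z.im from hi) with h | h
  · obtain ⟨L, -, hlim, -, -⟩ := hf.real_spec hz h.symm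
    exact ⟨L, hlim⟩
  · exact ⟨f z, (hf.diff.differentiableAt ((hf.isOpen.inter isOpen_upHP).mem_nhds
      ⟨hz, h⟩)).continuousAt.mono_left nhdsWithin_le_nhds⟩

/-- Near a real point the reflected extension is holomorphic. -/
lemma ReflData.exists_local {x : ℂ} (hx : x ∈ W) (hi : x.im = 0) :
    ∃ r > 0, ∃ g : ℂ → ℂ, ball x r ⊆ W ∧ DifferentiableOn ℂ g (ball x r) ∧
      ∀ z ∈ ball x r, reflExt f z = (g z : OnePoint ℂ) := by
  obtain ⟨r₀, hr₀, hrW⟩ := Metric.isOpen_iff.mp hf.isOpen x hx
  obtain ⟨L, hL, -, he, -⟩ := hf.real_spec hx hi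
  have hev := (hf.continuousOn_ext x ⟨hx, hi.ge⟩).norm.tendsto.eventually
    (lt_mem_nhds (show (0:ℝ) < ‖extendFrom upHP f x‖ by rw [he, hL]; norm_num))
  rw [eventually_nhdsWithin_iff, Metric.eventually_nhds_iff] at hev
  obtain ⟨δ, hδ, hne⟩ := hev
  set r := min δ r₀ with hr
  have hrp : 0 < r := lt_min hδ hr₀
  have hsub : ball x r ⊆ W := (ball_subset_ball (min_le_right _ _)).trans hrW
  have hconj : ∀ z ∈ ball x r, conj z ∈ ball x r := fun z hz => by
    rw [mem_ball, dist_eq_norm] at hz ⊢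
    have : conj x = x := Complex.conj_eq_iff_im.mpr hi
    calc ‖conj z - x‖ = ‖conj (z - x)‖ := by rw [map_sub, this]
      _ < r := by rwa [Complex.norm_conj]
  have hne' : ∀ z ∈ ball x r, 0 ≤ z.im → extendFrom upHP f z ≠ 0 := fun z hz hzi => by
    rw [← norm_pos_iff]
    exact hne (lt_of_lt_of_le (mem_ball.mp hz) (min_le_left _ _)) ⟨hsub hz, hzi⟩
  set g := fun z : ℂ =>
    if 0 ≤ z.im then extendFrom upHP f z else (conj (extendFrom upHP f (conj z)))⁻¹ with hg
  refine ⟨r, hrp, g, hsub, differentiableOn_of_off_real ?_ ?_, ?_⟩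
  · refine ContinuousOn.if ?_ ?_ ?_
    · rintro z ⟨hz, hzf⟩
      rw [Complex.frontier_setOfPred_le_im] at hzf
      have hzf : z.im = 0 := hzf
      obtain ⟨M, hM, -, hMe, -⟩ := hf.real_spec (hsub hz) hzf
      rw [Complex.conj_eq_iff_im.mpr hzf, hMe]
      refine eq_inv_of_mul_eq_one_left ?_
      rw [mul_comm, Complex.conj_mul', hM]; simp
    · refine hf.continuousOn_ext.mono ?_
      rintro z ⟨hz, hzc⟩
      rw [(isClosed_le continuous_const Complex.continuous_im).closure_eq] at hzc
      exact ⟨hsub hz, hzc⟩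
    · have hsub' : ∀ z ∈ ball x r ∩ closure {z : ℂ | ¬ 0 ≤ z.im}, (conj z) ∈ ball x r ∧
          0 ≤ (conj z).im := by
        rintro z ⟨hz, hzc⟩
        have : z.im ≤ 0 := by
          have := closure_minimal (t := {z : ℂ | z.im ≤ 0})
            (fun y hy => (not_le.mp (show ¬ (0:ℝ) ≤ y.im from hy)).le)
            (isClosed_le Complex.continuous_im continuous_const) hzc
          exact this
        exact ⟨hconj z hz, by simpa using this⟩
      refine (Complex.continuous_conj.comp_continuousOn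
        (hf.continuousOn_ext.comp Complex.continuous_conj.continuousOn
          fun z hz => ⟨hsub (hsub' z hz).1, (hsub' z hz).2⟩)).inv₀ fun z hz => ?_
      simpa using hne' _ (hsub' z hz).1 (hsub' z hz).2
  · intro z hz hzi
    rcases lt_or_gt_of_ne hzi with h | h
    · have hmem : conj z ∈ W ∩ upHP := ⟨hsub (hconj z hz), by simp [upHP, h]⟩
      have hd : DifferentiableAt ℂ (fun w => conj (f (conj w))) z := by
        have h0 := hf.diff.differentiableAt ((hf.isOpen.inter isOpen_upHP).mem_nhds hmem)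
        exact differentiableAt_conj_conj_iff.mpr h0
      refine (hd.inv ?_).congr_of_eventuallyEq ?_
      · have h1 := hne' _ (hconj z hz) (by simp; linarith)
        rw [hf.ext_eq hmem] at h1
        simpa using h1
      · filter_upwards [isOpen_ball.mem_nhds hz,
          (isOpen_lt Complex.continuous_im continuous_const).mem_nhds h] with w hw hwi
        have hwi : w.im < 0 := hwi
        rw [hg]
        simp only [not_le.mpr hwi, if_false]
        rw [hf.ext_eq ⟨hsub (hconj w hw), by simp [upHP, hwi]⟩]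
        rfl
    · refine (hf.diff.differentiableAt ((hf.isOpen.inter isOpen_upHP).mem_nhds
        ⟨hsub hz, h⟩)).congr_of_eventuallyEq ?_
      filter_upwards [isOpen_ball.mem_nhds hz, isOpen_upHP.mem_nhds h] with w hw hwi
      have hwi' : (0:ℝ) ≤ w.im := (show 0 < w.im from hwi).le
      rw [hg]
      simp only [hwi', if_true]
      rw [hf.ext_eq ⟨hsub hw, hwi⟩]
  · intro z hz
    by_cases hzi : (0:ℝ) ≤ z.im
    · simp [reflExt, hg, hzi]
    · have := hne' _ (hconj z hz) (by simp; linarith [not_le.mp hzi])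
      simp [reflExt, hg, hzi, circRefl, this]

/-- The local extension at a real point is open there. -/
lemma ReflData.image_mem_nhds {x : ℂ} (hx : x ∈ W) (hi : x.im = 0) {N : Set ℂ} (hN : N ∈ 𝓝 x)
    {L : ℂ} (hL : reflExt f x = (L : OnePoint ℂ)) :
    {v : ℂ | ∃ z ∈ N ∩ W, reflExt f z = (v : OnePoint ℂ)} ∈ 𝓝 L := by
  obtain ⟨r, hr, g, hsub, hgd, hgeq⟩ := hf.exists_local hx hi
  have hgx : g x = L := by
    have := hgeq x (mem_ball_self hr)
    rw [hL] at this
    exact (OnePoint.coe_eq_coe.mp this).symm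
  rcases (hgd.analyticAt (isOpen_ball.mem_nhds (mem_ball_self hr))).eventually_constant_or_nhds_le_map_nhds
    with h | h
  · exfalso
    have := nhdsWithin_upHP_neBot hi.ge
    obtain ⟨z, hz, hzb, hzi⟩ := ((h.filter_mono nhdsWithin_le_nhds).and
      ((Filter.eventually_mem_set.mpr (mem_nhdsWithin_of_mem_nhds (ball_mem_nhds x hr) :
        ball x r ∈ 𝓝[upHP] x)).and
        self_mem_nhdsWithin)).exists
    have hzb : z ∈ ball x r := hzb
    have h1 := hgeq z hzb
    rw [hf.reflExt_upper ⟨hsub hzb, hzi⟩, OnePoint.coe_eq_coe, hz, hgx] at h1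
    obtain ⟨M, hM, -, -, hM2⟩ := hf.real_spec hx hi
    rw [hL, OnePoint.coe_eq_coe] at hM2
    have := mem_ball_zero_iff.mp (hf.maps ⟨hsub hzb, hzi⟩)
    rw [h1, hM2, hM] at this
    exact lt_irrefl _ this
  · rw [hgx] at h
    have hmem : g '' (N ∩ ball x r) ∈ 𝓝 L :=
      h (Filter.image_mem_map (inter_mem hN (ball_mem_nhds x hr)))
    refine mem_of_superset hmem ?_
    rintro _ ⟨z, hz, rfl⟩
    exact ⟨z, ⟨hz.1, hsub hz.2⟩, hgeq z hz.2⟩

omit hf in
lemma circRefl_eq_coe {v u : ℂ} (h : circRefl v = (u : OnePoint ℂ)) : v ≠ 0 ∧ u = (conj v)⁻¹ := by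
  rw [circRefl] at h
  split_ifs at h with hv
  · exact absurd h (OnePoint.infty_ne_coe u)
  · exact ⟨hv, (OnePoint.coe_eq_coe.mp h).symm⟩

/-- The three cases for the modulus of the extension. -/
lemma ReflData.cases {z u : ℂ} (hz : z ∈ W) (h : reflExt f z = (u : OnePoint ℂ)) :
    (0 < z.im ∧ ‖u‖ < 1) ∨ (z.im = 0 ∧ ‖u‖ = 1) ∨ (z.im < 0 ∧ 1 < ‖u‖) := by
  rcases lt_trichotomy z.im 0 with hi | hi | hi
  · refine Or.inr (Or.inr ⟨hi, ?_⟩)
    rw [hf.reflExt_lower hz hi] at h
    obtain ⟨hne, rfl⟩ := circRefl_eq_coe h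
    rw [norm_inv, Complex.norm_conj, one_lt_inv₀ (norm_pos_iff.mpr hne)]
    exact mem_ball_zero_iff.mp (hf.maps ⟨hf.symm z hz, by simp [upHP, hi]⟩)
  · obtain ⟨L, hL, -, -, he⟩ := hf.real_spec hz hi
    rw [he, OnePoint.coe_eq_coe] at h
    exact Or.inr (Or.inl ⟨hi, h ▸ hL⟩)
  · rw [hf.reflExt_upper ⟨hz, hi⟩, OnePoint.coe_eq_coe] at h
    exact Or.inl ⟨hi, h ▸ mem_ball_zero_iff.mp (hf.maps ⟨hz, hi⟩)⟩

lemma ReflData.injOn : InjOn (reflExt f) W := by
  intro z hz z' hz' he
  by_cases hinf : reflExt f z = ∞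
  · have key : ∀ y ∈ W, reflExt f y = ∞ → y.im < 0 ∧ f (conj y) = 0 := by
      intro y hy hyi
      by_cases h : y.im < 0
      · rw [hf.reflExt_lower hy h, circRefl] at hyi
        split_ifs at hyi with h0
        exacts [⟨h, h0⟩, absurd hyi (OnePoint.coe_ne_infty _)]
      · rw [reflExt, if_pos (not_lt.mp h)] at hyi
        exact absurd hyi (OnePoint.coe_ne_infty _)
    obtain ⟨h1, h2⟩ := key z hz hinf
    obtain ⟨h3, h4⟩ := key z' hz' (he ▸ hinf)
    have := hf.inj ⟨hf.symm z hz, by simp [upHP, h1]⟩ ⟨hf.symm z' hz', by simp [upHP, h3]⟩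
      (h2.trans h4.symm)
    simpa using congrArg conj this
  obtain ⟨u, hu⟩ := OnePoint.ne_infty_iff_exists.mp hinf
  have hu1 := hu.symm
  have hu2 : reflExt f z' = (u : OnePoint ℂ) := he.symm.trans hu.symm
  rcases hf.cases hz hu1 with ⟨a1, b1⟩ | ⟨a1, b1⟩ | ⟨a1, b1⟩ <;>
    rcases hf.cases hz' hu2 with ⟨a2, b2⟩ | ⟨a2, b2⟩ | ⟨a2, b2⟩ <;> try linarith
  · rw [hf.reflExt_upper ⟨hz, a1⟩, OnePoint.coe_eq_coe] at hu1
    rw [hf.reflExt_upper ⟨hz', a2⟩, OnePoint.coe_eq_coe] at hu2
    exact hf.inj ⟨hz, a1⟩ ⟨hz', a2⟩ (hu1.trans hu2.symm)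
  · by_contra hne
    obtain ⟨N, N', hN, hN', hd⟩ := t2_separation_nhds hne
    have hint := inter_mem (hf.image_mem_nhds hz a1 hN hu1) (hf.image_mem_nhds hz' a2 hN' hu2)
    obtain ⟨v, ⟨⟨p, hp, hpv⟩, ⟨q, hq, hqv⟩⟩, hv⟩ :=
      mem_closure_iff_nhds.mp (show u ∈ closure (ball (0:ℂ) 1) by
        rw [closure_ball _ one_ne_zero, mem_closedBall_zero_iff, b1]) _ hint
    rw [mem_ball_zero_iff] at hv
    have hpi : 0 < p.im := by
      rcases hf.cases hp.2 hpv with ⟨h, -⟩ | ⟨-, h⟩ | ⟨-, h⟩ <;> linarith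
    have hqi : 0 < q.im := by
      rcases hf.cases hq.2 hqv with ⟨h, -⟩ | ⟨-, h⟩ | ⟨-, h⟩ <;> linarith
    rw [hf.reflExt_upper ⟨hp.2, hpi⟩, OnePoint.coe_eq_coe] at hpv
    rw [hf.reflExt_upper ⟨hq.2, hqi⟩, OnePoint.coe_eq_coe] at hqv
    have := hf.inj ⟨hp.2, hpi⟩ ⟨hq.2, hqi⟩ (hpv.trans hqv.symm)
    exact hd.le_bot ⟨hp.1, this ▸ hq.1⟩
  · rw [hf.reflExt_lower hz a1] at hu1
    rw [hf.reflExt_lower hz' a2] at hu2
    obtain ⟨h1, e1⟩ := circRefl_eq_coe hu1
    obtain ⟨h2, e2⟩ := circRefl_eq_coe hu2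
    have h3 : conj (f (conj z)) = conj (f (conj z')) := inv_injective (e1.symm.trans e2)
    have := hf.inj ⟨hf.symm z hz, by simp [upHP, a1]⟩ ⟨hf.symm z' hz', by simp [upHP, a2]⟩
      (star_injective h3)
    exact star_injective this

omit hf in
lemma continuousAt_sphInv_coe {v : ℂ} : ContinuousAt sphInv (v : OnePoint ℂ) := by
  rw [OnePoint.continuousAt_coe]
  rcases eq_or_ne v 0 with rfl | hv
  · rw [ContinuousAt, Function.comp_apply, sphInv_zero, ← nhdsNE_sup_pure, tendsto_sup]
    refine ⟨?_, by simpa using tendsto_pure_nhds (sphInv ∘ ((↑) : ℂ → OnePoint ℂ)) 0⟩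
    refine Tendsto.congr' (f₁ := fun z : ℂ => ((z⁻¹ : ℂ) : OnePoint ℂ)) ?_ ?_
    · filter_upwards [self_mem_nhdsWithin] with z hz using (sphInv_coe hz).symm
    · refine OnePoint.tendsto_coe_infty.comp ?_
      rw [coclosedCompact_eq_cocompact, ← Metric.cobounded_eq_cocompact]
      exact tendsto_inv₀_nhdsNE_zero
  · exact (OnePoint.continuous_coe.continuousAt.comp (continuousAt_inv₀ hv)).congr
      (Filter.eventuallyEq_of_mem (isOpen_ne.mem_nhds hv) fun z hz => (sphInv_coe hz).symm)

omit hf in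
lemma circRefl_eq (v : ℂ) : circRefl v = sphInv ((conj v : ℂ) : OnePoint ℂ) := by
  rcases eq_or_ne v 0 with rfl | hv
  · simp [circRefl]
  · rw [sphInv_coe (by simpa using hv), circRefl, if_neg hv]

lemma ReflData.continuousAt {z : ℂ} (hz : z ∈ W) : ContinuousAt (reflExt f) z := by
  rcases lt_trichotomy z.im 0 with hi | hi | hi
  · have hmem : conj z ∈ W ∩ upHP := ⟨hf.symm z hz, by simp [upHP, hi]⟩
    have hc : ContinuousAt (fun w => ((conj (f (conj w)) : ℂ) : OnePoint ℂ)) z := by
      have h0 := (hf.diff.differentiableAt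
        ((hf.isOpen.inter isOpen_upHP).mem_nhds hmem)).continuousAt
      exact OnePoint.continuous_coe.continuousAt.comp (Complex.continuous_conj.continuousAt.comp
        (h0.comp Complex.continuous_conj.continuousAt))
    refine (ContinuousAt.comp (g := sphInv)
      (f := fun w => ((conj (f (conj w)) : ℂ) : OnePoint ℂ)) continuousAt_sphInv_coe hc).congr ?_
    filter_upwards [hf.isOpen.mem_nhds hz,
      (isOpen_lt Complex.continuous_im continuous_const).mem_nhds hi] with w hw hwi
    rw [Function.comp_apply, hf.reflExt_lower hw hwi, circRefl_eq]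
  · obtain ⟨r, hr, g, -, hgd, hgeq⟩ := hf.exists_local hz hi
    refine (OnePoint.continuous_coe.continuousAt.comp
      (hgd.continuousOn.continuousAt (ball_mem_nhds z hr))).congr ?_
    filter_upwards [ball_mem_nhds z hr] with w hw using (hgeq w hw).symm
  · refine (OnePoint.continuous_coe.continuousAt.comp (hf.diff.differentiableAt
      ((hf.isOpen.inter isOpen_upHP).mem_nhds ⟨hz, hi⟩)).continuousAt).congr ?_
    filter_upwards [(hf.isOpen.inter isOpen_upHP).mem_nhds (⟨hz, hi⟩ : z ∈ W ∩ upHP)] with w hw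
      using (hf.reflExt_upper hw).symm

/-- Holomorphy of the extension in the standard charts. -/
lemma ReflData.differentiableAt {z : ℂ} (hz : z ∈ W) :
    DifferentiableAt ℂ (fun w => finVal (sphChart (reflExt f z) (reflExt f w))) z := by
  rcases lt_trichotomy z.im 0 with hi | hi | hi
  · have hmem : conj z ∈ W ∩ upHP := ⟨hf.symm z hz, by simp [upHP, hi]⟩
    have hd : DifferentiableAt ℂ (fun w => conj (f (conj w))) z := by
      have h0 := hf.diff.differentiableAt ((hf.isOpen.inter isOpen_upHP).mem_nhds hmem)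
      exact differentiableAt_conj_conj_iff.mpr h0
    have hev : ∀ᶠ w in 𝓝 z, reflExt f w = circRefl (f (conj w)) := by
      filter_upwards [hf.isOpen.mem_nhds hz,
        (isOpen_lt Complex.continuous_im continuous_const).mem_nhds hi] with w hw hwi
        using hf.reflExt_lower hw hwi
    rw [hf.reflExt_lower hz hi]
    by_cases h0 : f (conj z) = 0
    · rw [circRefl, if_pos h0, sphChart_infty]
      refine hd.congr_of_eventuallyEq ?_
      filter_upwards [hev] with w hw
      rw [hw, circRefl]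
      split_ifs with h
      · simp [h]
      · rw [sphInv_coe (by simpa using h)]; simp
    · rw [circRefl, if_neg h0, sphChart_coe]
      have hne : conj (f (conj z)) ≠ 0 := by simpa using h0
      refine (hd.inv hne).congr_of_eventuallyEq ?_
      filter_upwards [hev, hd.continuousAt.eventually_ne hne] with w hw hw0
      have : f (conj w) ≠ 0 := by simpa using hw0
      simp [hw, circRefl, this]
  · obtain ⟨r, hr, g, -, hgd, hgeq⟩ := hf.exists_local hz hi
    rw [hgeq z (mem_ball_self hr), sphChart_coe]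
    refine (hgd.differentiableAt (ball_mem_nhds z hr)).congr_of_eventuallyEq ?_
    filter_upwards [ball_mem_nhds z hr] with w hw
    simp [hgeq w hw]
  · rw [hf.reflExt_upper ⟨hz, hi⟩, sphChart_coe]
    refine (hf.diff.differentiableAt
      ((hf.isOpen.inter isOpen_upHP).mem_nhds ⟨hz, hi⟩)).congr_of_eventuallyEq ?_
    filter_upwards [(hf.isOpen.inter isOpen_upHP).mem_nhds (⟨hz, hi⟩ : z ∈ W ∩ upHP)] with w hw
    simp [hf.reflExt_upper hw]

end Vale.Agent.P116
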