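import Mathlib
import Vale.Agent.P116.Cover
import Vale.Agent.P116.Reflect

/-!
# A normalised Riemann map of the upper half of a symmetric domain
-/

open Set Filter Metric Complex
open scoped Topology ComplexConjugate OnePoint

namespace Vale.Agent.P116

/-- The Cayley map. -/
noncomputable def cay (z : ℂ) : ℂ := (z - I) / (z + I)

/-- The inverse Cayley map. -/
noncomputable def cayInv (w : ℂ) : ℂ := I * (1 + w) / (1 - w)

lemma add_I_ne {z : ℂ} (hz : 0 ≤ z.im) : z + I ≠ 0 := fun h => by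
  have := congrArg Complex.im h; simp at this; linarith

lemma norm_cay_lt {z : ℂ} (hz : 0 < z.im) : ‖cay z‖ < 1 := by
  rw [cay, norm_div, div_lt_one (norm_pos_iff.mpr (add_I_ne hz.le))]
  rw [Complex.norm_def, Complex.norm_def]
  apply Real.sqrt_lt_sqrt (Complex.normSq_nonneg _)
  simp [Complex.normSq_apply]; nlinarith

lemma norm_cay_real {z : ℂ} (hz : z.im = 0) : ‖cay z‖ = 1 := by
  rw [cay, norm_div, div_eq_one_iff_eq (norm_ne_zero_iff.mpr (add_I_ne hz.ge))]
  rw [Complex.norm_def, Complex.norm_def]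
  simp [Complex.normSq_apply, hz]

lemma cayInv_cay {z : ℂ} (hz : z + I ≠ 0) : cayInv (cay z) = z := by
  have e1 : 1 + cay z = 2 * z / (z + I) := by
    rw [cay, one_add_div hz]; ring
  have e2 : 1 - cay z = 2 * I / (z + I) := by
    rw [cay, one_sub_div hz]; ring
  rw [cayInv, e1, e2, mul_div_assoc', div_div_div_cancel_right₀ hz]
  field_simp

lemma cay_cayInv {w : ℂ} (hw : 1 - w ≠ 0) : cay (cayInv w) = w := by
  have e1 : cayInv w - I = 2 * I * w / (1 - w) := by
    rw [cayInv, div_sub' hw]; ring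
  have e2 : cayInv w + I = 2 * I / (1 - w) := by
    rw [cayInv, div_add' _ _ _ hw]; ring
  rw [cay, e1, e2, div_div_div_cancel_right₀ hw]
  field_simp

lemma one_sub_ne {w : ℂ} (hw : ‖w‖ < 1) : 1 - w ≠ 0 := fun h => by
  rw [← sub_eq_zero.mp h, norm_one] at hw; exact lt_irrefl _ hw

lemma im_cayInv_pos {w : ℂ} (hw : ‖w‖ < 1) : 0 < (cayInv w).im := by
  have h := Complex.normSq_pos.mpr (one_sub_ne hw)
  have h2 : Complex.normSq w < 1 := by
    rw [Complex.normSq_eq_norm_sq]; nlinarith [norm_nonneg w]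
  rw [Complex.normSq_apply] at h2
  simp only [cayInv, Complex.div_im, Complex.mul_re, Complex.mul_im, Complex.I_re, Complex.I_im,
    Complex.add_re, Complex.add_im, Complex.sub_re, Complex.sub_im, Complex.one_re, Complex.one_im]
  rw [← sub_div]
  exact div_pos (by nlinarith) h

lemma differentiableOn_cay : DifferentiableOn ℂ cay upHP := by
  unfold cay
  exact (differentiableOn_id.sub_const I).div (differentiableOn_id.add_const I)
    fun z hz => add_I_ne (le_of_lt (show 0 < z.im from hz))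

lemma differentiableOn_cayInv : DifferentiableOn ℂ cayInv (ball 0 1) := by
  unfold cayInv
  exact ((differentiableOn_id.const_add 1).const_mul I).div (differentiableOn_id.const_sub 1)
    fun w hw => one_sub_ne (mem_ball_zero_iff.mp hw)

/-- Folding onto the closed upper half plane. -/
noncomputable def fold (z : ℂ) : ℂ := (z.re : ℂ) + (|z.im| : ℝ) * I

lemma fold_im (z : ℂ) : (fold z).im = |z.im| := by simp [fold]

lemma fold_eq (z : ℂ) : fold z = z ∨ fold z = conj z := by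
  rcases le_total 0 z.im with h | h
  · exact Or.inl (Complex.ext (by simp [fold]) (by simp [fold, abs_of_nonneg h]))
  · exact Or.inr (Complex.ext (by simp [fold]) (by simp [fold, abs_of_nonpos h]))

lemma norm_fold (z : ℂ) : ‖fold z‖ = ‖z‖ := by
  rcases fold_eq z with h | h <;> simp [h]

/-- The folded Cayley map on the sphere. -/
noncomputable def foldCay (x : OnePoint ℂ) : ℂ := OnePoint.rec 1 (fun z => cay (fold z)) x

lemma continuous_foldCay : Continuous foldCay := by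
  rw [OnePoint.continuous_iff]
  refine ⟨?_, ?_⟩
  · show Tendsto (fun z : ℂ => cay (fold z)) (coclosedCompact ℂ) (𝓝 1)
    rw [coclosedCompact_eq_cocompact, tendsto_iff_norm_sub_tendsto_zero]
    have h : Tendsto (fun z : ℂ => 2 * (‖z‖ - 1)⁻¹) (cocompact ℂ) (𝓝 0) := by
      have := (tendsto_inv_atTop_zero.comp
        (tendsto_atTop_add_const_right _ (-1 : ℝ) (tendsto_norm_cocompact_atTop (E := ℂ)))).const_mul 2
      simpa [sub_eq_add_neg] using this
    refine squeeze_zero' (Filter.Eventually.of_forall fun z => norm_nonneg _) ?_ h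
    filter_upwards [(tendsto_norm_cocompact_atTop (E := ℂ)).eventually (eventually_gt_atTop 1)]
      with z hz
    have hne := add_I_ne (z := fold z) (by rw [fold_im]; positivity)
    have e : cay (fold z) - 1 = -2 * I / (fold z + I) := by
      rw [cay, div_sub_one hne]; ring
    rw [e, norm_div, norm_mul, norm_neg, Complex.norm_I, mul_one, RCLike.norm_ofNat,
      div_eq_mul_inv]
    refine mul_le_mul_of_nonneg_left (inv_anti₀ (by linarith) ?_) (by norm_num)
    have := norm_sub_norm_le (fold z) (-I)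
    rw [norm_neg, Complex.norm_I, sub_neg_eq_add, norm_fold] at this
    linarith
  · show Continuous fun z : ℂ => cay (fold z)
    unfold cay fold
    refine Continuous.div (by fun_prop) (by fun_prop) fun z => ?_
    exact add_I_ne (z := fold z) (by rw [fold_im]; positivity)

lemma isPreconnected_upper {W : Set ℂ} (hW : IsOpen W) (hWc : IsPreconnected W)
    (hs : ∀ z ∈ W, conj z ∈ W) : IsPreconnected (W ∩ upHP) := by
  intro u v hu hv huv ⟨a, haW, hau⟩ ⟨b, hbW, hbv⟩
  by_contra hno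
  have hdis : ∀ z ∈ W ∩ upHP, z ∈ u → z ∉ v := fun z hz h1 h2 => hno ⟨z, hz, h1, h2⟩
  set U' := {z ∈ W | ∃ r > 0, ∀ y ∈ ball z r, y.im ≠ 0 → fold y ∈ (W ∩ upHP) ∩ u} with hU'
  set V' := {z ∈ W | ∃ r > 0, ∀ y ∈ ball z r, y.im ≠ 0 → fold y ∈ (W ∩ upHP) ∩ v} with hV'
  have opn : ∀ s : Set ℂ,
      IsOpen {z ∈ W | ∃ r > 0, ∀ y ∈ ball z r, y.im ≠ 0 → fold y ∈ (W ∩ upHP) ∩ s} := by
    intro s
    rw [Metric.isOpen_iff]
    rintro z ⟨hz, r, hr, h⟩
    obtain ⟨δ, hδ, hδW⟩ := Metric.isOpen_iff.mp hW z hz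
    refine ⟨min δ (r / 2), by positivity, fun y hy => ⟨hδW (ball_subset_ball (min_le_left _ _) hy),
      r / 2, by positivity, fun q hq hqi => h q ?_ hqi⟩⟩
    rw [mem_ball] at hy hq ⊢
    linarith [dist_triangle q y z, min_le_right δ (r / 2)]
  have hfoldW : ∀ y ∈ W, y.im ≠ 0 → fold y ∈ W ∩ upHP := by
    intro y hy hyi
    refine ⟨?_, by show 0 < (fold y).im; rw [fold_im]; exact abs_pos.mpr hyi⟩
    rcases fold_eq y with h | h <;> rw [h]
    exacts [hy, hs y hy]
  have cover : W ⊆ U' ∪ V' := by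
    intro z hz
    obtain ⟨δ, hδ, hδW⟩ := Metric.isOpen_iff.mp hW z hz
    by_cases hzi : z.im = 0
    · have hpre : IsPreconnected (ball z δ ∩ upHP) :=
        ((convex_ball z δ).inter convex_upHP).isPreconnected
      have hsub : ball z δ ∩ upHP ⊆ W ∩ upHP := inter_subset_inter_left _ hδW
      have hfold : ∀ y ∈ ball z δ, y.im ≠ 0 → fold y ∈ ball z δ ∩ upHP := by
        intro y hy hyi
        refine ⟨?_, (hfoldW y (hδW hy) hyi).2⟩
        rw [mem_ball, dist_eq_norm] at hy ⊢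
        rcases fold_eq y with h | h <;> rw [h]
        · exact hy
        · rw [← Complex.conj_eq_iff_im.mpr hzi, ← map_sub, Complex.norm_conj]; exact hy
      by_cases hu' : ball z δ ∩ upHP ⊆ u
      · exact Or.inl ⟨hz, δ, hδ, fun y hy hyi => ⟨hfoldW y (hδW hy) hyi, hu' (hfold y hy hyi)⟩⟩
      · obtain ⟨q, hq, hqu⟩ := not_subset.mp hu'
        refine Or.inr ⟨hz, δ, hδ, fun y hy hyi => ⟨hfoldW y (hδW hy) hyi, ?_⟩⟩
        by_contra hyv
        obtain ⟨p, hp, hp1, hp2⟩ := hpre u v hu hv (hsub.trans huv)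
          ⟨fold y, hfold y hy hyi, (huv (hfoldW y (hδW hy) hyi)).resolve_right hyv⟩
          ⟨q, hq, (huv (hsub hq)).resolve_left hqu⟩
        exact hdis p (hsub hp) hp1 hp2
    · have hfc : Continuous fold := by unfold fold; fun_prop
      rcases huv (hfoldW z hz hzi) with h | h
      · obtain ⟨r, hr, hr'⟩ := Metric.isOpen_iff.mp (hW.inter (hu.preimage hfc)) z ⟨hz, h⟩
        exact Or.inl ⟨hz, r, hr, fun y hy hyi => ⟨hfoldW y (hr' hy).1 hyi, (hr' hy).2⟩⟩
      · obtain ⟨r, hr, hr'⟩ := Metric.isOpen_iff.mp (hW.inter (hv.preimage hfc)) z ⟨hz, h⟩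
        exact Or.inr ⟨hz, r, hr, fun y hy hyi => ⟨hfoldW y (hr' hy).1 hyi, (hr' hy).2⟩⟩
  have mem : ∀ s : Set ℂ, IsOpen s → ∀ z ∈ W ∩ upHP, z ∈ s →
      z ∈ {z ∈ W | ∃ r > 0, ∀ y ∈ ball z r, y.im ≠ 0 → fold y ∈ (W ∩ upHP) ∩ s} := by
    intro s hso z hz hzs
    obtain ⟨r, hr, hr'⟩ := Metric.isOpen_iff.mp ((hW.inter isOpen_upHP).inter hso) z ⟨hz, hzs⟩
    refine ⟨hz.1, r, hr, fun y hy _ => ?_⟩
    have hyp : 0 < y.im := (hr' hy).1.2
    have : fold y = y := Complex.ext (by simp [fold]) (by simp [fold, abs_of_pos hyp])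
    rw [this]; exact hr' hy
  obtain ⟨z, hz, ⟨-, r, hr, h1⟩, ⟨-, r', hr', h2⟩⟩ := hWc U' V' (opn u) (opn v) cover
    ⟨a, haW.1, mem u hu a haW hau⟩ ⟨b, hbW.1, mem v hv b hbW hbv⟩
  obtain ⟨y, hy, hyi⟩ : ∃ y ∈ ball z (min r r'), y.im ≠ 0 := by
    by_cases hzi : z.im = 0
    · refine ⟨z + (min r r' / 2 : ℝ) * I, ?_, ?_⟩
      · have hm : 0 < min r r' := lt_min hr hr'
        rw [mem_ball, dist_eq_norm, add_sub_cancel_left, norm_mul, Complex.norm_I, mul_one,
          Complex.norm_of_nonneg (by linarith)]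
        linarith
      · have hm : 0 < min r r' := lt_min hr hr'
        simp [hzi]; linarith
    · exact ⟨z, mem_ball_self (lt_min hr hr'), hzi⟩
  have a1 := h1 y (ball_subset_ball (min_le_left _ _) hy) hyi
  have a2 := h2 y (ball_subset_ball (min_le_right _ _) hy) hyi
  exact hdis _ a1.1 a1.2 a2.2

/-- If the complementary components of a symmetric domain all meet the extended real line, then
its upper half is mapped conformally onto the disc. -/
lemma exists_upper_map {W : Set ℂ} (hW : IsOpen W) (hWc : IsPreconnected W)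
    (hs : ∀ z ∈ W, conj z ∈ W) {z₀ : ℂ} (hz₀ : z₀ ∈ W ∩ upHP)
    (hcomp : ∀ a : ℂ, a ∉ W → (connectedComponentIn ((fun z : ℂ => (z : OnePoint ℂ)) '' W)ᶜ
      (a : OnePoint ℂ) ∩ sphRealLine).Nonempty) :
    ∃ ψ p : ℂ → ℂ, DifferentiableOn ℂ ψ (W ∩ upHP) ∧ DifferentiableOn ℂ p (ball 0 1) ∧
      MapsTo ψ (W ∩ upHP) (ball 0 1) ∧ MapsTo p (ball 0 1) (W ∩ upHP) ∧
      (∀ z ∈ W ∩ upHP, p (ψ z) = z) ∧ ∀ w ∈ ball (0:ℂ) 1, ψ (p w) = w := by
  set U := cay '' (W ∩ upHP) with hU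
  have hmem : ∀ w, w ∈ U ↔ w ∈ ball (0:ℂ) 1 ∧ cayInv w ∈ W := by
    intro w
    constructor
    · rintro ⟨z, hz, rfl⟩
      exact ⟨mem_ball_zero_iff.mpr (norm_cay_lt hz.2),
        by rw [cayInv_cay (add_I_ne (le_of_lt (show 0 < z.im from hz.2)))]; exact hz.1⟩
    · rintro ⟨h1, h2⟩
      rw [mem_ball_zero_iff] at h1
      exact ⟨cayInv w, ⟨h2, im_cayInv_pos h1⟩, cay_cayInv (one_sub_ne h1)⟩
  have hUo : IsOpen U := by
    have : U = ball (0:ℂ) 1 ∩ cayInv ⁻¹' W := Set.ext hmem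
    rw [this]
    exact differentiableOn_cayInv.continuousOn.isOpen_inter_preimage isOpen_ball hW
  have hUb : U ⊆ ball 0 1 := fun w hw => ((hmem w).mp hw).1
  have hUc : IsPreconnected U := (isPreconnected_upper hW hWc hs).image cay
    (differentiableOn_cay.continuousOn.mono inter_subset_right)
  have ray : ∀ v : ℂ, 1 ≤ ‖v‖ → ∃ S, IsPreconnected S ∧ v ∈ S ∧ S ⊆ Uᶜ ∧
      ¬ Bornology.IsBounded S := by
    intro v hv
    have hmem1 : v ∈ (fun t : ℝ => (t : ℂ) * v) '' Ici 1 := ⟨1, self_mem_Ici, by simp⟩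
    refine ⟨(fun t : ℝ => (t : ℂ) * v) '' Ici 1,
      isPreconnected_Ici.image _ (Continuous.continuousOn (by fun_prop)), hmem1, ?_, ?_⟩
    · rintro _ ⟨t, ht, rfl⟩ hmemU
      have := mem_ball_zero_iff.mp (hUb hmemU)
      rw [norm_mul, Complex.norm_of_nonneg (le_trans zero_le_one ht)] at this
      nlinarith [show (1:ℝ) ≤ t from ht]
    · rw [isBounded_iff_forall_norm_le]
      rintro ⟨C, hC⟩
      have := hC _ ⟨|C| + 1, le_add_of_nonneg_left (abs_nonneg C), rfl⟩
      rw [norm_mul, Complex.norm_of_nonneg (by positivity)] at this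
      nlinarith [le_abs_self C, abs_nonneg C]
  have hK : ∀ a ∉ U, ∃ S, IsPreconnected S ∧ a ∈ S ∧ S ⊆ Uᶜ ∧ ¬ Bornology.IsBounded S := by
    intro a ha
    rcases le_or_gt 1 ‖a‖ with h | h
    · exact ray a h
    set z := cayInv a with hz
    have hzi : 0 < z.im := im_cayInv_pos h
    have hzW : z ∉ W := fun hzW => ha ((hmem a).mpr ⟨mem_ball_zero_iff.mpr h, hzW⟩)
    obtain ⟨q, hq, hqR⟩ := hcomp z hzW
    set C := connectedComponentIn ((fun z : ℂ => (z : OnePoint ℂ)) '' W)ᶜ (z : OnePoint ℂ)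
    have hzC : (z : OnePoint ℂ) ∈ C := mem_connectedComponentIn (by simpa using hzW)
    have hCsub : foldCay '' C ⊆ Uᶜ := by
      rintro _ ⟨x, hx, rfl⟩ hxU
      have hxW := connectedComponentIn_subset _ _ hx
      obtain ⟨h1, h2⟩ := (hmem _).mp hxU
      induction x using OnePoint.rec with
      | infty =>
        rw [mem_ball_zero_iff] at h1
        change ‖(1:ℂ)‖ < 1 at h1
        simp at h1
      | coe y =>
        have hne : fold y + I ≠ 0 := add_I_ne (by rw [fold_im]; positivity)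
        simp only [foldCay] at h2
        change cayInv (cay (fold y)) ∈ W at h2
        rw [cayInv_cay hne] at h2
        apply hxW
        refine ⟨y, ?_, rfl⟩
        rcases fold_eq y with e | e <;> rw [e] at h2
        · exact h2
        · simpa using hs _ h2
    have hq1 : ‖foldCay q‖ = 1 := by
      rcases hqR with rfl | ⟨t, rfl⟩
      · exact norm_one
      · show ‖cay (fold (t : ℂ))‖ = 1
        exact norm_cay_real (by simp [fold_im])
    obtain ⟨S, hS1, hS2, hS3, hS4⟩ := ray (foldCay q) hq1.ge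
    refine ⟨foldCay '' C ∪ S, (isPreconnected_connectedComponentIn.image _
      continuous_foldCay.continuousOn).union (foldCay q) (mem_image_of_mem _ hq) hS2 hS1,
      Or.inl ⟨_, hzC, ?_⟩, union_subset hCsub hS3,
      fun hb => hS4 (hb.subset subset_union_right)⟩
    show cay (fold z) = a
    have : fold z = z := Complex.ext (by simp [fold]) (by simp [fold, abs_of_pos hzi])
    rw [this, hz, cay_cayInv (one_sub_ne h)]
  obtain ⟨ψ, p, hψd, hpd, hψm, hpm, hpψ, hψp⟩ :=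
    exists_riemann_map hUo hUc hUb (mem_image_of_mem cay hz₀) hK
  refine ⟨fun z => ψ (cay z), fun w => cayInv (p w),
    hψd.comp (differentiableOn_cay.mono inter_subset_right) (mapsTo_image _ _),
    differentiableOn_cayInv.comp hpd (fun w hw => hUb (hpm hw)),
    hψm.comp (mapsTo_image _ _), fun w hw => ?_, fun z hz => ?_, fun w hw => ?_⟩
  · obtain ⟨h1, h2⟩ := (hmem _).mp (hpm hw)
    exact ⟨h2, im_cayInv_pos (mem_ball_zero_iff.mp h1)⟩
  · show cayInv (p (ψ (cay z))) = z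
    rw [hpψ _ (mem_image_of_mem cay hz),
      cayInv_cay (add_I_ne (le_of_lt (show 0 < z.im from hz.2)))]
  · show ψ (cay (cayInv (p w))) = w
    rw [cay_cayInv (one_sub_ne (mem_ball_zero_iff.mp (hUb (hpm hw)))), hψp w hw]

/-- Properness: an inverse pair makes the modulus tend to one at outside points. -/
lemma tendsto_norm_one_of_inverse {A : Set ℂ} {ψ p : ℂ → ℂ}
    (hψ : MapsTo ψ A (ball 0 1)) (hp : ContinuousOn p (ball 0 1))
    (hpψ : ∀ z ∈ A, p (ψ z) = z) {x : ℂ}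
    (hout : ∀ y ∈ ball (0:ℂ) 1, p y ≠ x) {l : Filter ℂ} (hl : l ≤ 𝓝 x) (hlA : A ∈ l) :
    Tendsto (fun z => ‖ψ z‖) l (𝓝 1) := by
  rw [tendsto_order]
  refine ⟨fun c hc => ?_, fun c hc => ?_⟩
  · have hK : IsClosed (p '' closedBall 0 c) :=
      ((isCompact_closedBall 0 c).image_of_continuousOn
        (hp.mono (closedBall_subset_ball hc))).isClosed
    have hx : x ∉ p '' closedBall 0 c := by
      rintro ⟨y, hy, e⟩; exact hout y (closedBall_subset_ball hc hy) e
    filter_upwards [hlA, hl (hK.isOpen_compl.mem_nhds hx)] with z hzA hz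
    by_contra hh
    rw [not_lt] at hh
    exact hz ⟨ψ z, mem_closedBall_zero_iff.mpr hh, hpψ z hzA⟩
  · filter_upwards [hlA] with z hz using (mem_ball_zero_iff.mp (hψ hz)).trans hc

/-- The normalised map: the arc of the unit circle in the closed upper half plane consists of
boundary values at real points. -/
theorem exists_normalized_map {W : Set ℂ} (hW : IsOpen W) (hWc : IsPreconnected W)
    (hs : ∀ z ∈ W, conj z ∈ W) {x₀ : ℂ} (hx₀ : x₀ ∈ W) (hx₀i : x₀.im = 0)
    (hcomp : ∀ a : ℂ, a ∉ W → (connectedComponentIn ((fun z : ℂ => (z : OnePoint ℂ)) '' W)ᶜ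
      (a : OnePoint ℂ) ∩ sphRealLine).Nonempty) :
    ∃ ψ p : ℂ → ℂ, ReflData W ψ ∧ DifferentiableOn ℂ p (ball 0 1) ∧
      MapsTo p (ball 0 1) (W ∩ upHP) ∧
      (∀ z ∈ W ∩ upHP, p (ψ z) = z) ∧ (∀ w ∈ ball (0:ℂ) 1, ψ (p w) = w) ∧
      ∀ v : ℂ, ‖v‖ = 1 → 0 ≤ v.im → ∃ x ∈ W, x.im = 0 ∧ reflExt ψ x = (v : OnePoint ℂ) := by
  obtain ⟨δ, hδ, hδW⟩ := Metric.isOpen_iff.mp hW x₀ hx₀
  have hz₀ : x₀ + (δ / 2 : ℝ) * I ∈ W ∩ upHP := by
    refine ⟨hδW ?_, by simp [upHP, hx₀i, hδ]⟩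
    rw [mem_ball, dist_eq_norm, add_sub_cancel_left, norm_mul, Complex.norm_I, mul_one,
      Complex.norm_of_nonneg (by positivity)]
    linarith
  obtain ⟨ψ, p, hψd, hpd, hψm, hpm, hpψ, hψp⟩ := exists_upper_map hW hWc hs hz₀ hcomp
  have bdyOf : ∀ (φ q : ℂ → ℂ), MapsTo φ (W ∩ upHP) (ball 0 1) → ContinuousOn q (ball 0 1) →
      MapsTo q (ball 0 1) (W ∩ upHP) → (∀ z ∈ W ∩ upHP, q (φ z) = z) →
      ∀ x ∈ W, x.im = 0 → Tendsto (fun z => ‖φ z‖) (𝓝[upHP] x) (𝓝 1) := by
    intro φ q hφ hq hqm hqφ x hx hxi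
    refine tendsto_norm_one_of_inverse hφ hq hqφ (fun y hy e => ?_) nhdsWithin_le_nhds
      (inter_mem (mem_nhdsWithin_of_mem_nhds (hW.mem_nhds hx)) self_mem_nhdsWithin)
    have : 0 < (q y).im := (hqm hy).2
    rw [e, hxi] at this
    exact lt_irrefl _ this
  have hinj : InjOn ψ (W ∩ upHP) := fun a ha b hb e => by rw [← hpψ a ha, e, hpψ b hb]
  have R₁ : ReflData W ψ :=
    ⟨hW, hs, hψd, hψm, hinj, bdyOf ψ p hψm hpd.continuousOn hpm hpψ⟩
  obtain ⟨a, han, -, -, hae⟩ := R₁.real_spec hx₀ hx₀i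
  obtain ⟨ε, hε, hεN⟩ := Metric.mem_nhds_iff.mp
    (R₁.image_mem_nhds hx₀ hx₀i (Filter.univ_mem (f := 𝓝 x₀)) hae)
  obtain ⟨c, hc0, hc1, hcε⟩ : ∃ c : ℝ, 0 < c ∧ c < 1 ∧ 2 * (1 - c) < ε :=
    ⟨max (1/2) (1 - ε/4), lt_max_of_lt_left (by norm_num), max_lt (by norm_num) (by linarith),
      by have := le_max_right (1/2 : ℝ) (1 - ε/4); linarith⟩
  -- the rotation and the hyperbolic translation
  set ρ := I * conj a with hρ
  set σ := -I * a with hσ
  have hρσ : ρ * σ = 1 := by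
    have : conj a * a = 1 := by rw [Complex.conj_mul', han]; simp
    rw [hρ, hσ]; linear_combination this - conj a * a * Complex.I_sq
  have hρn : ‖ρ‖ = 1 := by simp [hρ, han]
  have hσn : ‖σ‖ = 1 := by simp [hσ, han]
  set k := (c : ℂ) * I with hk
  have hkn : ‖k‖ < 1 := by simp [hk, abs_of_pos hc0, hc1]
  have hkn' : ‖-k‖ < 1 := by rwa [norm_neg]
  set T := fun w => mob k (ρ * w) with hT
  set T' := fun w => σ * mob (-k) w with hT'
  have hTm : MapsTo T (ball 0 1) (ball 0 1) := fun w hw => mob_mapsTo hkn (by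
    rw [mem_ball_zero_iff] at hw ⊢; rw [norm_mul, hρn, one_mul]; exact hw)
  have hT'm : MapsTo T' (ball 0 1) (ball 0 1) := fun w hw => by
    have := mem_ball_zero_iff.mp (mob_mapsTo hkn' hw)
    rw [hT', mem_ball_zero_iff, norm_mul, hσn, one_mul]; exact this
  have hTT' : ∀ w, ‖w‖ ≤ 1 → T (T' w) = w := fun w hw => by
    simp only [hT, hT']
    rw [← mul_assoc, hρσ, one_mul, mob_mob_neg hkn hw]
  have hT'T : ∀ w, ‖w‖ ≤ 1 → T' (T w) = w := fun w hw => by
    simp only [hT, hT']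
    rw [mob_neg_mob hkn (by rw [norm_mul, hρn, one_mul]; exact hw), ← mul_assoc, mul_comm σ,
      hρσ, one_mul]
  have hTd : DifferentiableOn ℂ T (closedBall 0 1) :=
    (differentiableOn_mob hkn).comp (differentiableOn_id.const_mul ρ) fun w hw => by
      rw [mem_closedBall_zero_iff] at hw ⊢; simpa [hρn] using hw
  have hT'd : DifferentiableOn ℂ T' (ball 0 1) :=
    ((differentiableOn_mob hkn').mono ball_subset_closedBall).const_mul σ
  refine ⟨fun z => T (ψ z), fun w => p (T' w),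
    ⟨hW, hs, (hTd.mono ball_subset_closedBall).comp hψd hψm, hTm.comp hψm,
      fun x hx y hy e => hinj hx hy ?_,
      bdyOf _ (fun w => p (T' w)) (hTm.comp hψm) (hpd.continuousOn.comp hT'd.continuousOn hT'm)
        (hpm.comp hT'm) (fun z hz => ?_)⟩,
    hpd.comp hT'd hT'm, hpm.comp hT'm, fun z hz => ?_, fun w hw => ?_, ?_⟩
  · have h := congrArg T' (show T (ψ x) = T (ψ y) from e)
    rwa [hT'T _ (mem_ball_zero_iff.mp (hψm hx)).le,
      hT'T _ (mem_ball_zero_iff.mp (hψm hy)).le] at h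
  · show p (T' (T (ψ z))) = z
    rw [hT'T _ (mem_ball_zero_iff.mp (hψm hz)).le, hpψ z hz]
  · show p (T' (T (ψ z))) = z
    rw [hT'T _ (mem_ball_zero_iff.mp (hψm hz)).le, hpψ z hz]
  · show T (ψ (p (T' w))) = w
    rw [hψp _ (hT'm hw), hTT' w (mem_ball_zero_iff.mp hw).le]
  intro v hv hvi
  have hd : dist (T' v) a < ε := by
    have hkI : mob (-k) I = I := by
      have hne := mob_den_ne hkn' (z := I) (by simp)
      rw [mob, div_eq_iff hne]
      simp [hk]
      linear_combination (c:ℂ) * I * Complex.I_sq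
    have e : T' v - a = σ * (mob (-k) v - I) := by
      rw [hT', hσ]; linear_combination -a * Complex.I_sq
    have hden := mob_den_ne hkn' hv.le
    have e2 : mob (-k) v - I = (1 - (c:ℂ)) * (v - I) / (1 - conj (-k) * v) := by
      rw [mob, div_sub' hden]
      congr 1
      simp only [hk, map_neg, map_mul, Complex.conj_ofReal, Complex.conj_I]
      linear_combination (c:ℂ) * v * Complex.I_sq
    have hge : 1 ≤ ‖1 - conj (-k) * v‖ := by
      refine le_trans ?_ (Complex.re_le_norm _)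
      simp [hk, Complex.mul_re]
      nlinarith
    have hvI : ‖v - I‖ ≤ 2 := (norm_sub_le _ _).trans (by simp [hv]; norm_num)
    rw [dist_eq_norm, e, norm_mul, hσn, one_mul, e2, norm_div, norm_mul,
      show (1 - (c:ℂ)) = ((1 - c : ℝ) : ℂ) by push_cast; ring,
      Complex.norm_of_nonneg (by linarith : (0:ℝ) ≤ 1 - c)]
    calc (1 - c) * ‖v - I‖ / ‖1 - conj (-k) * v‖ ≤ (1 - c) * ‖v - I‖ / 1 := by gcongr
      _ ≤ (1 - c) * 2 := by rw [div_one]; gcongr
      _ < ε := by linarith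
  obtain ⟨x, hx, hxe⟩ := hεN (mem_ball.mpr hd)
  have hn : ‖T' v‖ = 1 := by
    rw [hT', norm_mul, hσn, one_mul, norm_mob_eq_one hkn' hv]
  have hxi : x.im = 0 := by
    rcases R₁.cases hx.2 hxe with ⟨-, h⟩ | ⟨h, -⟩ | ⟨-, h⟩
    · rw [hn] at h; exact absurd h (lt_irrefl _)
    · exact h
    · rw [hn] at h; exact absurd h (lt_irrefl _)
  refine ⟨x, hx.2, hxi, ?_⟩
  obtain ⟨L, hLn, hlim, -, hLe⟩ := R₁.real_spec hx.2 hxi
  have hLv : L = T' v := OnePoint.coe_eq_coe.mp (hLe.symm.trans hxe)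
  have hev : ∀ᶠ z in 𝓝[upHP] x, z ∈ W ∩ upHP :=
    inter_mem (mem_nhdsWithin_of_mem_nhds (hW.mem_nhds hx.2)) self_mem_nhdsWithin
  have hlim' : Tendsto (fun z => T (ψ z)) (𝓝[upHP] x) (𝓝 (T L)) :=
    (hTd.continuousOn L (mem_closedBall_zero_iff.mpr hLn.le)).tendsto.comp
      (tendsto_nhdsWithin_iff.mpr ⟨hlim, hev.mono fun z hz => ball_subset_closedBall (hψm hz)⟩)
  rw [hLv, hTT' v hv.le] at hlim'
  rw [reflExt, if_pos hxi.ge, extendFrom_eq (by rw [closure_upHP]; exact hxi.ge) hlim']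

end Vale.Agent.P116
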