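import Mathlib
import Vale.Agent.P116.Normalize
import Vale.Agent.P116.HalfDisc

/-!
# The developing map of the doubled domain and its geodesic boundary
-/

open Set Filter Metric Complex
open scoped Topology ComplexConjugate OnePoint

namespace Vale.Agent.P116

/-- The real gap set seen in the half disc. -/
def gam (W : Set ℂ) (ψ : ℂ → ℂ) : Set ℝ :=
  {t | |t| < 1 ∧ ∃ x ∈ W, x.im = 0 ∧ reflExt ψ x = ((halfNu t : ℂ) : OnePoint ℂ)}

/-- The doubled half disc. -/
def doubleSet (Γ : Set ℝ) : Set ℂ :=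
  ball (0 : ℂ) 1 ∩ {z : ℂ | z.im = 0 → z.re ∉ closure Γ}

/-- The real points of the doubled half disc. -/
def jSet (Γ : Set ℝ) : Set ℝ := {t | |t| < 1 ∧ t ∉ closure Γ}

/-- The quadratic form defining a geodesic of centre `c`. -/
def qform (c z : ℂ) : ℝ := 1 + Complex.normSq z - 2 * (z * conj c).re

lemma isOpen_doubleSet (Γ : Set ℝ) : IsOpen (doubleSet Γ) := by
  have : {z : ℂ | z.im = 0 → z.re ∉ closure Γ} =
      {z : ℂ | z.im ≠ 0} ∪ Complex.re ⁻¹' (closure Γ)ᶜ := by
    ext z; simp only [mem_ofPred_eq, mem_union, mem_preimage, mem_compl_iff]; tauto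
  rw [doubleSet, this]
  exact isOpen_ball.inter ((isOpen_ne_fun Complex.continuous_im continuous_const).union
    (isClosed_closure.isOpen_compl.preimage Complex.continuous_re))

lemma doubleSet_conj {Γ : Set ℝ} {z : ℂ} (hz : z ∈ doubleSet Γ) : conj z ∈ doubleSet Γ :=
  ⟨by simpa using hz.1, fun h => by simpa using hz.2 (by simpa using h)⟩

lemma halfOp_subset_double (Γ : Set ℝ) : halfOp ⊆ doubleSet Γ := fun z hz =>
  ⟨hz.1, fun h => absurd h (show 0 < z.im from hz.2).ne'⟩

lemma coe_mem_double {Γ : Set ℝ} {t : ℝ} : (t : ℂ) ∈ doubleSet Γ ↔ t ∈ jSet Γ := by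
  simp [doubleSet, jSet, Complex.norm_real]

lemma isOpen_halfOp : IsOpen halfOp := isOpen_ball.inter isOpen_upHP

lemma convex_halfOp : Convex ℝ halfOp := (convex_ball _ _).inter convex_upHP

lemma continuous_qform (c : ℂ) : Continuous (qform c) := by unfold qform; fun_prop

/-- A geodesic through `0` is invariant under scaling strictly inside. -/
lemma qform_smul_pos {c z : ℂ} (hz : ‖z‖ ≤ 1) (hq : 0 ≤ qform c z) {r : ℝ} (h0 : 0 ≤ r)
    (h1 : r < 1) : 0 < qform c ((r : ℂ) * z) := by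
  unfold qform at hq ⊢
  rw [map_mul, Complex.normSq_ofReal, mul_assoc (r : ℂ), Complex.re_ofReal_mul]
  have hm : Complex.normSq z ≤ 1 := by
    rw [Complex.normSq_eq_norm_sq]; nlinarith [norm_nonneg z]
  have hn := Complex.normSq_nonneg z
  nlinarith [mul_pos (sub_pos.mpr h1) (show (0:ℝ) < 1 - r * Complex.normSq z by nlinarith),
    mul_le_mul_of_nonneg_left (show 2 * (z * conj c).re ≤ 1 + Complex.normSq z by linarith) h0]

/-- The standing data: the normalised map `ψ`, its inverse, the half-disc map, the covering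
`P` and its branch `h`. -/
structure Setup (W : Set ℂ) (ψ pψ μ P h : ℂ → ℂ) : Prop where
  refl : ReflData W ψ
  pψ_diff : DifferentiableOn ℂ pψ (ball 0 1)
  pψ_maps : MapsTo pψ (ball 0 1) (W ∩ upHP)
  pψ_left : ∀ z ∈ W ∩ upHP, pψ (ψ z) = z
  pψ_right : ∀ w ∈ ball (0:ℂ) 1, ψ (pψ w) = w
  arc : ∀ v : ℂ, ‖v‖ = 1 → 0 ≤ v.im → ∃ x ∈ W, x.im = 0 ∧ reflExt ψ x = (v : OnePoint ℂ)
  μ_cont : ContinuousOn μ (closedBall 0 1)
  μ_diff : DifferentiableOn ℂ μ (ball 0 1)
  μ_mapsCl : MapsTo μ (closedBall 0 1) halfCl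
  μ_maps : MapsTo μ (ball 0 1) halfOp
  μ_right : ∀ w ∈ closedBall (0:ℂ) 1, halfNu (μ w) = w
  μ_left : ∀ z ∈ halfCl, μ (halfNu z) = z
  stage : IsStage (doubleSet (gam W ψ)) (I / 2) (ball 0 1) P
  h_diff : DifferentiableOn ℂ h halfOp
  h_maps : MapsTo h halfOp (ball 0 1)
  h_right : ∀ w ∈ halfOp, P (h w) = w
  h_zero : h (I / 2) = 0

lemma I_half_mem : I / 2 ∈ halfOp := by
  constructor
  · simp; norm_num
  · simp

theorem exists_setup {W : Set ℂ} (hW : IsOpen W) (hWc : IsPreconnected W)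
    (hs : ∀ z ∈ W, conj z ∈ W) {x₀ : ℂ} (hx₀ : x₀ ∈ W) (hx₀i : x₀.im = 0)
    (hcomp : ∀ a : ℂ, a ∉ W → (connectedComponentIn ((fun z : ℂ => (z : OnePoint ℂ)) '' W)ᶜ
      (a : OnePoint ℂ) ∩ sphRealLine).Nonempty) :
    ∃ ψ pψ μ P h : ℂ → ℂ, Setup W ψ pψ μ P h := by
  obtain ⟨ψ, pψ, hR, h1, h2, h3, h4, h5⟩ := exists_normalized_map hW hWc hs hx₀ hx₀i hcomp
  obtain ⟨μ, m1, m2, m3, m4, m5, m6⟩ := exists_halfDisc_map
  obtain ⟨P, hP⟩ := exists_cover (isOpen_doubleSet (gam W ψ)) inter_subset_left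
    (halfOp_subset_double _ I_half_mem)
  obtain ⟨h, hd, hm, hr, h0⟩ := hP.lift halfOp id (sqrtSet_convex isOpen_halfOp convex_halfOp)
    differentiableOn_id (halfOp_subset_double _) 0 (mem_ball_self one_pos) (I / 2) I_half_mem
    hP.map_zero.symm
  exact ⟨ψ, pψ, μ, P, h, hR, h1, h2, h3, h4, h5, m1, m2, m3, m4, m5, m6, hP, hd, hm, hr, h0⟩

/-- The map of the upper half of the domain into the disc. -/
def devMap (ψ μ h : ℂ → ℂ) (z : ℂ) : ℂ := h (μ (ψ z))

/-- The image of the upper half. -/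
def imgA (h : ℂ → ℂ) : Set ℂ := h '' halfOp

/-- The point over a real point of the doubled half disc. -/
noncomputable def yPt (h : ℂ → ℂ) (t : ℝ) : ℂ := extendFrom upHP h (t : ℂ)

variable {W : Set ℂ} {ψ pψ μ P h : ℂ → ℂ} (S : Setup W ψ pψ μ P h)
include S

lemma Setup.loc_inj : ∀ y ∈ ball (0:ℂ) 1, ∃ N ∈ 𝓝 y, InjOn P N :=
  S.stage.loc_inj (isOpen_doubleSet _)

lemma Setup.tendsto_norm_h {l : ℂ} (hl : l ∉ doubleSet (gam W ψ)) {F : Filter ℂ}
    (hF : F ≤ 𝓝 l) (hFA : halfOp ∈ F) : Tendsto (fun z => ‖h z‖) F (𝓝 1) :=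
  tendsto_norm_one_of_inverse S.h_maps S.stage.diff.continuousOn S.h_right
    (fun _ hy e => hl (by rw [← e]; exact S.stage.maps hy)) hF hFA

lemma Setup.reflData : ReflData W (devMap ψ μ h) := by
  have hR := S.refl
  refine ⟨hR.isOpen, hR.symm, ?_, ?_, ?_, ?_⟩
  · exact (S.h_diff.comp S.μ_diff S.μ_maps).comp hR.diff hR.maps
  · exact (S.h_maps.comp S.μ_maps).comp hR.maps
  · intro a ha b hb e
    have h1 := congrArg P e
    simp only [devMap] at h1
    rw [S.h_right _ (S.μ_maps (hR.maps ha)), S.h_right _ (S.μ_maps (hR.maps hb))] at h1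
    have h2 := congrArg halfNu h1
    rw [S.μ_right _ (ball_subset_closedBall (hR.maps ha)),
      S.μ_right _ (ball_subset_closedBall (hR.maps hb))] at h2
    exact hR.inj ha hb h2
  · intro x hx hxi
    obtain ⟨L, hL, hlim, -, hLe⟩ := hR.real_spec hx hxi
    have hLcl : L ∈ closedBall (0:ℂ) 1 := mem_closedBall_zero_iff.mpr hL.le
    have hev : ∀ᶠ z in 𝓝[upHP] x, z ∈ W ∩ upHP :=
      inter_mem (mem_nhdsWithin_of_mem_nhds (hR.isOpen.mem_nhds hx)) self_mem_nhdsWithin
    have hlimμ : Tendsto (fun z => μ (ψ z)) (𝓝[upHP] x) (𝓝[halfOp] (μ L)) :=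
      tendsto_nhdsWithin_iff.mpr ⟨(S.μ_cont L hLcl).tendsto.comp
        (tendsto_nhdsWithin_iff.mpr ⟨hlim, hev.mono fun z hz => ball_subset_closedBall (hR.maps hz)⟩),
        hev.mono fun z hz => S.μ_maps (hR.maps hz)⟩
    have hl : μ L ∉ doubleSet (gam W ψ) := by
      rintro ⟨hb, hG⟩
      have hno : μ L ∉ halfOp := fun hm => by
        have := (norm_halfNu_lt_iff (S.μ_mapsCl hLcl)).mpr hm
        rw [S.μ_right L hLcl, hL] at this
        exact lt_irrefl _ this
      have hi : (μ L).im = 0 :=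
        le_antisymm (not_lt.mp fun h => hno ⟨hb, h⟩) (S.μ_mapsCl hLcl).2
      have hcoe : (((μ L).re : ℝ) : ℂ) = μ L := Complex.ext (by simp) (by simp [hi])
      refine hG hi (subset_closure ⟨?_, x, hx, hxi, ?_⟩)
      · exact (Complex.abs_re_le_norm _).trans_lt (mem_ball_zero_iff.mp hb)
      · rw [hcoe, S.μ_right L hLcl]; exact hLe
    exact (S.tendsto_norm_h hl nhdsWithin_le_nhds self_mem_nhdsWithin).comp hlimμ

lemma Setup.section_at {t : ℝ} (ht : t ∈ jSet (gam W ψ)) :
    ∃ r > 0, ∃ s : ℂ → ℂ, ball (t : ℂ) r ⊆ doubleSet (gam W ψ) ∧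
      DifferentiableOn ℂ s (ball (t : ℂ) r) ∧ MapsTo s (ball (t : ℂ) r) (ball 0 1) ∧
      (∀ z ∈ ball (t : ℂ) r, P (s z) = z) ∧ EqOn h s (ball (t : ℂ) r ∩ upHP) ∧
      yPt h t = s t := by
  obtain ⟨r, hr, hrU⟩ := Metric.isOpen_iff.mp (isOpen_doubleSet _) _ (coe_mem_double.mpr ht)
  have hsub : ball (t : ℂ) r ∩ upHP ⊆ halfOp := fun z hz => ⟨(hrU hz.1).1, hz.2⟩
  set z₁ := (t : ℂ) + (r / 2 : ℝ) * I with hz1d
  have hz1 : z₁ ∈ ball (t : ℂ) r ∩ upHP := by
    refine ⟨?_, by simp [hz1d, upHP, hr]⟩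
    rw [mem_ball, dist_eq_norm, hz1d, add_sub_cancel_left, norm_mul, Complex.norm_I, mul_one,
      Complex.norm_of_nonneg (by positivity)]
    linarith
  obtain ⟨s, hsd, hsm, hps, hsx⟩ := S.stage.lift (ball (t : ℂ) r) id
    (sqrtSet_convex isOpen_ball (convex_ball _ _)) differentiableOn_id hrU (h z₁)
    (S.h_maps (hsub hz1)) z₁ hz1.1 (S.h_right _ (hsub hz1)).symm
  have heq : EqOn h s (ball (t : ℂ) r ∩ upHP) :=
    eqOn_of_lift S.loc_inj ((convex_ball _ _).inter convex_upHP).isPreconnected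
      (S.h_diff.continuousOn.mono hsub) (hsd.continuousOn.mono inter_subset_left)
      (fun z hz => S.h_maps (hsub hz))
      (fun z hz => (S.h_right z (hsub hz)).trans (hps z hz.1).symm) hz1 hsx.symm
  refine ⟨r, hr, s, hrU, hsd, hsm, hps, heq, ?_⟩
  refine extendFrom_eq (by rw [closure_upHP]; simp) ?_
  refine ((hsd.continuousOn.continuousAt (ball_mem_nhds _ hr)).mono_left
    nhdsWithin_le_nhds).congr' ?_
  filter_upwards [inter_mem (mem_nhdsWithin_of_mem_nhds (ball_mem_nhds (t : ℂ) hr))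
    self_mem_nhdsWithin] with z hz using (heq hz).symm

lemma Setup.yPt_mem {t : ℝ} (ht : t ∈ jSet (gam W ψ)) : yPt h t ∈ ball (0:ℂ) 1 := by
  obtain ⟨r, hr, s, -, -, hsm, -, -, he⟩ := S.section_at ht
  exact he ▸ hsm (mem_ball_self hr)

lemma Setup.P_yPt {t : ℝ} (ht : t ∈ jSet (gam W ψ)) : P (yPt h t) = t := by
  obtain ⟨r, hr, s, -, -, -, hps, -, he⟩ := S.section_at ht
  rw [he, hps _ (mem_ball_self hr)]

lemma Setup.continuousOn_yPt : ContinuousOn (yPt h) (jSet (gam W ψ)) := by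
  intro t ht
  obtain ⟨r, hr, s, hrU, hsd, -, hps, heq, he⟩ := S.section_at ht
  have h1 : ∀ᶠ u : ℝ in 𝓝 t, (u : ℂ) ∈ ball (t : ℂ) r :=
    (Complex.continuous_ofReal.tendsto t).eventually (ball_mem_nhds _ hr)
  refine ContinuousAt.continuousWithinAt ?_
  refine ((hsd.continuousOn.continuousAt (ball_mem_nhds _ hr)).comp
    Complex.continuous_ofReal.continuousAt).congr ?_
  filter_upwards [h1] with u hu
  symm
  refine extendFrom_eq (by rw [closure_upHP]; simp) ?_
  refine ((hsd.continuousOn.continuousAt (isOpen_ball.mem_nhds hu)).mono_left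
    nhdsWithin_le_nhds).congr' ?_
  filter_upwards [inter_mem (mem_nhdsWithin_of_mem_nhds (isOpen_ball.mem_nhds hu))
    self_mem_nhdsWithin] with z hz using (heq hz).symm

/-- Every point of the fibre over a real point of the doubled half disc is fixed by an
anti-holomorphic involution whose fixed point set is a geodesic avoiding `0`. -/
lemma Setup.geodesic {t : ℝ} (ht : t ∈ jSet (gam W ψ)) :
    ∃ c : ℂ, (∀ z ∈ ball (0:ℂ) 1, qform c z = 0 → (P z).im = 0) ∧
      ∀ T : Set ℝ, IsPreconnected T → t ∈ T → T ⊆ jSet (gam W ψ) →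
        ∀ u ∈ T, qform c (yPt h u) = 0 := by
  set y := yPt h t with hy
  have hyb := S.yPt_mem ht
  have hy1 : ‖y‖ < 1 := mem_ball_zero_iff.mp hyb
  have hny : ‖(-y : ℂ)‖ < 1 := by simpa using hy1
  set m := mob (-y) with hm
  have hmd : DifferentiableOn ℂ m (ball 0 1) :=
    (differentiableOn_mob hny).mono ball_subset_closedBall
  have hmm : MapsTo m (ball 0 1) (ball 0 1) := mob_mapsTo hny
  have hm0 : m 0 = y := by simp [hm]
  have hconj : MapsTo (fun w : ℂ => conj w) (ball 0 1) (ball 0 1) := fun w hw => by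
    simpa using hw
  set g := fun w : ℂ => conj (P (m (conj w))) with hg
  have hgd : DifferentiableOn ℂ g (ball 0 1) := by
    intro w hw
    have h1 : DifferentiableAt ℂ (P ∘ m) (conj w) :=
      (S.stage.diff.comp hmd hmm).differentiableAt (isOpen_ball.mem_nhds (hconj hw))
    exact (differentiableAt_conj_conj_iff.mpr h1).differentiableWithinAt
  have hg0 : g 0 = P y := by
    rw [hg]; simp only [map_zero, hm0, hy, S.P_yPt ht, Complex.conj_ofReal]
  obtain ⟨L, hLd, hLm, hPL, hL0⟩ := S.stage.lift (ball 0 1) g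
    (sqrtSet_convex isOpen_ball (convex_ball _ _)) hgd
    (fun w hw => doubleSet_conj (S.stage.maps (hmm (hconj hw)))) y hyb 0 (mem_ball_self one_pos) hg0
  set M := fun w => mob y (L w) with hM
  have hMd : DifferentiableOn ℂ M (ball 0 1) := differentiableOn_mob_comp hy1 hLd hLm
  have hMm : MapsTo M (ball 0 1) (ball 0 1) := (mob_mapsTo hy1).comp hLm
  have hM0 : M 0 = 0 := by simp [hM, hL0]
  have hmM : ∀ w ∈ ball (0:ℂ) 1, m (M w) = L w := fun w hw =>
    mob_neg_mob hy1 (mem_ball_zero_iff.mp (hLm hw)).le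
  -- the involution
  have hinv : EqOn (fun w => m (M (conj (M (conj w))))) m (ball 0 1) := by
    have hc := Complex.continuous_conj.continuousOn (s := ball (0:ℂ) 1)
    have hin : MapsTo (fun w => conj (M (conj w))) (ball 0 1) (ball 0 1) :=
      hconj.comp (hMm.comp hconj)
    refine eqOn_of_lift S.loc_inj (convex_ball (0:ℂ) 1).isPreconnected
      (hmd.continuousOn.comp ((hMd.continuousOn.comp
        (hc.comp (hMd.continuousOn.comp hc hconj) (hMm.comp hconj)) hin)) (hMm.comp hin))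
      hmd.continuousOn (hmm.comp (hMm.comp hin)) ?_ (mem_ball_self one_pos)
      (by simp [hM0])
    intro w hw
    show P (m (M (conj (M (conj w))))) = P (m w)
    rw [hmM _ (hin hw), hPL _ (hin hw)]
    simp only [hg]
    rw [Complex.conj_conj, hmM _ (hconj hw), hPL _ (hconj hw)]
    simp [hg]
  have hminj : InjOn m (ball 0 1) := fun a ha b hb e => by
    rw [← mob_mob_neg hy1 (mem_ball_zero_iff.mp ha).le, ← hm, e, hm,
      mob_mob_neg hy1 (mem_ball_zero_iff.mp hb).le]
  have hnorm : ∀ w ∈ ball (0:ℂ) 1, ‖M w‖ = ‖w‖ := by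
    intro w hw
    have h1 : ∀ v ∈ ball (0:ℂ) 1, ‖M v‖ ≤ ‖v‖ := fun v hv =>
      Complex.norm_le_norm_of_mapsTo_ball hMd (hMm.mono_right ball_subset_closedBall) hM0
        (mem_ball_zero_iff.mp hv)
    refine le_antisymm (h1 w hw) ?_
    have hin : conj (M w) ∈ ball (0:ℂ) 1 := hconj (hMm hw)
    have he : M (conj (M w)) = conj w := by
      have := hinv (hconj hw)
      simp only [Complex.conj_conj] at this
      exact hminj (hMm hin) (hconj hw) this
    have := h1 _ hin
    rw [he] at this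
    simpa using this
  obtain ⟨κ, hκ, hκM⟩ : ∃ κ : ℂ, ‖κ‖ = 1 ∧ ∀ w ∈ ball (0:ℂ) 1, M w = κ * w := by
    have hmaps : MapsTo M (ball 0 1) (closedBall (M 0) 1) := by
      rw [hM0]; exact hMm.mono_right ball_subset_closedBall
    have hh : ((1:ℂ) / 2) ∈ ball (0:ℂ) 1 := by simp; norm_num
    have hds : ‖dslope M 0 ((1:ℂ)/2)‖ = 1 / 1 := by
      rw [dslope_of_ne _ (by norm_num), slope_def_field, hM0, sub_zero, sub_zero, norm_div,
        hnorm _ hh, div_self (norm_ne_zero_iff.mpr (by norm_num)), one_div_one]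
    have := Complex.affine_of_mapsTo_ball_of_norm_dslope_eq_div hMd hmaps hh hds
    refine ⟨dslope M 0 ((1:ℂ)/2), by simpa using hds, fun w hw => ?_⟩
    have := this hw
    simpa [hM0, mul_comm] using this
  -- the fixed point set
  obtain ⟨d, hd⟩ := IsAlgClosed.exists_pow_nat_eq (κ⁻¹) (n := 2) (by norm_num)
  have hκ0 : κ ≠ 0 := fun h => by simp [h] at hκ
  have hd2 : d ^ 2 * κ = 1 := by rw [hd, inv_mul_cancel₀ hκ0]
  have hdn : ‖d‖ = 1 := by
    have := congrArg norm hd
    rw [norm_pow, norm_inv, hκ, inv_one] at this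
    nlinarith [norm_nonneg d]
  have hd0 : d ≠ 0 := fun h => by simp [h] at hdn
  have hdd : conj d * d = 1 := by rw [Complex.conj_mul', hdn]; simp
  have hfix : ∀ u : ℂ, κ * conj u = u ↔ (d * u).im = 0 := by
    intro u
    rw [← Complex.conj_eq_iff_im, map_mul]
    constructor
    · intro hu
      calc conj d * conj u = d * (d * conj d) * (κ * conj u) * 1 := by
            linear_combination (-(conj d * conj u)) * hd2
        _ = d * u := by rw [hu, mul_comm d (conj d), hdd]; ring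
    · intro hu
      have : d * (κ * conj u) = d * u := by
        calc d * (κ * conj u) = d * κ * (conj d * d) * conj u := by rw [hdd]; ring
          _ = d ^ 2 * κ * (conj d * conj u) := by ring
          _ = d * u := by rw [hd2, hu]; ring
      exact mul_left_cancel₀ hd0 this
  have hfixreal : ∀ z ∈ ball (0:ℂ) 1, (d * mob y z).im = 0 → (P z).im = 0 := by
    intro z hz hzd
    have hu := mob_mapsTo hy1 hz
    have hκu := (hfix _).mpr hzd
    have h1 : M (conj (mob y z)) = mob y z := (hκM _ (hconj hu)).trans hκu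
    have h2 : m (mob y z) = z := mob_neg_mob hy1 (mem_ball_zero_iff.mp hz).le
    have h3 := hPL _ (hconj hu)
    rw [← hmM _ (hconj hu), h1, h2] at h3
    simp only [hg, Complex.conj_conj, h2] at h3
    exact Complex.conj_eq_iff_im.mp h3.symm
  have h0ne : (d * y).im ≠ 0 := by
    intro h0
    have := hfixreal 0 (mem_ball_self one_pos) (by simp [h0])
    rw [S.stage.map_zero] at this
    simp at this
  set k := d - conj (d * y ^ 2) with hk
  refine ⟨conj (-I * k / ((2 * (d * y).im : ℝ) : ℂ)), ?_⟩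
  have hq : ∀ z, ‖z‖ < 1 →
      (qform (conj (-I * k / ((2 * (d * y).im : ℝ) : ℂ))) z = 0 ↔ (d * mob y z).im = 0) := by
    intro z hz
    have hne := mob_den_ne hy1 hz.le
    have e1 : d * mob y z = d * (z - y) * conj (1 - conj y * z) /
        ((Complex.normSq (1 - conj y * z) : ℝ) : ℂ) := by
      rw [mob, mul_div_assoc', ← Complex.mul_conj,
        mul_div_mul_right _ _ ((map_ne_zero _).mpr hne)]
    rw [e1, Complex.div_ofReal_im, div_eq_zero_iff]
    simp only [Complex.normSq_eq_zero, hne, or_false]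
    have e2 : (d * (z - y) * conj (1 - conj y * z)).im =
        -(d * y).im * qform (conj (-I * k / ((2 * (d * y).im : ℝ) : ℂ))) z := by
      rw [qform, Complex.conj_conj, hk, mul_div_assoc', Complex.div_ofReal_re]
      field_simp
      simp [Complex.normSq_apply, pow_two]
      ring
    rw [e2, mul_eq_zero, neg_eq_zero, or_iff_right h0ne]
  refine ⟨fun z hz hz0 => hfixreal z hz ((hq z (mem_ball_zero_iff.mp hz)).mp hz0), ?_⟩
  intro T hT htT hTJ u hu
  have hcy : ContinuousOn (yPt h) T := S.continuousOn_yPt.mono hTJ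
  have hmy : MapsTo (fun v => conj (mob y (yPt h v))) T (ball 0 1) := fun v hv =>
    hconj (mob_mapsTo hy1 (S.yPt_mem (hTJ hv)))
  have heq : EqOn (fun v => m (M (conj (mob y (yPt h v))))) (yPt h) T := by
    refine eqOn_of_lift S.loc_inj hT ?_ hcy (hmm.comp (hMm.comp hmy)) ?_ htT ?_
    · refine hmd.continuousOn.comp (hMd.continuousOn.comp ?_ hmy) (hMm.comp hmy)
      exact Complex.continuous_conj.comp_continuousOn
        (((differentiableOn_mob hy1).mono ball_subset_closedBall).continuousOn.comp hcy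
          (fun v hv => S.yPt_mem (hTJ hv)))
    · intro v hv
      show P (m (M (conj (mob y (yPt h v))))) = P (yPt h v)
      rw [hmM _ (hmy hv), hPL _ (hmy hv)]
      simp only [hg, Complex.conj_conj, hm]
      rw [mob_neg_mob hy1 (mem_ball_zero_iff.mp (S.yPt_mem (hTJ hv))).le, S.P_yPt (hTJ hv),
        Complex.conj_ofReal]
    · show m (M (conj (mob y y))) = y
      simp [hM0, hm0]
  have hub := S.yPt_mem (hTJ hu)
  rw [hq _ (mem_ball_zero_iff.mp hub), ← hfix, ← hκM _ (hmy hu)]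
  have := heq hu
  simp only at this
  conv_rhs => rw [← this]
  exact (mob_mob_neg hy1 (mem_ball_zero_iff.mp (hMm (hmy hu))).le).symm

end Vale.Agent.P116
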