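import Mathlib
import Vale.Agent.P116.Geodesics

/-!
# The image of the upper half is an intersection of geodesic half planes
-/

open Set Filter Metric Complex
open scoped Topology ComplexConjugate OnePoint

namespace Vale.Agent.P116

/-- The centre of the geodesic over a real point of the doubled half disc; it only depends on
the component of the point. -/
noncomputable def geoCtr (Γ : Set ℝ) (P h : ℂ → ℂ) (t : ℝ) : ℂ :=
  Classical.epsilon fun c => (∀ z ∈ ball (0:ℂ) 1, qform c z = 0 → (P z).im = 0) ∧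
    ∀ u ∈ connectedComponentIn (jSet Γ) t, qform c (yPt h u) = 0

/-- The radial extent of the image in the direction `v`. -/
noncomputable def radExt (Γ : Set ℝ) (P h : ℂ → ℂ) (v : ℂ) : ℝ :=
  sSup {r : ℝ | r ∈ Icc (0:ℝ) 1 ∧ ∀ t ∈ jSet Γ, 0 ≤ qform (geoCtr Γ P h t) ((r : ℂ) * v)}

lemma geoCtr_congr {Γ : Set ℝ} {P h : ℂ → ℂ} {t u : ℝ}
    (hu : u ∈ connectedComponentIn (jSet Γ) t) : geoCtr Γ P h u = geoCtr Γ P h t := by
  rw [geoCtr, geoCtr, connectedComponentIn_eq hu]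

lemma qform_zero (c : ℂ) : qform c 0 = 1 := by simp [qform]

lemma one_lt_norm_of_qform {c y : ℂ} (hy : ‖y‖ < 1) (h : qform c y = 0) : 1 < ‖c‖ := by
  rw [qform, Complex.normSq_eq_norm_sq] at h
  have h1 : (y * conj c).re ≤ ‖y‖ * ‖c‖ := by
    refine (Complex.re_le_norm _).trans ?_
    rw [norm_mul, Complex.norm_conj]
  by_contra hc
  rw [not_lt] at hc
  nlinarith [mul_le_mul_of_nonneg_left hc (norm_nonneg y), mul_pos (sub_pos.mpr hy) (sub_pos.mpr hy)]

lemma qform_radial (c v : ℂ) (hv : ‖v‖ = 1) (r : ℝ) :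
    qform c ((r : ℂ) * v) = 1 + r ^ 2 - 2 * r * (v * conj c).re := by
  rw [qform, map_mul, Complex.normSq_ofReal, Complex.normSq_eq_norm_sq, hv, mul_assoc (r : ℂ),
    Complex.re_ofReal_mul]
  ring

variable {W : Set ℂ} {ψ pψ μ P h : ℂ → ℂ} (S : Setup W ψ pψ μ P h)
include S

lemma Setup.geoCtr_spec {t : ℝ} (ht : t ∈ jSet (gam W ψ)) :
    (∀ z ∈ ball (0:ℂ) 1, qform (geoCtr (gam W ψ) P h t) z = 0 → (P z).im = 0) ∧
      ∀ u ∈ connectedComponentIn (jSet (gam W ψ)) t,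
        qform (geoCtr (gam W ψ) P h t) (yPt h u) = 0 := by
  obtain ⟨c, hc1, hc2⟩ := S.geodesic ht
  exact Classical.epsilon_spec (p := fun c => (∀ z ∈ ball (0:ℂ) 1, qform c z = 0 → (P z).im = 0) ∧
      ∀ u ∈ connectedComponentIn (jSet (gam W ψ)) t, qform c (yPt h u) = 0)
    ⟨c, hc1, hc2 _ isPreconnected_connectedComponentIn (mem_connectedComponentIn ht)
      (connectedComponentIn_subset _ _)⟩

lemma Setup.qform_yPt {t : ℝ} (ht : t ∈ jSet (gam W ψ)) :
    qform (geoCtr (gam W ψ) P h t) (yPt h t) = 0 :=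
  (S.geoCtr_spec ht).2 t (mem_connectedComponentIn ht)

lemma Setup.one_lt_norm_ctr {t : ℝ} (ht : t ∈ jSet (gam W ψ)) :
    1 < ‖geoCtr (gam W ψ) P h t‖ :=
  one_lt_norm_of_qform (mem_ball_zero_iff.mp (S.yPt_mem ht)) (S.qform_yPt ht)

lemma Setup.zero_mem_imgA : (0:ℂ) ∈ imgA h := ⟨I / 2, I_half_mem, S.h_zero⟩

lemma Setup.imgA_subset : imgA h ⊆ ball 0 1 := by
  rintro _ ⟨w, hw, rfl⟩; exact S.h_maps hw

lemma Setup.P_mem {z : ℂ} (hz : z ∈ imgA h) : P z ∈ halfOp ∧ h (P z) = z := by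
  obtain ⟨w, hw, rfl⟩ := hz
  rw [S.h_right w hw]
  exact ⟨hw, rfl⟩

lemma Setup.isOpen_imgA : IsOpen (imgA h) := by
  rw [isOpen_iff_mem_nhds]
  intro z hz
  obtain ⟨hPz, hhz⟩ := S.P_mem hz
  have hzb := S.imgA_subset hz
  obtain ⟨N, hN, hinj⟩ := S.loc_inj z hzb
  have hPc : ContinuousAt P z := S.stage.diff.continuousOn.continuousAt (isOpen_ball.mem_nhds hzb)
  have hhc : ContinuousAt (fun y => h (P y)) z :=
    (S.h_diff.continuousOn.continuousAt (isOpen_halfOp.mem_nhds hPz)).comp hPc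
  filter_upwards [hN, hPc.eventually_mem (isOpen_halfOp.mem_nhds hPz),
    hhc.eventually_mem (show N ∈ 𝓝 (h (P z)) by rwa [hhz])] with y hy hyH hyN
  exact ⟨P y, hyH, hinj hyN hy (S.h_right _ hyH)⟩

lemma Setup.qform_pos_of_mem {z : ℂ} (hz : z ∈ imgA h) {t : ℝ} (ht : t ∈ jSet (gam W ψ)) :
    0 < qform (geoCtr (gam W ψ) P h t) z := by
  by_contra hneg
  rw [not_lt] at hneg
  obtain ⟨y, hy, hy0⟩ := (convex_halfOp.isPreconnected.image h
    S.h_diff.continuousOn).intermediate_value hz S.zero_mem_imgA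
    (continuous_qform (geoCtr (gam W ψ) P h t)).continuousOn
    (show (0:ℝ) ∈ Icc (qform _ z) (qform _ 0) from ⟨hneg, by rw [qform_zero]; exact zero_le_one⟩)
  have h1 := (S.geoCtr_spec ht).1 y (S.imgA_subset hy) hy0
  have h2 : 0 < (P y).im := (S.P_mem hy).1.2
  linarith

lemma Setup.qform_nonneg_of_closure {z : ℂ} (hz : z ∈ closure (imgA h)) {t : ℝ}
    (ht : t ∈ jSet (gam W ψ)) : 0 ≤ qform (geoCtr (gam W ψ) P h t) z :=
  closure_minimal (t := {y | 0 ≤ qform (geoCtr (gam W ψ) P h t) y})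
    (fun y hy => (S.qform_pos_of_mem hy ht).le)
    (isClosed_le continuous_const (continuous_qform _)) hz

lemma Setup.boundary_point {z : ℂ} (hz : z ∈ closure (imgA h)) (hz1 : z ∈ ball (0:ℂ) 1)
    (hzA : z ∉ imgA h) : ∃ t ∈ jSet (gam W ψ), z = yPt h t := by
  have hU : P z ∈ doubleSet (gam W ψ) := S.stage.maps hz1
  have hPc : ContinuousAt P z := S.stage.diff.continuousOn.continuousAt (isOpen_ball.mem_nhds hz1)
  obtain ⟨N, hN, hinj⟩ := S.loc_inj z hz1
  have hzf : ∃ᶠ y in 𝓝 z, y ∈ imgA h := mem_closure_iff_frequently.mp hz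
  have key : ∀ V : Set ℂ, IsOpen V → IsPreconnected V → Convex ℝ V → V ⊆ doubleSet (gam W ψ) →
      P z ∈ V → ∃ s : ℂ → ℂ, ContinuousOn s V ∧ s (P z) = z ∧
        ∃ y ∈ imgA h, P y ∈ V ∧ s (P y) = y ∧ MapsTo s V (ball 0 1) ∧ ∀ w ∈ V, P (s w) = w := by
    intro V hV _ hVc hVU hPV
    obtain ⟨s, hsd, hsm, hps, hsx⟩ := S.stage.lift V id (sqrtSet_convex hV hVc)
      differentiableOn_id hVU z hz1 (P z) hPV rfl
    have hc : ContinuousAt (fun y => s (P y)) z :=
      (hsd.continuousOn.continuousAt (hV.mem_nhds hPV)).comp hPc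
    obtain ⟨y, hyA, hy1, hy2, hy3⟩ := (hzf.and_eventually ((hPc.eventually_mem
      (hV.mem_nhds hPV)).and ((hc.eventually_mem (show N ∈ 𝓝 (s (P z)) by rwa [hsx])).and
      (Filter.eventually_mem_set.mpr hN)))).exists
    exact ⟨s, hsd.continuousOn, hsx, y, hyA, hy1, hinj hy2 hy3 (hps _ hy1), hsm, hps⟩
  have him : 0 ≤ (P z).im := by
    by_contra hneg
    rw [not_le] at hneg
    obtain ⟨y, hy, hy'⟩ := (hzf.and_eventually
      ((Complex.continuous_im.continuousAt.comp hPc).tendsto.eventually (gt_mem_nhds hneg))).exists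
    have : 0 < (P y).im := (S.P_mem hy).1.2
    simp only [Function.comp_apply] at hy'
    linarith
  rcases eq_or_lt_of_le him with h0 | h0
  · have ht : (P z).re ∈ jSet (gam W ψ) :=
      ⟨(Complex.abs_re_le_norm _).trans_lt (mem_ball_zero_iff.mp hU.1), hU.2 h0.symm⟩
    have hcoe : (((P z).re : ℝ) : ℂ) = P z := Complex.ext (by simp) (by simp [← h0])
    refine ⟨_, ht, ?_⟩
    obtain ⟨r, hr, s₀, hrU, hsd, hsm, hps, heq, he⟩ := S.section_at ht
    rw [hcoe] at hrU hsd hsm hps heq he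
    obtain ⟨s, hsc, hsx, y, hyA, hyV, hys, hsm', hps'⟩ :=
      key (ball (P z) r) isOpen_ball (convex_ball _ _).isPreconnected (convex_ball _ _) hrU
        (mem_ball_self hr)
    have hst : EqOn s s₀ (ball (P z) r) := eqOn_of_lift S.loc_inj (convex_ball _ _).isPreconnected
      hsc hsd.continuousOn hsm' (fun w hw => (hps' w hw).trans (hps w hw).symm) hyV
      (by rw [hys, ← heq ⟨hyV, (S.P_mem hyA).1.2⟩, (S.P_mem hyA).2])
    rw [he, ← hst (mem_ball_self hr), hsx]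
  · exfalso
    have hPV : P z ∈ halfOp := ⟨hU.1, h0⟩
    obtain ⟨s, hsc, hsx, y, hyA, hyV, hys, hsm', hps'⟩ :=
      key halfOp isOpen_halfOp convex_halfOp.isPreconnected convex_halfOp
        (halfOp_subset_double _) hPV
    have hst : EqOn s h halfOp := eqOn_of_lift S.loc_inj convex_halfOp.isPreconnected
      hsc S.h_diff.continuousOn hsm' (fun w hw => (hps' w hw).trans (S.h_right w hw).symm) hyV
      (by rw [hys, (S.P_mem hyA).2])
    exact hzA ⟨P z, hPV, by rw [← hst hPV, hsx]⟩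

lemma Setup.mem_imgA_of {z : ℂ} (hz : z ∈ ball (0:ℂ) 1)
    (hq : ∀ t ∈ jSet (gam W ψ), 0 < qform (geoCtr (gam W ψ) P h t) z) : z ∈ imgA h := by
  by_contra hzA
  set s := {r : ℝ | r ∈ Icc (0:ℝ) 1 ∧ (r : ℂ) * z ∉ imgA h} with hs
  have hsc : IsCompact s := isCompact_Icc.of_isClosed_subset
    (isClosed_Icc.inter (S.isOpen_imgA.isClosed_compl.preimage (by fun_prop))) fun r hr => hr.1
  obtain ⟨r, hr, hmin⟩ := hsc.exists_isMinOn ⟨1, ⟨zero_le_one, le_rfl⟩, by simpa using hzA⟩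
    (continuousOn_id (s := s))
  have hrz : (r : ℂ) * z ∈ ball (0:ℂ) 1 := by
    rw [mem_ball_zero_iff] at hz ⊢
    rw [norm_mul, Complex.norm_of_nonneg hr.1.1]
    nlinarith [norm_nonneg z, hr.1.2]
  have hr0 : 0 < r := lt_of_le_of_ne hr.1.1 fun e => hr.2 (by
    rw [← e]; simpa using S.zero_mem_imgA)
  have hcl : (r : ℂ) * z ∈ closure (imgA h) := by
    have hmem : r ∈ closure (Ico 0 r) := by
      rw [closure_Ico hr0.ne]; exact right_mem_Icc.mpr hr0.le
    refine map_mem_closure (f := fun r : ℝ => (r : ℂ) * z) (by fun_prop) hmem ?_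
    intro u hu
    by_contra hun
    have h2 : id r ≤ id u := hmin ⟨⟨hu.1, hu.2.le.trans hr.1.2⟩, hun⟩
    exact not_le.mpr hu.2 h2
  obtain ⟨t, ht, hte⟩ := S.boundary_point hcl hrz hr.2
  have h0 := S.qform_yPt ht
  rw [← hte] at h0
  rcases eq_or_lt_of_le hr.1.2 with h1 | h1
  · rw [h1] at h0; simp only [Complex.ofReal_one, one_mul] at h0
    linarith [hq t ht]
  · linarith [qform_smul_pos (mem_ball_zero_iff.mp hz).le (hq t ht).le hr.1.1 h1]

lemma Setup.radExt_spec {v : ℂ} (hv : ‖v‖ = 1) :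
    0 < radExt (gam W ψ) P h v ∧ radExt (gam W ψ) P h v ≤ 1 ∧
    (∀ r, 0 ≤ r → r < radExt (gam W ψ) P h v → (r : ℂ) * v ∈ imgA h) ∧
    ((radExt (gam W ψ) P h v : ℂ) * v ∈ closure (imgA h)) ∧
    (∀ r, r ≤ 1 → radExt (gam W ψ) P h v < r →
      ∃ t ∈ jSet (gam W ψ), qform (geoCtr (gam W ψ) P h t) ((r : ℂ) * v) < 0) ∧
    ((radExt (gam W ψ) P h v : ℂ) * v ∉ imgA h) := by
  set T := {r : ℝ | r ∈ Icc (0:ℝ) 1 ∧
    ∀ t ∈ jSet (gam W ψ), 0 ≤ qform (geoCtr (gam W ψ) P h t) ((r : ℂ) * v)} with hT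
  set τ := radExt (gam W ψ) P h v with hτ
  have hτT : τ = sSup T := rfl
  have hbdd : BddAbove T := ⟨1, fun r hr => hr.1.2⟩
  have hTcl : IsClosed T := by
    have : T = Icc (0:ℝ) 1 ∩ ⋂ t ∈ jSet (gam W ψ),
        {r : ℝ | 0 ≤ qform (geoCtr (gam W ψ) P h t) ((r : ℂ) * v)} := by
      ext r; simp [hT]
    rw [this]
    exact isClosed_Icc.inter (isClosed_biInter fun t _ =>
      isClosed_le continuous_const ((continuous_qform _).comp (by fun_prop)))
  obtain ⟨ε, hε, hεA⟩ := Metric.isOpen_iff.mp S.isOpen_imgA 0 S.zero_mem_imgA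
  have hsmall : ∀ r, 0 ≤ r → r < ε → (r : ℂ) * v ∈ imgA h := fun r h0 h1 => hεA (by
    rw [mem_ball_zero_iff, norm_mul, Complex.norm_of_nonneg h0, hv, mul_one]; exact h1)
  have hmemT : ∀ r ∈ Icc (0:ℝ) 1, (r : ℂ) * v ∈ closure (imgA h) → r ∈ T := fun r hr hm =>
    ⟨hr, fun t ht => S.qform_nonneg_of_closure hm ht⟩
  have hm0 : 0 < min (ε / 2) 1 := lt_min (by linarith) one_pos
  have hmT : min (ε / 2) 1 ∈ T := hmemT _ ⟨hm0.le, min_le_right _ _⟩
    (subset_closure (hsmall _ hm0.le (lt_of_le_of_lt (min_le_left _ _) (by linarith))))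
  have hpos : 0 < τ := hm0.trans_le (le_csSup hbdd hmT)
  have hτmem : τ ∈ T := hTcl.csSup_mem ⟨_, hmT⟩ hbdd
  have hlt : ∀ r, 0 ≤ r → r < τ → (r : ℂ) * v ∈ imgA h := by
    intro r h0 h1
    have e : (r : ℂ) * v = ((r / τ : ℝ) : ℂ) * ((τ : ℂ) * v) := by
      rw [← mul_assoc, ← Complex.ofReal_mul, div_mul_cancel₀ _ hpos.ne']
    refine S.mem_imgA_of ?_ fun t ht => ?_
    · rw [mem_ball_zero_iff, norm_mul, Complex.norm_of_nonneg h0, hv, mul_one]
      exact h1.trans_le hτmem.1.2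
    · rw [e]
      refine qform_smul_pos ?_ (hτmem.2 t ht) (div_nonneg h0 hpos.le) ((div_lt_one hpos).mpr h1)
      rw [norm_mul, Complex.norm_of_nonneg hpos.le, hv, mul_one]; exact hτmem.1.2
  refine ⟨hpos, hτmem.1.2, hlt, ?_, ?_, ?_⟩
  · have hmem : τ ∈ closure (Ico 0 τ) := by
      rw [closure_Ico hpos.ne]; exact right_mem_Icc.mpr hpos.le
    exact map_mem_closure (f := fun r : ℝ => (r : ℂ) * v) (by fun_prop) hmem
      fun r hr => hlt r hr.1 hr.2
  · intro r hr1 hr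
    by_contra hno
    push Not at hno
    exact not_le.mpr hr (le_csSup hbdd ⟨⟨hpos.le.trans hr.le, hr1⟩, hno⟩)
  · intro hmem
    rcases eq_or_lt_of_le hτmem.1.2 with h1 | h1
    · have := mem_ball_zero_iff.mp (S.imgA_subset hmem)
      rw [norm_mul, Complex.norm_of_nonneg hpos.le, hv, h1, mul_one] at this
      exact lt_irrefl _ this
    · have hev : ∀ᶠ r : ℝ in 𝓝 τ, (r : ℂ) * v ∈ imgA h ∧ r < 1 :=
        ((show ContinuousAt (fun r : ℝ => (r : ℂ) * v) τ by fun_prop).eventually_mem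
          (S.isOpen_imgA.mem_nhds hmem)).and (gt_mem_nhds h1)
      obtain ⟨δ, hδ, hδA⟩ := Metric.eventually_nhds_iff.mp hev
      have hdist : dist (τ + δ / 2) τ < δ := by
        rw [Real.dist_eq, add_sub_cancel_left, abs_of_pos (by linarith : 0 < δ / 2)]
        linarith
      obtain ⟨hA, hl⟩ := hδA hdist
      have hge : (0:ℝ) ≤ τ + δ / 2 := by linarith
      have := le_csSup hbdd (hmemT (τ + δ / 2) ⟨hge, hl.le⟩ (subset_closure hA))
      linarith

/-- The radial extent is continuous. -/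
lemma Setup.continuousOn_radExt :
    ContinuousOn (radExt (gam W ψ) P h) (sphere (0:ℂ) 1) := by
  intro v hv
  rw [mem_sphere_zero_iff_norm] at hv
  obtain ⟨hpos, hle, hlt, -, hgt, -⟩ := S.radExt_spec hv
  rw [ContinuousWithinAt, tendsto_order]
  constructor
  · intro a ha
    obtain ⟨b, hb1, hb2⟩ := exists_between (max_lt ha hpos)
    have hb0 : 0 ≤ b := ((le_max_right a 0).trans_lt hb1).le
    have hev : ∀ᶠ u in 𝓝 v, (b : ℂ) * u ∈ imgA h :=
      (show ContinuousAt (fun u : ℂ => (b : ℂ) * u) v by fun_prop).eventually_mem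
        (S.isOpen_imgA.mem_nhds (hlt b hb0 hb2))
    filter_upwards [hev.filter_mono nhdsWithin_le_nhds, self_mem_nhdsWithin] with u hu hus
    rw [mem_sphere_zero_iff_norm] at hus
    obtain ⟨-, -, -, -, hgt', -⟩ := S.radExt_spec hus
    by_contra hno
    rw [not_lt] at hno
    obtain ⟨t, ht, hneg⟩ := hgt' b (hb2.le.trans hle)
      (hno.trans_lt ((le_max_left a 0).trans_lt hb1))
    linarith [S.qform_pos_of_mem hu ht]
  · intro b hb
    rcases le_or_gt b 1 with hb1 | hb1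
    · obtain ⟨c, hc1, hc2⟩ := exists_between hb
      obtain ⟨t, ht, hneg⟩ := hgt c (hc2.le.trans hb1) hc1
      have hev : ∀ᶠ u in 𝓝 v, qform (geoCtr (gam W ψ) P h t) ((c : ℂ) * u) < 0 :=
        ((continuous_qform _).comp (by fun_prop : Continuous fun u : ℂ => (c : ℂ) * u)).continuousAt
          |>.tendsto.eventually (gt_mem_nhds hneg)
      filter_upwards [hev.filter_mono nhdsWithin_le_nhds, self_mem_nhdsWithin] with u hu hus
      rw [mem_sphere_zero_iff_norm] at hus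
      obtain ⟨-, -, hlt', -, -, -⟩ := S.radExt_spec hus
      by_contra hno
      rw [not_lt] at hno
      linarith [S.qform_pos_of_mem (hlt' c (hpos.le.trans hc1.le) (hc2.trans_le hno)) ht]
    · filter_upwards [self_mem_nhdsWithin] with u hus
      rw [mem_sphere_zero_iff_norm] at hus
      exact (S.radExt_spec hus).2.1.trans_lt hb1

end Vale.Agent.P116
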