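import Mathlib
import Vale.Agent.P116.Shape

/-!
# Boundary values of the covering map on the unit circle
-/

open Set Filter Metric Complex
open scoped Topology ComplexConjugate OnePoint

namespace Vale.Agent.P116

/-- Points of the unit circle that are not images of real points of the domain. -/
def bdSet (W : Set ℂ) (f : ℂ → ℂ) : Set ℂ :=
  {v | ‖v‖ = 1 ∧ ∀ x ∈ W, x.im = 0 → reflExt f x ≠ (v : OnePoint ℂ)}

/-- The real number attached to a direction. -/
noncomputable def mVal (Γ : Set ℝ) (P h : ℂ → ℂ) (v : ℂ) : ℝ :=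
  (extendFrom (imgA h) P ((radExt Γ P h v : ℂ) * v)).re

variable {W : Set ℂ} {ψ pψ μ P h : ℂ → ℂ} (S : Setup W ψ pψ μ P h)
include S

lemma Setup.devMap_image : devMap ψ μ h '' (W ∩ upHP) = imgA h := by
  refine Subset.antisymm ?_ ?_
  · rintro _ ⟨z, hz, rfl⟩
    exact ⟨μ (ψ z), S.μ_maps (S.refl.maps hz), rfl⟩
  · rintro _ ⟨w, hw, rfl⟩
    have hb : halfNu w ∈ ball (0:ℂ) 1 :=
      mem_ball_zero_iff.mpr ((norm_halfNu_lt_iff (halfOp_subset hw)).mpr hw)
    exact ⟨pψ (halfNu w), S.pψ_maps hb, by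
      rw [devMap, S.pψ_right _ hb, S.μ_left _ (halfOp_subset hw)]⟩

lemma Setup.not_bd_of_near {x : ℂ} (hx : x ∈ W) (hxi : x.im = 0) {v : ℂ}
    (hxv : reflExt (devMap ψ μ h) x = (v : OnePoint ℂ)) :
    ∀ᶠ u in 𝓝 v, (‖u‖ < 1 → u ∈ imgA h) ∧ (‖u‖ = 1 → u ∉ bdSet W (devMap ψ μ h)) := by
  filter_upwards [S.reflData.image_mem_nhds hx hxi (Filter.univ_mem (f := 𝓝 x)) hxv] with u hu
  obtain ⟨z, hz, hze⟩ := hu
  constructor
  · intro hu1
    rcases S.reflData.cases hz.2 hze with ⟨hi, -⟩ | ⟨-, h1⟩ | ⟨-, h1⟩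
    · rw [← S.devMap_image]
      rw [S.reflData.reflExt_upper ⟨hz.2, hi⟩, OnePoint.coe_eq_coe] at hze
      exact ⟨z, ⟨hz.2, hi⟩, hze⟩
    · linarith
    · linarith
  · intro hu1 hub
    rcases S.reflData.cases hz.2 hze with ⟨-, h1⟩ | ⟨hi, -⟩ | ⟨-, h1⟩
    · linarith
    · exact hub.2 z hz.2 hi hze
    · linarith

lemma Setup.mem_bd_of_arc {v : ℂ} (hv : ‖v‖ = 1) {t : ℝ} (ht : t ∈ jSet (gam W ψ))
    (hR : 1 ≤ (v * conj (geoCtr (gam W ψ) P h t)).re) : v ∈ bdSet W (devMap ψ μ h) := by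
  set c := geoCtr (gam W ψ) P h t with hc
  have hc1 : 1 < ‖c‖ := S.one_lt_norm_ctr ht
  have hopen : ∀ u : ℂ, ‖u‖ = 1 → 1 < (u * conj c).re → u ∈ bdSet W (devMap ψ μ h) := by
    intro u hu hRu
    refine ⟨hu, fun x hx hxi hxv => ?_⟩
    have hq : qform c u < 0 := by
      rw [qform, Complex.normSq_eq_norm_sq, hu]; linarith
    have hev := (S.not_bd_of_near hx hxi hxv).and
      ((continuous_qform c).continuousAt.tendsto.eventually (gt_mem_nhds hq))
    obtain ⟨r, hr, hrev⟩ := Metric.eventually_nhds_iff.mp hev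
    set k : ℝ := max (1 - r / 2) (1 / 2) with hk
    have hk1 : k < 1 := max_lt (by linarith) (by norm_num)
    have hk0 : 0 < k := lt_max_of_lt_right (by norm_num)
    have hdist : dist ((k : ℂ) * u) u < r := by
      rw [dist_eq_norm, show (k : ℂ) * u - u = ((k - 1 : ℝ) : ℂ) * u by push_cast; ring, norm_mul,
        hu, mul_one, Complex.norm_real, Real.norm_eq_abs, abs_of_nonpos (by linarith)]
      linarith [le_max_left (1 - r / 2) (1 / 2)]
    obtain ⟨⟨h1, -⟩, h2⟩ := hrev hdist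
    have hmem := h1 (by rw [norm_mul, Complex.norm_of_nonneg hk0.le, hu, mul_one]; exact hk1)
    linarith [S.qform_pos_of_mem hmem ht, h2]
  refine ⟨hv, fun x hx hxi hxv => ?_⟩
  set u := fun ε : ℝ => (v + (ε : ℂ) * c) / ((‖v + (ε : ℂ) * c‖ : ℝ) : ℂ) with hu
  have hcont : Tendsto u (𝓝[>] (0:ℝ)) (𝓝 v) := by
    have : ContinuousAt u 0 := by
      refine ContinuousAt.div (by fun_prop) (by fun_prop) ?_
      simp [hv]
    have h0 : u 0 = v := by simp [hu, hv]
    have h2 := this.tendsto.mono_left (nhdsWithin_le_nhds (a := (0:ℝ)) (s := Ioi 0))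
    rwa [h0] at h2
  obtain ⟨ε, ⟨-, hnb⟩, hε⟩ := ((hcont.eventually (S.not_bd_of_near hx hxi hxv)).and
    self_mem_nhdsWithin).exists
  have hε : 0 < ε := hε
  set R := (v * conj c).re with hR'
  have hsq : ‖v + (ε : ℂ) * c‖ ^ 2 = 1 + 2 * ε * R + ε ^ 2 * ‖c‖ ^ 2 := by
    rw [← Complex.normSq_eq_norm_sq, Complex.normSq_add, Complex.normSq_mul, Complex.normSq_ofReal,
      Complex.normSq_eq_norm_sq v, hv, Complex.normSq_eq_norm_sq c, map_mul, Complex.conj_ofReal,
      mul_left_comm v, Complex.re_ofReal_mul]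
    ring
  have hpos : 0 < ‖v + (ε : ℂ) * c‖ := by
    have h1 : 0 < ‖v + (ε : ℂ) * c‖ ^ 2 := by
      rw [hsq]; nlinarith [mul_nonneg hε.le (le_trans zero_le_one hR), mul_nonneg (sq_nonneg ε) (sq_nonneg ‖c‖)]
    nlinarith [norm_nonneg (v + (ε : ℂ) * c)]
  have hnorm : ‖u ε‖ = 1 := by
    rw [hu, norm_div, Complex.norm_real, Real.norm_eq_abs, abs_of_pos hpos, div_self hpos.ne']
  have hre : 1 < (u ε * conj c).re := by
    rw [hu, div_mul_eq_mul_div, Complex.div_ofReal_re, one_lt_div hpos, add_mul, Complex.add_re,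
      mul_assoc, Complex.re_ofReal_mul, Complex.mul_conj', ← Complex.ofReal_pow, Complex.ofReal_re]
    have h3 : 0 ≤ R + ε * ‖c‖ ^ 2 := by positivity
    refine lt_of_pow_lt_pow_left₀ 2 h3 ?_
    rw [hsq]
    have hc2 : 1 < ‖c‖ ^ 2 := by nlinarith
    nlinarith [mul_pos (mul_pos hε hε) (sub_pos.mpr hc2), mul_nonneg (sub_nonneg.mpr hR) hε.le,
      mul_lt_mul_of_pos_left hc2 (mul_pos hε (lt_of_lt_of_le one_pos hR))]
  exact hnb hnorm (hopen _ hnorm hre)

/-- Radially cut directions carry a geodesic. -/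
lemma Setup.radExt_lt_one {v : ℂ} (hv : ‖v‖ = 1) (hlt : radExt (gam W ψ) P h v < 1) :
    ∃ t ∈ jSet (gam W ψ), (radExt (gam W ψ) P h v : ℂ) * v = yPt h t ∧
      1 < (v * conj (geoCtr (gam W ψ) P h t)).re ∧ mVal (gam W ψ) P h v = t := by
  obtain ⟨hpos, -, -, hcl, -, hnot⟩ := S.radExt_spec hv
  have hb : (radExt (gam W ψ) P h v : ℂ) * v ∈ ball (0:ℂ) 1 := by
    rw [mem_ball_zero_iff, norm_mul, Complex.norm_of_nonneg hpos.le, hv, mul_one]; exact hlt
  obtain ⟨t, ht, hte⟩ := S.boundary_point hcl hb hnot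
  refine ⟨t, ht, hte, ?_, ?_⟩
  · have h0 := S.qform_yPt ht
    rw [← hte, qform_radial _ _ hv] at h0
    nlinarith [mul_pos (sub_pos.mpr hlt) (sub_pos.mpr hlt)]
  · rw [mVal, extendFrom_eq hcl ((S.stage.diff.continuousOn.continuousAt
      (isOpen_ball.mem_nhds hb)).mono_left nhdsWithin_le_nhds), hte, S.P_yPt ht]
    simp

/-- The direction of a point over a real point of the doubled half disc. -/
lemma Setup.dir_yPt {t : ℝ} (ht : t ∈ jSet (gam W ψ)) :
    ∃ v : ℂ, ‖v‖ = 1 ∧ radExt (gam W ψ) P h v < 1 ∧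
      1 < (v * conj (geoCtr (gam W ψ) P h t)).re ∧ mVal (gam W ψ) P h v = t := by
  set y := yPt h t with hy
  have hyb := mem_ball_zero_iff.mp (S.yPt_mem ht)
  have h0 := S.qform_yPt ht
  have hy0 : y ≠ 0 := fun e => by rw [← hy, e, qform_zero] at h0; exact one_ne_zero h0
  have hn : 0 < ‖y‖ := norm_pos_iff.mpr hy0
  set v := y / ((‖y‖ : ℝ) : ℂ) with hvdef
  have hv : ‖v‖ = 1 := by
    rw [hvdef, norm_div, Complex.norm_real, Real.norm_eq_abs, abs_of_pos hn, div_self hn.ne']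
  have hvy : ((‖y‖ : ℝ) : ℂ) * v = y := by
    rw [hvdef, mul_div_cancel₀ _ (Complex.ofReal_ne_zero.mpr hn.ne')]
  obtain ⟨r, hr, s, -, hsd, hsm, hps, heq, he⟩ := S.section_at ht
  have hcl : y ∈ closure (imgA h) := by
    rw [hy, he]
    have hmem : (t : ℂ) ∈ closure (ball (t : ℂ) r ∩ upHP) :=
      isOpen_ball.inter_closure ⟨mem_ball_self hr, by rw [closure_upHP]; simp⟩
    refine mem_closure_image (hsd.continuousOn.continuousAt (ball_mem_nhds _ hr)) hmem
      |> fun hm => closure_mono ?_ hm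
    rintro _ ⟨z, hz, rfl⟩
    exact ⟨z, ⟨mem_ball_zero_iff.mpr (by
      have := (S.stage.maps (hsm hz.1)).1
      rw [hps z hz.1] at this
      exact mem_ball_zero_iff.mp this), hz.2⟩, heq hz⟩
  have hnot : y ∉ imgA h := fun hm => by
    have h1 : 0 < (P y).im := (S.P_mem hm).1.2
    rw [hy, S.P_yPt ht] at h1
    simp at h1
  obtain ⟨hpos, hle, hlt, -, hgt, -⟩ := S.radExt_spec hv
  have he2 : radExt (gam W ψ) P h v = ‖y‖ := by
    rcases lt_trichotomy (radExt (gam W ψ) P h v) ‖y‖ with h' | h' | h'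
    · obtain ⟨u, hu, hneg⟩ := hgt ‖y‖ hyb.le h'
      rw [hvy] at hneg
      linarith [S.qform_nonneg_of_closure hcl hu]
    · exact h'
    · exact absurd (hvy ▸ hlt ‖y‖ hn.le h') hnot
  refine ⟨v, hv, he2 ▸ hyb, ?_, ?_⟩
  · rw [← hy, ← hvy, qform_radial _ _ hv] at h0
    nlinarith [mul_pos (sub_pos.mpr hyb) (sub_pos.mpr hyb)]
  · rw [mVal, he2, hvy, extendFrom_eq hcl ((S.stage.diff.continuousOn.continuousAt
      (isOpen_ball.mem_nhds (S.yPt_mem ht))).mono_left nhdsWithin_le_nhds), S.P_yPt ht]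
    simp

/-- Cluster values of `P` at a boundary point outside the gaps. -/
lemma Setup.cluster_real {v : ℂ} (hv : v ∈ bdSet W (devMap ψ μ h)) {l : ℂ}
    (hl : MapClusterPt l (𝓝[imgA h] v) P) :
    ∃ s : ℝ, l = s ∧ |s| < 1 ∧ s ∈ closure (gam W ψ) \ gam W ψ := by
  have hfreq : ∀ N ∈ 𝓝 l, ∀ N' ∈ 𝓝 v, ∃ z ∈ imgA h, z ∈ N' ∧ P z ∈ N := by
    intro N hN N' hN'
    obtain ⟨z, hz1, hz2, hz3⟩ := ((mapClusterPt_iff_frequently.mp hl N hN).and_eventually
      ((Filter.eventually_mem_set.mpr self_mem_nhdsWithin).and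
        (Filter.eventually_mem_set.mpr (mem_nhdsWithin_of_mem_nhds hN')))).exists
    exact ⟨z, hz2, hz3, hz1⟩
  have hlcl : l ∈ halfCl := by
    by_contra hno
    obtain ⟨z, hz, -, hzP⟩ := hfreq _ (isCompact_halfCl.isClosed.isOpen_compl.mem_nhds hno)
      univ Filter.univ_mem
    exact hzP (halfOp_subset (S.P_mem hz).1)
  have notin : l ∉ halfOp := by
    intro hlo
    have hne : h l ≠ v := fun e => by
      have := mem_ball_zero_iff.mp (S.h_maps hlo)
      rw [e, hv.1] at this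
      exact lt_irrefl _ this
    obtain ⟨N, N', hN, hN', hd⟩ := t2_separation_nhds hne
    obtain ⟨z, hz, hzN', hzP⟩ := hfreq _
      ((S.h_diff.continuousOn.continuousAt (isOpen_halfOp.mem_nhds hlo)).preimage_mem_nhds hN)
      N' hN'
    have : h (P z) ∈ N := hzP
    rw [(S.P_mem hz).2] at this
    exact hd.le_bot ⟨this, hzN'⟩
  have hgap : ∀ x ∈ W, x.im = 0 → reflExt ψ x ≠ ((halfNu l : ℂ) : OnePoint ℂ) := by
    intro x hx hxi hxe
    obtain ⟨L, -, hlim, -, hLe⟩ := S.reflData.real_spec hx hxi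
    have hne : L ≠ v := fun e => hv.2 x hx hxi (e ▸ hLe)
    obtain ⟨N, N', hN, hN', hd⟩ := t2_separation_nhds hne
    have hev : ∀ᶠ z in 𝓝 x, z ∈ upHP → devMap ψ μ h z ∈ N :=
      eventually_nhdsWithin_iff.mp (hlim.eventually_mem hN)
    have him := S.refl.image_mem_nhds hx hxi hev hxe
    have hc := (continuousOn_halfNu l hlcl).preimage_mem_nhdsWithin him
    rw [mem_nhdsWithin_iff_exists_mem_nhds_inter] at hc
    obtain ⟨M, hM, hMsub⟩ := hc
    obtain ⟨z, hz, hzN', hzP⟩ := hfreq M hM N' hN'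
    obtain ⟨ζ, ⟨hζN, hζW⟩, hζe⟩ := hMsub ⟨hzP, halfOp_subset (S.P_mem hz).1⟩
    have hlt := (norm_halfNu_lt_iff (halfOp_subset (S.P_mem hz).1)).mpr (S.P_mem hz).1
    rcases S.refl.cases hζW hζe with ⟨hi, -⟩ | ⟨-, h1⟩ | ⟨-, h1⟩
    · rw [S.refl.reflExt_upper ⟨hζW, hi⟩, OnePoint.coe_eq_coe] at hζe
      have h1 : devMap ψ μ h ζ = z := by
        rw [devMap, hζe, S.μ_left _ (halfOp_subset (S.P_mem hz).1), (S.P_mem hz).2]
      have := hζN hi
      rw [h1] at this
      exact hd.le_bot ⟨this, hzN'⟩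
    · linarith
    · linarith
  have hn1 : ‖l‖ < 1 := by
    refine lt_of_le_of_ne (mem_closedBall_zero_iff.mp hlcl.1) fun h1 => ?_
    have hno : l ∉ halfOp := notin
    obtain ⟨x, hx, hxi, hxe⟩ := S.arc (halfNu l) (norm_halfNu_eq_one hlcl hno)
      (halfNu_arc h1 hlcl.2)
    exact hgap x hx hxi hxe
  have hi : l.im = 0 :=
    le_antisymm (not_lt.mp fun h' => notin ⟨mem_ball_zero_iff.mpr hn1, h'⟩) hlcl.2
  have hcoe : ((l.re : ℝ) : ℂ) = l := Complex.ext (by simp) (by simp [hi])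
  have habs : |l.re| < 1 := (Complex.abs_re_le_norm l).trans_lt hn1
  refine ⟨l.re, hcoe.symm, habs, ?_, ?_⟩
  · by_contra hJ
    obtain ⟨r, hr, s, -, hsd, hsm, hps, heq, he⟩ := S.section_at (t := l.re) ⟨habs, hJ⟩
    rw [hcoe] at hsd hsm hps heq he
    have hne : s l ≠ v := fun e => by
      have := mem_ball_zero_iff.mp (hsm (mem_ball_self hr))
      rw [e, hv.1] at this
      exact lt_irrefl _ this
    obtain ⟨N, N', hN, hN', hd⟩ := t2_separation_nhds hne
    obtain ⟨z, hz, hzN', hzP⟩ := hfreq (s ⁻¹' N ∩ ball l r) (inter_mem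
      ((hsd.continuousOn.continuousAt (ball_mem_nhds l hr)).preimage_mem_nhds hN)
      (ball_mem_nhds l hr)) N' hN'
    have h1 : s (P z) = z := by
      rw [← heq ⟨hzP.2, (S.P_mem hz).1.2⟩, (S.P_mem hz).2]
    have h2 : s (P z) ∈ N := hzP.1
    rw [h1] at h2
    exact hd.le_bot ⟨h2, hzN'⟩
  · rintro ⟨-, x, hx, hxi, hxe⟩
    rw [hcoe] at hxe
    exact hgap x hx hxi hxe

lemma Setup.exists_limit {v : ℂ} (hv : v ∈ bdSet W (devMap ψ μ h))
    (h1 : radExt (gam W ψ) P h v = 1) :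
    ∃ s : ℝ, |s| < 1 ∧ s ∈ closure (gam W ψ) \ gam W ψ ∧
      Tendsto P (𝓝[imgA h] v) (𝓝 (s : ℂ)) := by
  have hvn : ‖v‖ = 1 := hv.1
  have hne : (𝓝[imgA h] v).NeBot := by
    have := (S.radExt_spec hvn).2.2.2.1
    rw [h1, Complex.ofReal_one, one_mul] at this
    exact mem_closure_iff_nhdsWithin_neBot.mp this
  have hle : Filter.map P (𝓝[imgA h] v) ≤ 𝓟 halfCl := by
    rw [le_principal_iff, Filter.mem_map]
    exact mem_of_superset self_mem_nhdsWithin fun z hz => halfOp_subset (S.P_mem hz).1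
  obtain ⟨l, hl, hlc⟩ := isCompact_halfCl.exists_clusterPt hle
  obtain ⟨s, rfl, hs1, hs2⟩ := S.cluster_real hv hlc
  refine ⟨s, hs1, hs2, isCompact_halfCl.tendsto_nhds_of_unique_mapClusterPt
    (mem_of_superset self_mem_nhdsWithin fun z hz => halfOp_subset (S.P_mem hz).1) ?_⟩
  intro l' _hmem hl'
  obtain ⟨s', rfl, hs1', hs2'⟩ := S.cluster_real hv hl'
  suffices key : ∀ p q : ℝ, p < q → MapClusterPt (p : ℂ) (𝓝[imgA h] v) P →
      MapClusterPt (q : ℂ) (𝓝[imgA h] v) P → False by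
    rcases lt_trichotomy s' s with h' | h' | h'
    · exact (key s' s h' hl' hlc).elim
    · rw [h']
    · exact (key s s' h' hlc hl').elim
  -- a value strictly between two cluster values is a cluster value
  clear hl hlc hl' hs1 hs2 hs1' hs2' _hmem s s'
  intro s' s hlt hl' hlc
  obtain ⟨m, ⟨hm1, hm2⟩, hmN⟩ : ∃ m ∈ Ioo s' s, m ∉ closure (gam W ψ) \ gam W ψ := by
    by_cases hG : ∃ m ∈ Ioo s' s, m ∈ gam W ψ
    · obtain ⟨m, hm, hmG⟩ := hG
      exact ⟨m, hm, fun h' => h'.2 hmG⟩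
    · obtain ⟨m, hm⟩ := exists_between hlt
      refine ⟨m, hm, fun h' => hG ?_⟩
      exact mem_closure_iff.mp h'.1 (Ioo s' s) isOpen_Ioo hm
  have hfr : ∃ᶠ z in 𝓝[imgA h] v, (P z).re = m := by
    rw [frequently_nhdsWithin_iff, Metric.nhds_basis_ball.frequently_iff]
    intro ε hε
    have hc : ContinuousAt (fun p : ℝ × ℝ => (p.2 : ℂ) * (v * Complex.exp ((p.1 : ℂ) * I))) (0, 1) := by
      fun_prop
    have hev : ∀ᶠ p : ℝ × ℝ in 𝓝 (0, 1),
        (p.2 : ℂ) * (v * Complex.exp ((p.1 : ℂ) * I)) ∈ ball v ε :=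
      hc.eventually_mem (by simpa using ball_mem_nhds v hε)
    obtain ⟨η₁, hη₁, hη₁'⟩ := Metric.eventually_nhds_iff.mp hev
    set a : ℝ := max (1 - η₁ / 2) (1 / 2) with ha
    have ha1 : a < 1 := max_lt (by linarith) (by norm_num)
    have ha0 : 0 < a := lt_max_of_lt_right (by norm_num)
    set u := fun θ : ℝ => v * Complex.exp ((θ : ℂ) * I) with hu
    have hun : ∀ θ, ‖u θ‖ = 1 := fun θ => by
      rw [hu, norm_mul, hvn, Complex.norm_exp_ofReal_mul_I, one_mul]
    have huc : Continuous u := by rw [hu]; fun_prop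
    have hτc : Continuous fun θ => radExt (gam W ψ) P h (u θ) :=
      S.continuousOn_radExt.comp_continuous huc fun θ => mem_sphere_zero_iff_norm.mpr (hun θ)
    have hu0 : u 0 = v := by simp [hu]
    obtain ⟨η₂, hη₂, hη₂'⟩ := Metric.eventually_nhds_iff.mp
      (hτc.continuousAt.tendsto.eventually (lt_mem_nhds
        (show a < radExt (gam W ψ) P h (u 0) by rw [hu0, h1]; exact ha1)))
    set η := min η₁ η₂ with hη
    have hηp : 0 < η := lt_min hη₁ hη₂
    set G := fun p : ℝ × ℝ =>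
      ((a + p.2 * (radExt (gam W ψ) P h (u p.1) - a) : ℝ) : ℂ) * u p.1 with hG
    have hGc : Continuous G := by
      rw [hG]
      exact (Complex.continuous_ofReal.comp (continuous_const.add (continuous_snd.mul
        ((hτc.comp continuous_fst).sub continuous_const)))).mul (huc.comp continuous_fst)
    set Sg := G '' (Ioo (-η) η ×ˢ Ioo (0:ℝ) 1) with hSg
    have hsub : Sg ⊆ imgA h ∩ ball v ε := by
      rintro _ ⟨⟨θ, k⟩, ⟨hθ, hk0, hk1⟩, rfl⟩
      have hθ' : |θ| < η := abs_lt.mpr hθ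
      have ht : a < radExt (gam W ψ) P h (u θ) := hη₂' (by
        rw [Real.dist_eq, sub_zero]; exact hθ'.trans_le (min_le_right _ _))
      obtain ⟨-, hle1, hlt1, -, -, -⟩ := S.radExt_spec (hun θ)
      set r := a + k * (radExt (gam W ψ) P h (u θ) - a) with hr
      have hra : a < r := by nlinarith
      have hrt : r < radExt (gam W ψ) P h (u θ) := by nlinarith
      refine ⟨hlt1 r (ha0.le.trans hra.le) hrt, hη₁' (y := (θ, r)) ?_⟩
      rw [Prod.dist_eq, Real.dist_eq, Real.dist_eq, sub_zero, max_lt_iff]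
      refine ⟨hθ'.trans_le (min_le_left _ _), ?_⟩
      rw [abs_lt]
      constructor <;> linarith [le_max_left (1 - η₁ / 2) (1 / 2)]
    have hSgc : IsPreconnected Sg :=
      (((convex_Ioo (-η) η).prod (convex_Ioo (0:ℝ) 1)).isPreconnected).image G hGc.continuousOn
    have hev2 : ∀ᶠ z in 𝓝[imgA h] v, z ∈ Sg := by
      have h1' : ∀ᶠ z in 𝓝 v, a < ‖z‖ :=
        continuous_norm.continuousAt.tendsto.eventually (lt_mem_nhds (by rw [hvn]; exact ha1))
      have h2' : ∀ᶠ z in 𝓝 v, |Complex.arg (z * conj v)| < η := by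
        have hz : v * conj v = 1 := by rw [Complex.mul_conj', hvn]; simp
        have : ContinuousAt (fun z => |Complex.arg (z * conj v)|) v :=
          ((Complex.continuousAt_arg (by rw [hz]; exact Complex.one_mem_slitPlane)).comp
            (f := fun z => z * conj v) (by fun_prop)).abs
        refine this.tendsto.eventually (gt_mem_nhds ?_)
        simpa [hz] using hηp
      filter_upwards [h1'.filter_mono nhdsWithin_le_nhds, h2'.filter_mono nhdsWithin_le_nhds,
        self_mem_nhdsWithin] with z hz1 hz2 hzA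
      set θ := Complex.arg (z * conj v) with hθ
      have hzu : ((‖z‖ : ℝ) : ℂ) * u θ = z := by
        have h3 := Complex.norm_mul_exp_arg_mul_I (z * conj v)
        rw [norm_mul, Complex.norm_conj, hvn, mul_one, ← hθ] at h3
        calc ((‖z‖ : ℝ) : ℂ) * u θ = v * (((‖z‖ : ℝ) : ℂ) * Complex.exp ((θ : ℂ) * I)) := by
              rw [hu]; ring
          _ = z * (v * conj v) := by rw [h3]; ring
          _ = z := by rw [Complex.mul_conj', hvn]; simp
      obtain ⟨hpos, hle1, -, -, hgt, hnot⟩ := S.radExt_spec (hun θ)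
      have hrt : ‖z‖ < radExt (gam W ψ) P h (u θ) := by
        rcases lt_trichotomy ‖z‖ (radExt (gam W ψ) P h (u θ)) with h' | h' | h'
        · exact h'
        · exact absurd (by rw [← h', hzu]; exact hzA) hnot
        · obtain ⟨t, ht, hneg⟩ := hgt ‖z‖ (mem_ball_zero_iff.mp (S.imgA_subset hzA)).le h'
          rw [hzu] at hneg
          linarith [S.qform_pos_of_mem hzA ht]
      refine ⟨(θ, (‖z‖ - a) / (radExt (gam W ψ) P h (u θ) - a)),
        ⟨abs_lt.mp hz2, div_pos (by linarith) (by linarith),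
          (div_lt_one (by linarith)).mpr (by linarith)⟩, ?_⟩
      simp only [hG]
      rw [div_mul_cancel₀ _ (by linarith : radExt (gam W ψ) P h (u θ) - a ≠ 0), add_sub_cancel,
        hzu]
    have pick : ∀ q : ℝ, MapClusterPt (q : ℂ) (𝓝[imgA h] v) P → ∀ δ > 0,
        ∃ z ∈ Sg, |(P z).re - q| < δ := by
      intro q hq δ hδ
      obtain ⟨z, hz1, hz2⟩ := ((mapClusterPt_iff_frequently.mp hq _
        (ball_mem_nhds (q : ℂ) hδ)).and_eventually hev2).exists
      refine ⟨z, hz2, ?_⟩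
      rw [mem_ball, dist_eq_norm] at hz1
      have := (Complex.abs_re_le_norm (P z - q)).trans_lt hz1
      simpa using this
    obtain ⟨z₁, hz₁, e₁⟩ := pick s' hl' (m - s') (by linarith)
    obtain ⟨z₂, hz₂, e₂⟩ := pick s hlc (s - m) (by linarith)
    rw [abs_lt] at e₁ e₂
    obtain ⟨z, hz, hze⟩ := hSgc.intermediate_value hz₁ hz₂
      ((Complex.continuous_re.comp_continuousOn (S.stage.diff.continuousOn.mono
        (fun z hz => S.imgA_subset (hsub hz).1))))
      (show m ∈ Icc ((P z₁).re) ((P z₂).re) from ⟨by linarith, by linarith⟩)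
    exact ⟨z, (hsub hz).2, hze, (hsub hz).1⟩
  have : (𝓝[imgA h] v ⊓ 𝓟 {z | (P z).re = m}).NeBot := frequently_mem_iff_neBot.mp hfr
  obtain ⟨l, -, hlm⟩ := isCompact_halfCl.exists_clusterPt
    (show Filter.map P (𝓝[imgA h] v ⊓ 𝓟 {z | (P z).re = m}) ≤ 𝓟 halfCl from
      (Filter.map_mono inf_le_left).trans hle)
  have hlre : l.re = m := by
    by_contra hne'
    obtain ⟨z, hz, hz2⟩ := ((mapClusterPt_iff_frequently.mp hlm _
      (Complex.continuous_re.continuousAt.preimage_mem_nhds (isOpen_ne.mem_nhds hne'))).and_eventually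
      (Filter.eventually_mem_set.mpr (mem_inf_of_right (mem_principal_self _)))).exists
    exact hz hz2
  obtain ⟨q, rfl, -, hq⟩ := S.cluster_real hv (ClusterPt.mono hlm (Filter.map_mono inf_le_left))
  rw [Complex.ofReal_re] at hlre
  exact hmN (hlre ▸ hq)

/-- At every point of the boundary set the radial limit exists. -/
lemma Setup.bd_spec {v : ℂ} (hv : v ∈ bdSet W (devMap ψ μ h)) :
    Tendsto P (𝓝[imgA h] ((radExt (gam W ψ) P h v : ℂ) * v))
      (𝓝 (mVal (gam W ψ) P h v : ℂ)) ∧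
    |mVal (gam W ψ) P h v| < 1 ∧ mVal (gam W ψ) P h v ∉ gam W ψ ∧
    (radExt (gam W ψ) P h v = 1 → mVal (gam W ψ) P h v ∈ closure (gam W ψ)) := by
  obtain ⟨hpos, hle, -, hcl, -, -⟩ := S.radExt_spec hv.1
  rcases eq_or_lt_of_le hle with h1 | h1
  · obtain ⟨s, hs1, hs2, hlim⟩ := S.exists_limit hv h1
    have e : (radExt (gam W ψ) P h v : ℂ) * v = v := by rw [h1]; simp
    have hm : mVal (gam W ψ) P h v = s := by
      rw [e] at hcl
      rw [mVal, e, extendFrom_eq hcl hlim, Complex.ofReal_re]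
    rw [hm, e]
    exact ⟨hlim, hs1, hs2.2, fun _ => hs2.1⟩
  · obtain ⟨t, ht, hte, -, hm⟩ := S.radExt_lt_one hv.1 h1
    rw [hm, hte]
    refine ⟨?_, ht.1, fun hG => ht.2 (subset_closure hG), fun e => absurd e h1.ne⟩
    rw [← S.P_yPt ht]
    exact (S.stage.diff.continuousOn.continuousAt
      (isOpen_ball.mem_nhds (S.yPt_mem ht))).mono_left nhdsWithin_le_nhds

lemma Setup.continuousOn_mVal :
    ContinuousOn (mVal (gam W ψ) P h) (bdSet W (devMap ψ μ h)) := by
  set g := fun v => (radExt (gam W ψ) P h v : ℂ) * v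
  have hg : ContinuousOn g (bdSet W (devMap ψ μ h)) :=
    (Complex.continuous_ofReal.comp_continuousOn (S.continuousOn_radExt.mono
      fun v hv => mem_sphere_zero_iff_norm.mpr hv.1)).mul continuousOn_id
  have hext : ContinuousOn (extendFrom (imgA h) P) (g '' bdSet W (devMap ψ μ h)) := by
    refine continuousOn_extendFrom ?_ ?_
    · rintro _ ⟨v, hv, rfl⟩; exact (S.radExt_spec hv.1).2.2.2.1
    · rintro _ ⟨v, hv, rfl⟩; exact ⟨_, (S.bd_spec hv).1⟩
  exact Complex.continuous_re.comp_continuousOn (hext.comp hg (mapsTo_image _ _))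

end Vale.Agent.P116
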