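import Mathlib
import Vale.Agent.P116.Boundary

/-!
# The image is a circle domain
-/

open Set Filter Metric Complex
open scoped Topology ComplexConjugate OnePoint

namespace Vale.Agent.P116

/-- The closed arc cut out of the unit circle by a geodesic. -/
def arcC (c : ℂ) : Set ℂ := {v | ‖v‖ = 1 ∧ 1 ≤ (v * conj c).re}

/-- Projection to the unit circle. -/
noncomputable def radProj (z : ℂ) : ℂ := z / ((‖z‖ : ℝ) : ℂ)

lemma qform_eq_dist (c z : ℂ) : qform c z = dist z c ^ 2 - (‖c‖ ^ 2 - 1) := by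
  rw [qform, dist_eq_norm, ← Complex.normSq_eq_norm_sq, ← Complex.normSq_eq_norm_sq,
    Complex.normSq_sub]
  ring

lemma setOf_qform_le {c : ℂ} (hc : 1 < ‖c‖) :
    {z | qform c z ≤ 0} = closedBall c (√(‖c‖ ^ 2 - 1)) := by
  ext z
  rw [mem_ofPred_eq, qform_eq_dist, mem_closedBall, sub_nonpos,
    Real.le_sqrt dist_nonneg (by nlinarith)]

lemma norm_radProj {z : ℂ} (hz : z ≠ 0) : ‖radProj z‖ = 1 := by
  rw [radProj, norm_div, Complex.norm_real, Real.norm_eq_abs, abs_norm,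
    div_self (norm_ne_zero_iff.mpr hz)]

lemma radProj_of_norm_one {z : ℂ} (hz : ‖z‖ = 1) : radProj z = z := by simp [radProj, hz]

lemma radProj_mem_arcC {c z : ℂ} (hz : z ≠ 0) (hq : qform c z ≤ 0) : radProj z ∈ arcC c := by
  refine ⟨norm_radProj hz, ?_⟩
  have hn : 0 < ‖z‖ := norm_pos_iff.mpr hz
  rw [radProj, div_mul_eq_mul_div, Complex.div_ofReal_re, le_div_iff₀ hn, one_mul]
  rw [qform, Complex.normSq_eq_norm_sq] at hq
  nlinarith [sq_nonneg (‖z‖ - 1)]

lemma isPreconnected_arcC {c : ℂ} (hc : 1 < ‖c‖) : IsPreconnected (arcC c) := by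
  have hc0 : 0 < ‖c‖ := one_pos.trans hc
  set u := c / ((‖c‖ : ℝ) : ℂ) with hu
  set α := Real.arccos (1 / ‖c‖) with hα
  have hun : ‖u‖ = 1 := by
    rw [hu, norm_div, Complex.norm_real, Real.norm_eq_abs, abs_norm, div_self hc0.ne']
  have hinv : 1 / ‖c‖ ≤ 1 := by rw [div_le_one hc0]; exact hc.le
  have hinv0 : (0:ℝ) ≤ 1 / ‖c‖ := by positivity
  have huc : u * conj c = ((‖c‖ : ℝ) : ℂ) := by
    rw [hu, div_mul_eq_mul_div, Complex.mul_conj', sq, mul_div_assoc,
      div_self (Complex.ofReal_ne_zero.mpr hc0.ne'), mul_one]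
  have : arcC c = (fun θ : ℝ => u * Complex.exp ((θ : ℂ) * I)) '' Icc (-α) α := by
    ext v
    constructor
    · rintro ⟨hv, hR⟩
      set θ := Complex.arg (v * conj u) with hθ
      have hvu : ‖v * conj u‖ = 1 := by simp [hv, hun]
      have hexp : Complex.exp ((θ : ℂ) * I) = v * conj u := by
        have h := Complex.norm_mul_exp_arg_mul_I (v * conj u)
        rw [hvu, Complex.ofReal_one, one_mul] at h
        exact h
      have hv' : u * Complex.exp ((θ : ℂ) * I) = v := by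
        rw [hexp, mul_left_comm, Complex.mul_conj', hun]; simp
      refine ⟨θ, abs_le.mp ?_, hv'⟩
      have hcos : 1 / ‖c‖ ≤ Real.cos |θ| := by
        rw [Real.cos_abs, div_le_iff₀ hc0]
        rw [← hv', mul_assoc, mul_comm _ (conj c), ← mul_assoc, huc, Complex.re_ofReal_mul,
          Complex.exp_ofReal_mul_I_re] at hR
        linarith
      rw [hα, ← Real.arccos_cos (abs_nonneg θ) (Complex.abs_arg_le_pi _)]
      exact Real.arccos_le_arccos hcos
    · rintro ⟨θ, hθ, rfl⟩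
      refine ⟨by rw [norm_mul, hun, Complex.norm_exp_ofReal_mul_I, one_mul], ?_⟩
      rw [mul_assoc, mul_comm _ (conj c), ← mul_assoc, huc, Complex.re_ofReal_mul,
        Complex.exp_ofReal_mul_I_re]
      have h1 : 1 / ‖c‖ ≤ Real.cos θ := by
        rw [← Real.cos_abs θ, ← Real.cos_arccos (by linarith) hinv]
        exact Real.cos_le_cos_of_nonneg_of_le_pi (abs_nonneg θ) (Real.arccos_le_pi _) (abs_le.mpr hθ)
      rw [div_le_iff₀ hc0] at h1
      linarith
  rw [this]
  exact isPreconnected_Icc.image _ (Continuous.continuousOn (by fun_prop))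

lemma arcC_endpoint {c : ℂ} (hc : 1 < ‖c‖) :
    ∃ v ∈ arcC c, v ≠ radProj c := by
  set s := √(‖c‖ ^ 2 - 1) with hs
  have hc0 : c ≠ 0 := fun e => by simp [e] at hc; linarith
  have hn : (0:ℝ) < ‖c‖ ^ 2 := by positivity
  have hs2 : s ^ 2 = ‖c‖ ^ 2 - 1 := Real.sq_sqrt (by nlinarith)
  set v := c * (1 + I * (s : ℂ)) / ((‖c‖ ^ 2 : ℝ) : ℂ) with hv
  have hre : (v * conj c).re = 1 := by
    rw [hv, div_mul_eq_mul_div, Complex.div_ofReal_re, mul_right_comm, Complex.mul_conj',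
      ← Complex.ofReal_pow, Complex.re_ofReal_mul]
    simp [div_self hn.ne', hc0]
  have hvn : ‖v‖ = 1 := by
    have h1 : ‖(1 + I * (s : ℂ))‖ = ‖c‖ := by
      have : ‖(1 + I * (s : ℂ))‖ ^ 2 = ‖c‖ ^ 2 := by
        rw [← Complex.normSq_eq_norm_sq]
        simp [Complex.normSq_apply]; nlinarith
      exact (sq_eq_sq₀ (norm_nonneg _) (norm_nonneg _)).mp this
    rw [hv, norm_div, norm_mul, h1, Complex.norm_of_nonneg hn.le, sq, div_self (by positivity)]
  refine ⟨v, ⟨hvn, hre.ge⟩, fun e => ?_⟩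
  have : (radProj c * conj c).re = ‖c‖ := by
    rw [radProj, div_mul_eq_mul_div, Complex.div_ofReal_re, Complex.mul_conj', ← Complex.ofReal_pow,
      Complex.ofReal_re, sq, mul_div_assoc, div_self (norm_ne_zero_iff.mpr hc0), mul_one]
  rw [← e, hre] at this
  linarith

variable {W : Set ℂ} {ψ pψ μ P h : ℂ → ℂ} (S : Setup W ψ pψ μ P h)
include S

lemma Setup.arcC_subset {t : ℝ} (ht : t ∈ jSet (gam W ψ)) :
    arcC (geoCtr (gam W ψ) P h t) ⊆ bdSet W (devMap ψ μ h) := fun _ hv =>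
  S.mem_bd_of_arc hv.1 ht hv.2

/-- Two geodesics seen from a connected part of the boundary set coincide. -/
lemma Setup.ctr_eq_of_preconnected {T : Set ℂ} (hT : IsPreconnected T)
    (hTB : T ⊆ bdSet W (devMap ψ μ h)) {t t' : ℝ} (ht : t ∈ jSet (gam W ψ))
    (ht' : t' ∈ jSet (gam W ψ)) {v v' : ℂ} (hv : v ∈ T) (hv' : v' ∈ T)
    (hm : mVal (gam W ψ) P h v = t) (hm' : mVal (gam W ψ) P h v' = t') :
    geoCtr (gam W ψ) P h t' = geoCtr (gam W ψ) P h t := by
  refine geoCtr_congr ?_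
  set Im' := mVal (gam W ψ) P h '' T
  have hord : Im'.OrdConnected := (hT.image _ (S.continuousOn_mVal.mono hTB)).ordConnected
  have hno : ∀ m ∈ Im', |m| < 1 ∧ m ∉ gam W ψ := by
    rintro _ ⟨u, hu, rfl⟩
    exact ⟨(S.bd_spec (hTB hu)).2.1, (S.bd_spec (hTB hu)).2.2.1⟩
  have hsub : uIcc t t' ⊆ Im' := hord.uIcc_subset ⟨v, hv, hm⟩ ⟨v', hv', hm'⟩
  refine isPreconnected_uIcc.subset_connectedComponentIn left_mem_uIcc ?_ right_mem_uIcc
  intro m hm0
  refine ⟨(hno m (hsub hm0)).1, fun hcl => ?_⟩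
  rcases eq_or_ne m t with rfl | h1
  · exact ht.2 hcl
  rcases eq_or_ne m t' with rfl | h2
  · exact ht'.2 hcl
  have hmem : m ∈ Ioo (min t t') (max t t') :=
    ⟨lt_of_le_of_ne hm0.1 fun e => by rcases min_choice t t' with h | h <;> rw [h] at e <;> simp_all,
      lt_of_le_of_ne hm0.2 fun e => by rcases max_choice t t' with h | h <;> rw [h] at e <;> simp_all⟩
  obtain ⟨q, hq, hqG⟩ := mem_closure_iff.mp hcl _ isOpen_Ioo hmem
  exact (hno q (hsub (Ioo_subset_Icc_self hq))).2 hqG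

lemma Setup.ctr_eq_of_arc {t t' : ℝ} (ht : t ∈ jSet (gam W ψ)) (ht' : t' ∈ jSet (gam W ψ))
    {v : ℂ} (hv : v ∈ arcC (geoCtr (gam W ψ) P h t)) (hv' : v ∈ arcC (geoCtr (gam W ψ) P h t')) :
    geoCtr (gam W ψ) P h t' = geoCtr (gam W ψ) P h t := by
  obtain ⟨u, hu, -, hu1, hum⟩ := S.dir_yPt ht
  obtain ⟨u', hu', -, hu1', hum'⟩ := S.dir_yPt ht'
  exact S.ctr_eq_of_preconnected
    ((isPreconnected_arcC (S.one_lt_norm_ctr ht)).union v hv hv'
      (isPreconnected_arcC (S.one_lt_norm_ctr ht')))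
    (union_subset (S.arcC_subset ht) (S.arcC_subset ht')) ht ht' (Or.inl ⟨hu, hu1.le⟩)
    (Or.inr ⟨hu', hu1'.le⟩) hum hum'

/-- No open arc of the boundary set lies entirely on the limit circle. -/
lemma Setup.no_free_arc {v₀ : ℂ} (hv₀ : ‖v₀‖ = 1) {a b : ℝ} (hab : a < b)
    (hfree : ∀ θ ∈ Ioo a b, v₀ * Complex.exp ((θ : ℂ) * I) ∈ bdSet W (devMap ψ μ h) ∧
      radExt (gam W ψ) P h (v₀ * Complex.exp ((θ : ℂ) * I)) = 1) : False := by
  set u := fun θ : ℝ => v₀ * Complex.exp ((θ : ℂ) * I) with hu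
  set mm := fun θ => mVal (gam W ψ) P h (u θ) with hmm
  have hmc : ContinuousOn mm (Ioo a b) :=
    S.continuousOn_mVal.comp (Continuous.continuousOn (by rw [hu]; fun_prop))
      fun θ hθ => (hfree θ hθ).1
  have hval : ∀ θ ∈ Ioo a b, mm θ ∈ closure (gam W ψ) \ gam W ψ := fun θ hθ =>
    ⟨(S.bd_spec (hfree θ hθ).1).2.2.2 (hfree θ hθ).2, (S.bd_spec (hfree θ hθ).1).2.2.1⟩
  have hconst : ∀ θ ∈ Ioo a b, ∀ θ' ∈ Ioo a b, ¬ mm θ < mm θ' := by
    intro θ hθ θ' hθ' hlt
    have hord : (mm '' Ioo a b).OrdConnected := (isPreconnected_Ioo.image _ hmc).ordConnected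
    have hsub : ∀ m ∈ Ioo (mm θ) (mm θ'), m ∈ closure (gam W ψ) \ gam W ψ := by
      intro m hm
      obtain ⟨k, hk, rfl⟩ := hord.out (mem_image_of_mem _ hθ) (mem_image_of_mem _ hθ')
        (Ioo_subset_Icc_self hm)
      exact hval k hk
    obtain ⟨m, hm⟩ := exists_between hlt
    obtain ⟨q, hq, hqG⟩ := mem_closure_iff.mp (hsub m hm).1 _ isOpen_Ioo hm
    exact (hsub q hq).2 hqG
  set θ₀ := (a + b) / 2 with hθ₀
  set r := min ((b - a) / 2) 1 with hr
  have hrp : 0 < r := lt_min (by linarith) one_pos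
  have hre : ∀ w ∈ ball (θ₀ : ℂ) r, w.re ∈ Ioo a b := by
    intro w hw
    rw [mem_ball, dist_eq_norm] at hw
    have := (Complex.abs_re_le_norm _).trans_lt (hw.trans_le (min_le_left _ _))
    rw [Complex.sub_re, Complex.ofReal_re, abs_lt] at this
    exact ⟨by linarith [hθ₀], by linarith [hθ₀]⟩
  set e := mm θ₀ with he
  have hθ₀m : θ₀ ∈ Ioo a b := ⟨by linarith [hθ₀], by linarith [hθ₀]⟩
  set φ := fun w : ℂ => v₀ * Complex.exp (I * w) with hφ
  have hφu : ∀ w : ℂ, φ w = ((Real.exp (-w.im) : ℝ) : ℂ) * u w.re := by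
    intro w
    rw [hφ, hu]
    simp only
    rw [Complex.ofReal_exp, mul_left_comm, ← Complex.exp_add]
    congr 2
    apply Complex.ext <;> simp
  have hφA : ∀ w ∈ ball (θ₀ : ℂ) r, 0 < w.im → φ w ∈ imgA h := by
    intro w hw hwi
    rw [hφu]
    obtain ⟨-, -, hlt, -, -, -⟩ := S.radExt_spec (hfree _ (hre w hw)).1.1
    refine hlt _ (Real.exp_pos _).le ?_
    rw [(hfree _ (hre w hw)).2, Real.exp_lt_one_iff]
    linarith
  set B' := imgA h ∪ u '' Ioo a b with hB'
  have hB'cl : B' ⊆ closure (imgA h) := by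
    refine union_subset subset_closure ?_
    rintro _ ⟨θ, hθ, rfl⟩
    have := (S.radExt_spec (hfree θ hθ).1.1).2.2.2.1
    rwa [(hfree θ hθ).2, Complex.ofReal_one, one_mul] at this
  have hlim : ∀ θ ∈ Ioo a b, Tendsto P (𝓝[imgA h] (u θ)) (𝓝 ((mm θ : ℝ) : ℂ)) := by
    intro θ hθ
    have := (S.bd_spec (hfree θ hθ).1).1
    rwa [(hfree θ hθ).2, Complex.ofReal_one, one_mul] at this
  have hPA : ∀ z ∈ imgA h, Tendsto P (𝓝[imgA h] z) (𝓝 (P z)) := fun z hz =>
    (S.stage.diff.continuousOn.continuousAt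
      (isOpen_ball.mem_nhds (S.imgA_subset hz))).mono_left nhdsWithin_le_nhds
  have hext : ContinuousOn (extendFrom (imgA h) P) B' := by
    refine continuousOn_extendFrom hB'cl ?_
    rintro z (hz | ⟨θ, hθ, rfl⟩)
    exacts [⟨_, hPA z hz⟩, ⟨_, hlim θ hθ⟩]
  set g := fun w : ℂ => if 0 ≤ w.im then extendFrom (imgA h) P (φ w) - (e : ℂ) else 0 with hg
  have hreal : ∀ w ∈ ball (θ₀ : ℂ) r, w.im = 0 → φ w = u w.re := fun w _ hwi => by
    rw [hφu, hwi]; simp
  have hgd : DifferentiableOn ℂ g (ball (θ₀ : ℂ) r) := by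
    refine differentiableOn_of_off_real ?_ ?_
    · refine ContinuousOn.if ?_ ?_ continuousOn_const
      · rintro w ⟨hw, hwf⟩
        rw [Complex.frontier_setOfPred_le_im] at hwf
        rw [hreal w hw hwf, extendFrom_eq (hB'cl (Or.inr (mem_image_of_mem u (hre w hw))))
          (hlim _ (hre w hw)), sub_eq_zero]
        congr 1
        exact le_antisymm (not_lt.mp (hconst _ hθ₀m _ (hre w hw)))
          (not_lt.mp (hconst _ (hre w hw) _ hθ₀m))
      · refine (hext.comp (Continuous.continuousOn (by rw [hφ]; fun_prop)) ?_).sub continuousOn_const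
        rintro w ⟨hw, hwc⟩
        rw [(isClosed_le continuous_const Complex.continuous_im).closure_eq] at hwc
        rcases eq_or_lt_of_le (show (0:ℝ) ≤ w.im from hwc) with h0 | h0
        · exact Or.inr ⟨w.re, hre w hw, (hreal w hw h0.symm).symm⟩
        · exact Or.inl (hφA w hw h0)
    · intro w hw hwi
      rcases lt_or_gt_of_ne hwi with h0 | h0
      · refine (differentiableAt_const (0:ℂ)).congr_of_eventuallyEq ?_
        filter_upwards [(isOpen_lt Complex.continuous_im continuous_const).mem_nhds h0] with z hz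
        simp [hg, not_le.mpr (show z.im < 0 from hz)]
      · have hd : DifferentiableAt ℂ (fun z => P (φ z) - (e : ℂ)) w :=
          ((S.stage.diff.differentiableAt (isOpen_ball.mem_nhds
            (S.imgA_subset (hφA w hw h0)))).comp (f := φ) w (by rw [hφ]; fun_prop)).sub_const _
        refine hd.congr_of_eventuallyEq ?_
        filter_upwards [isOpen_ball.mem_nhds hw, isOpen_upHP.mem_nhds h0] with z hz hzi
        have hzi' : 0 ≤ z.im := (show 0 < z.im from hzi).le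
        simp only [hg, hzi', if_true]
        rw [extendFrom_eq (subset_closure (hφA z hz hzi)) (hPA _ (hφA z hz hzi))]
  have hlow : (θ₀ : ℂ) - ((r / 2 : ℝ) : ℂ) * I ∈ ball (θ₀ : ℂ) r := by
    rw [mem_ball, dist_eq_norm, sub_sub_cancel_left, norm_neg, norm_mul, Complex.norm_I, mul_one,
      Complex.norm_of_nonneg (by positivity)]
    linarith
  have hzero : EqOn g 0 (ball (θ₀ : ℂ) r) :=
    (hgd.analyticOnNhd isOpen_ball).eqOn_zero_of_preconnected_of_eventuallyEq_zero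
      (convex_ball _ _).isPreconnected hlow (by
        filter_upwards [(isOpen_lt Complex.continuous_im continuous_const).mem_nhds
          (show ((θ₀ : ℂ) - ((r / 2 : ℝ) : ℂ) * I).im < 0 by simp [hrp])] with z hz
        simp [hg, not_le.mpr (show z.im < 0 from hz)])
  set w₁ := (θ₀ : ℂ) + ((r / 2 : ℝ) : ℂ) * I with hw₁
  have hw1 : w₁ ∈ ball (θ₀ : ℂ) r := by
    rw [mem_ball, dist_eq_norm, hw₁, add_sub_cancel_left, norm_mul, Complex.norm_I, mul_one,
      Complex.norm_of_nonneg (by positivity)]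
    linarith
  have hi1 : 0 < w₁.im := by simp [hw₁, hrp]
  have hA1 := hφA w₁ hw1 hi1
  have h1 := hzero hw1
  simp only [hg, hi1.le, if_true, Pi.zero_apply] at h1
  rw [extendFrom_eq (subset_closure hA1) (hPA _ hA1), sub_eq_zero] at h1
  have h2 : 0 < (P (φ w₁)).im := (S.P_mem hA1).1.2
  rw [h1] at h2
  simp at h2

/-- A connected part of the boundary set with two points lies on one closed arc. -/
lemma Setup.arc_of_preconnected {x₀ : ℂ} (hx₀ : x₀ ∈ W) (hx₀i : x₀.im = 0) {T : Set ℂ}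
    (hT : IsPreconnected T) (hTB : T ⊆ bdSet W (devMap ψ μ h)) {v₀ v₁ : ℂ} (h₀ : v₀ ∈ T)
    (h₁ : v₁ ∈ T) (hne : v₀ ≠ v₁) :
    ∃ t ∈ jSet (gam W ψ), T ⊆ arcC (geoCtr (gam W ψ) P h t) := by
  obtain ⟨L, hL, -, -, hLe⟩ := S.reflData.real_spec hx₀ hx₀i
  have hLB : L ∉ bdSet W (devMap ψ μ h) := fun hb => hb.2 x₀ hx₀ hx₀i hLe
  set u := fun θ : ℝ => -L * Complex.exp ((θ : ℂ) * I) with hu
  set θf := fun v => Complex.arg (v * -conj L) with hθf
  have hθv : ∀ v ∈ bdSet W (devMap ψ μ h), u (θf v) = v := by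
    intro v hv
    have h := Complex.norm_mul_exp_arg_mul_I (v * -conj L)
    rw [norm_mul, norm_neg, Complex.norm_conj, hL, hv.1, one_mul, Complex.ofReal_one, one_mul] at h
    rw [hu, hθf]
    simp only
    rw [h, show -L * (v * -conj L) = v * (L * conj L) by ring, Complex.mul_conj', hL]
    simp
  have hθc : ContinuousOn θf T := by
    intro v hv
    have hslit : v * -conj L ∈ Complex.slitPlane := by
      rw [Complex.mem_slitPlane_iff_arg]
      refine ⟨fun e => hLB ?_, ?_⟩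
      · have h := hθv v (hTB hv)
        rw [hu, hθf] at h
        simp only at h
        rw [e, Complex.exp_pi_mul_I] at h
        have : L = v := by rw [← h]; ring
        rw [this]; exact hTB hv
      · intro e
        have := congrArg norm e
        simp [hL, (hTB hv).1] at this
    exact ((Complex.continuousAt_arg hslit).comp (f := fun v => v * -conj L)
      (by fun_prop)).continuousWithinAt
  have hord : (θf '' T).OrdConnected := (hT.image _ hθc).ordConnected
  have hmemT : ∀ θ ∈ θf '' T, u θ ∈ T := by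
    rintro _ ⟨v, hv, rfl⟩; rw [hθv v (hTB hv)]; exact hv
  have hneθ : θf v₀ ≠ θf v₁ := fun e => hne (by
    rw [← hθv v₀ (hTB h₀), e, hθv v₁ (hTB h₁)])
  have find : ∀ a b : ℝ, a < b → (∀ θ ∈ Ioo a b, θ ∈ θf '' T) →
      ∃ θ ∈ Ioo a b, radExt (gam W ψ) P h (u θ) < 1 := by
    intro a b hab hin
    by_contra hcon
    push Not at hcon
    refine S.no_free_arc (v₀ := -L) (by rw [norm_neg, hL]) hab fun θ hθ => ?_
    have hB := hTB (hmemT θ (hin θ hθ))
    exact ⟨hB, le_antisymm (S.radExt_spec hB.1).2.1 (hcon θ hθ)⟩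
  obtain ⟨θ₁, hθ₁, hτ₁⟩ := find (min (θf v₀) (θf v₁)) (max (θf v₀) (θf v₁))
    (min_lt_max.mpr hneθ) fun θ hθ =>
      hord.uIcc_subset (mem_image_of_mem _ h₀) (mem_image_of_mem _ h₁) (Ioo_subset_Icc_self hθ)
  have hθ₁T : θ₁ ∈ θf '' T :=
    hord.uIcc_subset (mem_image_of_mem _ h₀) (mem_image_of_mem _ h₁) (Ioo_subset_Icc_self hθ₁)
  obtain ⟨t, ht, -, htR, htm⟩ := S.radExt_lt_one (hTB (hmemT _ hθ₁T)).1 hτ₁
  refine ⟨t, ht, fun v hv => ?_⟩
  set c := geoCtr (gam W ψ) P h t with hc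
  by_contra hvarc
  have hvR : (v * conj c).re < 1 := not_le.mp fun h' => hvarc ⟨(hTB hv).1, h'⟩
  have hev : ∀ᶠ θ in 𝓝 (θf v), (u θ * conj c).re < 1 :=
    (show Continuous fun θ => (u θ * conj c).re by rw [hu]; fun_prop).continuousAt.tendsto.eventually
      (gt_mem_nhds (by rwa [hθv v (hTB hv)]))
  obtain ⟨δ, hδ, hδ'⟩ := Metric.eventually_nhds_iff.mp hev
  have hne1 : θf v ≠ θ₁ := fun e => by
    rw [← e, hθv v (hTB hv)] at htR
    linarith
  obtain ⟨a, b, hab, hin, hsmall⟩ : ∃ a b, a < b ∧ (∀ θ ∈ Ioo a b, θ ∈ θf '' T) ∧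
      ∀ θ ∈ Ioo a b, dist θ (θf v) < δ := by
    have hsub := hord.uIcc_subset (mem_image_of_mem _ hv) hθ₁T
    rcases lt_or_gt_of_ne hne1 with h' | h'
    · refine ⟨θf v, min θ₁ (θf v + δ), lt_min h' (by linarith),
        fun θ hθ => hsub ?_, fun θ hθ => ?_⟩
      · rw [uIcc_of_le h'.le]; exact ⟨hθ.1.le, hθ.2.le.trans (min_le_left _ _)⟩
      · rw [Real.dist_eq, abs_lt]
        constructor <;> linarith [hθ.1, hθ.2, min_le_right θ₁ (θf v + δ)]
    · refine ⟨max θ₁ (θf v - δ), θf v, max_lt h' (by linarith),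
        fun θ hθ => hsub ?_, fun θ hθ => ?_⟩
      · rw [uIcc_of_ge h'.le]; exact ⟨(le_max_left _ _).trans hθ.1.le, hθ.2.le⟩
      · rw [Real.dist_eq, abs_lt]
        constructor <;> linarith [hθ.1, hθ.2, le_max_right θ₁ (θf v - δ)]
  obtain ⟨θ₂, hθ₂, hτ₂⟩ := find a b hab hin
  obtain ⟨t', ht', -, htR', htm'⟩ := S.radExt_lt_one (hTB (hmemT _ (hin _ hθ₂))).1 hτ₂
  have := S.ctr_eq_of_preconnected hT hTB ht ht' (hmemT _ hθ₁T) (hmemT _ (hin _ hθ₂)) htm htm'
  rw [this, ← hc] at htR'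
  linarith [hδ' (hsmall _ hθ₂)]

lemma Setup.coe_mem_image_iff {z : ℂ} :
    (z : OnePoint ℂ) ∈ reflExt (devMap ψ μ h) '' W ↔
      z ∈ imgA h ∨ (1 < ‖z‖ ∧ (conj z)⁻¹ ∈ imgA h) ∨ (‖z‖ = 1 ∧ z ∉ bdSet W (devMap ψ μ h)) := by
  constructor
  · rintro ⟨x, hx, hxe⟩
    rcases S.reflData.cases hx hxe with ⟨hi, -⟩ | ⟨hi, h1⟩ | ⟨hi, h1⟩
    · rw [S.reflData.reflExt_upper ⟨hx, hi⟩, OnePoint.coe_eq_coe] at hxe
      exact Or.inl (S.devMap_image ▸ ⟨x, ⟨hx, hi⟩, hxe⟩)
    · exact Or.inr (Or.inr ⟨h1, fun hb => hb.2 x hx hi hxe⟩)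
    · refine Or.inr (Or.inl ⟨h1, ?_⟩)
      rw [S.reflData.reflExt_lower hx hi] at hxe
      obtain ⟨hne, rfl⟩ := circRefl_eq_coe hxe
      rw [← S.devMap_image]
      exact ⟨conj x, ⟨S.refl.symm x hx, by simp [upHP, hi]⟩, by simp⟩
  · rintro (hz | ⟨h1, hz⟩ | ⟨h1, hz⟩)
    · rw [← S.devMap_image] at hz
      obtain ⟨x, hx, rfl⟩ := hz
      exact ⟨x, hx.1, S.reflData.reflExt_upper hx⟩
    · rw [← S.devMap_image] at hz
      obtain ⟨x, hx, hxe⟩ := hz
      have hz0 : z ≠ 0 := fun e => by simp [e] at h1; linarith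
      refine ⟨conj x, S.refl.symm x hx.1, ?_⟩
      have hi : (conj x).im < 0 := by simp; exact hx.2
      rw [S.reflData.reflExt_lower (S.refl.symm x hx.1) hi, Complex.conj_conj, hxe, circRefl,
        if_neg (by simpa using hz0)]
      simp
    · by_contra hno
      exact hz ⟨h1, fun x hx _ hxe => hno ⟨x, hx, hxe⟩⟩

omit S in
lemma qform_inv {c z : ℂ} (hz : z ≠ 0) :
    qform c (conj z)⁻¹ = qform c z / Complex.normSq z := by
  have hn : Complex.normSq z ≠ 0 := Complex.normSq_eq_zero.not.mpr hz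
  have e : (conj z)⁻¹ = z / ((Complex.normSq z : ℝ) : ℂ) := by
    rw [← Complex.mul_conj, eq_div_iff (mul_ne_zero hz ((map_ne_zero _).mpr hz))]
    field_simp
    exact div_self ((map_ne_zero _).mpr hz)
  rw [qform, qform, e, map_div₀, Complex.normSq_ofReal, div_mul_eq_mul_div, Complex.div_ofReal_re]
  field_simp
  ring

lemma Setup.notMem_image_iff {z : ℂ} :
    (z : OnePoint ℂ) ∉ reflExt (devMap ψ μ h) '' W ↔
      z ∈ bdSet W (devMap ψ μ h) ∨
        ∃ t ∈ jSet (gam W ψ), qform (geoCtr (gam W ψ) P h t) z ≤ 0 := by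
  rw [S.coe_mem_image_iff]
  constructor
  · intro hno
    by_contra hcon
    push Not at hcon
    obtain ⟨hB, hq⟩ := hcon
    rcases lt_trichotomy ‖z‖ 1 with h' | h' | h'
    · exact hno (Or.inl (S.mem_imgA_of (mem_ball_zero_iff.mpr h') hq))
    · exact hno (Or.inr (Or.inr ⟨h', hB⟩))
    · refine hno (Or.inr (Or.inl ⟨h', S.mem_imgA_of ?_ fun t ht => ?_⟩))
      · rw [mem_ball_zero_iff, norm_inv, Complex.norm_conj]; exact inv_lt_one_of_one_lt₀ h'
      · have hz0 : z ≠ 0 := fun e => by simp [e] at h'; linarith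
        rw [qform_inv hz0]
        exact div_pos (hq t ht) (Complex.normSq_pos.mpr hz0)
  · rintro hK (hA | ⟨h1, hA⟩ | ⟨h1, hB⟩)
    · rcases hK with hB | ⟨t, ht, hq⟩
      · have := mem_ball_zero_iff.mp (S.imgA_subset hA)
        rw [hB.1] at this; exact lt_irrefl _ this
      · linarith [S.qform_pos_of_mem hA ht]
    · rcases hK with hB | ⟨t, ht, hq⟩
      · linarith [hB.1]
      · have hz0 : z ≠ 0 := fun e => by simp [e] at h1; linarith
        have := S.qform_pos_of_mem hA ht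
        rw [qform_inv hz0] at this
        linarith [(div_pos_iff_of_pos_right (Complex.normSq_pos.mpr hz0)).mp this]
    · rcases hK with hB' | ⟨t, ht, hq⟩
      · exact hB hB'
      · refine hB ?_
        have := radProj_mem_arcC (fun e => by simp [e] at h1) hq
        rw [radProj_of_norm_one h1] at this
        exact S.arcC_subset ht this

lemma Setup.component_shape {x₀ : ℂ} (hx₀ : x₀ ∈ W) (hx₀i : x₀.im = 0) {z : ℂ}
    (hz : (z : OnePoint ℂ) ∉ reflExt (devMap ψ μ h) '' W) :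
    connectedComponentIn {w : ℂ | (w : OnePoint ℂ) ∉ reflExt (devMap ψ μ h) '' W} z = {z} ∨
    ∃ c : ℂ, ∃ r : ℝ, 0 < r ∧
      connectedComponentIn {w : ℂ | (w : OnePoint ℂ) ∉ reflExt (devMap ψ μ h) '' W} z =
        closedBall c r := by
  set K := {w : ℂ | (w : OnePoint ℂ) ∉ reflExt (devMap ψ μ h) '' W} with hK
  set C := connectedComponentIn K z with hCdef
  have hzC : z ∈ C := mem_connectedComponentIn hz
  have hCK : C ⊆ K := connectedComponentIn_subset _ _
  have hCp : IsPreconnected C := isPreconnected_connectedComponentIn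
  have hK0 : ∀ w ∈ K, w ≠ 0 := fun w hw e => hw (S.coe_mem_image_iff.mpr
    (Or.inl (e ▸ S.zero_mem_imgA)))
  have hproj : ∀ w ∈ K, radProj w ∈ bdSet W (devMap ψ μ h) := by
    intro w hw
    rcases S.notMem_image_iff.mp hw with hB | ⟨t, ht, hq⟩
    · rw [radProj_of_norm_one hB.1]; exact hB
    · exact S.arcC_subset ht (radProj_mem_arcC (hK0 w hw) hq)
  have hpc : ContinuousOn radProj C := by
    unfold radProj
    exact continuousOn_id.div (Complex.continuous_ofReal.comp continuous_norm).continuousOn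
      fun w hw => Complex.ofReal_ne_zero.mpr (norm_ne_zero_iff.mpr (hK0 w (hCK hw)))
  set T := radProj '' C with hT
  have hTp : IsPreconnected T := hCp.image _ hpc
  have hTB : T ⊆ bdSet W (devMap ψ μ h) := by
    rintro _ ⟨w, hw, rfl⟩; exact hproj w (hCK hw)
  by_cases hdisc : ∃ w ∈ C, ∃ t ∈ jSet (gam W ψ), qform (geoCtr (gam W ψ) P h t) w ≤ 0
  · obtain ⟨w, hwC, t, ht, hq⟩ := hdisc
    set c := geoCtr (gam W ψ) P h t with hc
    have hc1 : 1 < ‖c‖ := S.one_lt_norm_ctr ht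
    have hball := setOf_qform_le hc1
    have hsubK : {z | qform c z ≤ 0} ⊆ K := fun y hy => S.notMem_image_iff.mpr (Or.inr ⟨t, ht, hy⟩)
    have hsubC : {z | qform c z ≤ 0} ⊆ C := by
      rw [hCdef, connectedComponentIn_eq hwC]
      exact (hball ▸ (convex_closedBall _ _).isPreconnected :
        IsPreconnected {z | qform c z ≤ 0}).subset_connectedComponentIn hq hsubK
    refine Or.inr ⟨c, √(‖c‖ ^ 2 - 1), Real.sqrt_pos.mpr (by nlinarith), ?_⟩
    rw [← hball]
    refine Subset.antisymm ?_ hsubC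
    obtain ⟨v, hv, hvne⟩ := arcC_endpoint hc1
    have hqv : qform c v ≤ 0 := by
      rw [qform, Complex.normSq_eq_norm_sq, hv.1]; linarith [hv.2]
    have hqc : qform c c ≤ 0 := by
      rw [qform_eq_dist, dist_self]; nlinarith
    obtain ⟨t', ht', hTarc⟩ := S.arc_of_preconnected hx₀ hx₀i hTp hTB
      (mem_image_of_mem radProj (hsubC hqv)) (mem_image_of_mem radProj (hsubC hqc))
      (by rw [radProj_of_norm_one hv.1]; exact hvne)
    have heq : geoCtr (gam W ψ) P h t' = c :=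
      S.ctr_eq_of_arc ht ht' (radProj_mem_arcC (hK0 w (hCK hwC)) hq)
        (hTarc (mem_image_of_mem radProj hwC))
    rw [heq] at hTarc
    intro y hy
    have hyarc := hTarc (mem_image_of_mem radProj hy)
    rcases S.notMem_image_iff.mp (hCK hy) with hB | ⟨t'', ht'', hq''⟩
    · rw [radProj_of_norm_one hB.1] at hyarc
      rw [mem_ofPred_eq, qform, Complex.normSq_eq_norm_sq, hB.1]
      linarith [hyarc.2]
    · have := S.ctr_eq_of_arc ht ht'' hyarc (radProj_mem_arcC (hK0 y (hCK hy)) hq'')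
      rw [this] at hq''
      exact hq''
  · push Not at hdisc
    refine Or.inl (Subset.antisymm ?_ (singleton_subset_iff.mpr hzC))
    intro y hy
    rw [mem_singleton_iff]
    by_contra hne
    have hB : ∀ w ∈ C, w ∈ bdSet W (devMap ψ μ h) := fun w hw =>
      (S.notMem_image_iff.mp (hCK hw)).resolve_right fun ⟨t, ht, hq⟩ =>
        absurd hq (not_le.mpr (hdisc w hw t ht))
    obtain ⟨t, ht, hTarc⟩ := S.arc_of_preconnected hx₀ hx₀i hTp hTB
      (mem_image_of_mem radProj hzC) (mem_image_of_mem radProj hy)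
      (by rw [radProj_of_norm_one (hB z hzC).1, radProj_of_norm_one (hB y hy).1]
          exact fun e => hne e.symm)
    have := hTarc (mem_image_of_mem radProj hzC)
    rw [radProj_of_norm_one (hB z hzC).1] at this
    have h1 := hdisc z hzC t ht
    rw [qform, Complex.normSq_eq_norm_sq, (hB z hzC).1] at h1
    linarith [this.2]

lemma Setup.isOpen_image : IsOpen (reflExt (devMap ψ μ h) '' W) := by
  have h0 : conj (pψ (halfNu (I / 2))) ∈ W ∧
      reflExt (devMap ψ μ h) (conj (pψ (halfNu (I / 2)))) = ∞ := by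
    have hb : halfNu (I / 2) ∈ ball (0:ℂ) 1 :=
      mem_ball_zero_iff.mpr ((norm_halfNu_lt_iff (halfOp_subset I_half_mem)).mpr I_half_mem)
    have hmem := S.pψ_maps hb
    refine ⟨S.refl.symm _ hmem.1, ?_⟩
    rw [S.reflData.reflExt_lower (S.refl.symm _ hmem.1) (by simp; exact hmem.2),
      Complex.conj_conj, devMap, S.pψ_right _ hb, S.μ_left _ (halfOp_subset I_half_mem), S.h_zero,
      circRefl, if_pos rfl]
  rw [OnePoint.isOpen_iff_of_mem (show ∞ ∈ reflExt (devMap ψ μ h) '' W from ⟨_, h0⟩)]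
  have hopen : IsOpen ((fun z : ℂ => (z : OnePoint ℂ)) ⁻¹' (reflExt (devMap ψ μ h) '' W)) := by
    rw [isOpen_iff_mem_nhds]
    intro z hz
    rcases S.coe_mem_image_iff.mp hz with hA | ⟨h1, hA⟩ | ⟨h1, hB⟩
    · filter_upwards [S.isOpen_imgA.mem_nhds hA] with y hy
        using S.coe_mem_image_iff.mpr (Or.inl hy)
    · have hne : conj z ≠ 0 := by
        rw [map_ne_zero]; intro e; simp [e] at h1; linarith
      filter_upwards [continuous_norm.continuousAt.tendsto.eventually (lt_mem_nhds h1),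
        (Complex.continuous_conj.continuousAt.inv₀ hne).eventually_mem
          (S.isOpen_imgA.mem_nhds hA)] with y hy1 hy2
      exact S.coe_mem_image_iff.mpr (Or.inr (Or.inl ⟨hy1, hy2⟩))
    · obtain ⟨x, hx, hxe⟩ := hz
      have hxi : x.im = 0 := by
        rcases S.reflData.cases hx hxe with ⟨-, h⟩ | ⟨h, -⟩ | ⟨-, h⟩
        · linarith
        · exact h
        · linarith
      filter_upwards [S.reflData.image_mem_nhds hx hxi (Filter.univ_mem (f := 𝓝 x)) hxe] with y hy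
      obtain ⟨q, hq, hqe⟩ := hy
      exact ⟨q, hq.2, hqe⟩
  refine ⟨hopen.isClosed_compl, ?_⟩
  obtain ⟨ε, hε, hεA⟩ := Metric.isOpen_iff.mp S.isOpen_imgA 0 S.zero_mem_imgA
  refine Metric.isCompact_of_isClosed_isBounded hopen.isClosed_compl
    ((isBounded_closedBall (x := (0:ℂ)) (r := max 1 (1 / ε))).subset fun z hz => ?_)
  rw [mem_closedBall_zero_iff]
  by_contra hbig
  rw [not_le, max_lt_iff] at hbig
  refine hz (S.coe_mem_image_iff.mpr (Or.inr (Or.inl ⟨hbig.1, hεA ?_⟩)))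
  rw [mem_ball_zero_iff, norm_inv, Complex.norm_conj, inv_lt_iff_one_lt_mul₀ (by linarith)]
  have := hbig.2
  rw [div_lt_iff₀ hε] at this
  linarith

end Vale.Agent.P116
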