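import Mathlib
import Vale.Agent.P116.Components

/-!
# Symmetric domains are conformally equivalent to circle domains
-/

open Set Filter Metric Complex
open scoped Topology ComplexConjugate OnePoint

namespace Vale.Agent.P116

/-- The case of a symmetric domain avoiding infinity. -/
theorem exists_circle_map {W : Set ℂ} (hW : IsOpen W) (hWc : IsPreconnected W)
    (hs : ∀ z ∈ W, conj z ∈ W) {x₀ : ℂ} (hx₀ : x₀ ∈ W) (hx₀i : x₀.im = 0)
    (hcomp : ∀ a : ℂ, a ∉ W → (connectedComponentIn ((fun z : ℂ => (z : OnePoint ℂ)) '' W)ᶜ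
      (a : OnePoint ℂ) ∩ sphRealLine).Nonempty) :
    ∃ F : ℂ → OnePoint ℂ, InjOn F W ∧ (∀ z ∈ W, ContinuousAt F z) ∧
      (∀ z ∈ W, DifferentiableAt ℂ (fun w => finVal (sphChart (F z) (F w))) z) ∧
      IsCircleDomain (F '' W) := by
  obtain ⟨ψ, pψ, μ, P, h, S⟩ := exists_setup hW hWc hs hx₀ hx₀i hcomp
  refine ⟨reflExt (devMap ψ μ h), S.reflData.injOn, fun z hz => S.reflData.continuousAt hz,
    fun z hz => S.reflData.differentiableAt hz, S.isOpen_image,
    ⟨⟨_, mem_image_of_mem _ hx₀⟩, hWc.image _
      fun z hz => (S.reflData.continuousAt hz).continuousWithinAt⟩, ?_⟩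
  intro x hx
  set Ω := reflExt (devMap ψ μ h) '' W with hΩ
  have hinf : (∞ : OnePoint ℂ) ∈ Ω := by
    have hb : halfNu (I / 2) ∈ ball (0:ℂ) 1 :=
      mem_ball_zero_iff.mpr ((norm_halfNu_lt_iff (halfOp_subset I_half_mem)).mpr I_half_mem)
    have hmem := S.pψ_maps hb
    refine ⟨conj (pψ (halfNu (I / 2))), hs _ hmem.1, ?_⟩
    rw [S.reflData.reflExt_lower (hs _ hmem.1) (by simp; exact hmem.2), Complex.conj_conj, devMap,
      S.pψ_right _ hb, S.μ_left _ (halfOp_subset I_half_mem), S.h_zero, circRefl, if_pos rfl]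
  obtain ⟨z, rfl⟩ := OnePoint.ne_infty_iff_exists.mp (fun e : x = ∞ => hx (e ▸ hinf))
  set K := {w : ℂ | (w : OnePoint ℂ) ∉ Ω} with hK
  set co := fun w : ℂ => (w : OnePoint ℂ) with hco
  have heq : connectedComponentIn Ωᶜ (z : OnePoint ℂ) = co '' connectedComponentIn K z := by
    have hind : Topology.IsInducing co := OnePoint.isOpenEmbedding_coe.isInducing
    have hsub : connectedComponentIn Ωᶜ (z : OnePoint ℂ) ⊆ range co := by
      intro y hy
      obtain ⟨u, hu⟩ := OnePoint.ne_infty_iff_exists.mp
        (fun e : y = ∞ => connectedComponentIn_subset _ _ hy (e ▸ hinf))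
      exact ⟨u, hu⟩
    refine Subset.antisymm ?_ ?_
    · set D := co ⁻¹' connectedComponentIn Ωᶜ (z : OnePoint ℂ) with hD
      have hDe : co '' D = connectedComponentIn Ωᶜ (z : OnePoint ℂ) :=
        image_preimage_eq_of_subset hsub
      rw [← hDe]
      refine image_mono ?_
      have hDp : IsPreconnected D :=
        hind.isPreconnected_image.mp (hDe ▸ isPreconnected_connectedComponentIn)
      exact hDp.subset_connectedComponentIn (mem_connectedComponentIn (by simpa using hx))
        fun w hw => connectedComponentIn_subset Ωᶜ (z : OnePoint ℂ) hw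
    · refine (isPreconnected_connectedComponentIn.image co
        OnePoint.continuous_coe.continuousOn).subset_connectedComponentIn
        (mem_image_of_mem co (mem_connectedComponentIn (F := K) hx)) ?_
      rintro _ ⟨w, hw, rfl⟩
      exact connectedComponentIn_subset K z hw
  rcases S.component_shape hx₀ hx₀i hx with h1 | ⟨c, r, hr, h1⟩
  · left
    rw [heq, hK, h1, image_singleton]
  · right
    refine ⟨Matrix.GeneralLinearGroup.mkOfDetNeZero !![(r : ℂ), c; 0, 1]
      (by simp [Matrix.det_fin_two, hr.ne']), ?_⟩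
    rw [heq, hK, h1, image_image]
    ext y
    simp only [mem_image]
    constructor
    · rintro ⟨w, hw, rfl⟩
      refine ⟨(w - c) / r, ?_, ?_⟩
      · rw [mem_closedBall_zero_iff, norm_div, Complex.norm_of_nonneg hr.le, div_le_one hr,
          ← dist_eq_norm]
        exact hw
      · rw [OnePoint.smul_some_eq_ite]
        simp [hco, Matrix.GeneralLinearGroup.mkOfDetNeZero, hr.ne', mul_div_cancel₀]
    · rintro ⟨w, hw, rfl⟩
      refine ⟨(r : ℂ) * w + c, ?_, ?_⟩
      · rw [mem_closedBall, dist_eq_norm, add_sub_cancel_right, norm_mul,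
          Complex.norm_of_nonneg hr.le]
        rw [mem_closedBall_zero_iff] at hw
        nlinarith
      · rw [OnePoint.smul_some_eq_ite]
        simp [hco, Matrix.GeneralLinearGroup.mkOfDetNeZero]

lemma continuous_sphInv : Continuous sphInv := by
  rw [continuous_iff_continuousAt]
  intro x
  induction x using OnePoint.rec with
  | infty =>
    rw [OnePoint.continuousAt_infty']
    show Tendsto (fun z : ℂ => sphInv (z : OnePoint ℂ)) (coclosedCompact ℂ) (𝓝 (sphInv ∞))
    rw [sphInv_infty, coclosedCompact_eq_cocompact, ← Metric.cobounded_eq_cocompact]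
    refine Tendsto.congr' (f₁ := fun z : ℂ => ((z⁻¹ : ℂ) : OnePoint ℂ)) ?_
      ((OnePoint.continuous_coe.tendsto 0).comp tendsto_inv₀_cobounded)
    filter_upwards [hasBasis_cobounded_compl_closedBall (0 : ℂ) |>.mem_of_mem
      (i := (1:ℝ)) trivial] with z hz
    exact (sphInv_coe fun e => hz (by simp [e])).symm
  | coe v => exact continuousAt_sphInv_coe

lemma sphInv_sphInv (x : OnePoint ℂ) : sphInv (sphInv x) = x := by
  induction x using OnePoint.rec with
  | infty => simp
  | coe v =>
    rcases eq_or_ne v 0 with rfl | hv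
    · simp
    · rw [sphInv_coe hv, sphInv_coe (inv_ne_zero hv), inv_inv]

lemma continuous_sphChart (x : OnePoint ℂ) : Continuous (sphChart x) := by
  induction x using OnePoint.rec with
  | infty => exact continuous_sphInv
  | coe v => exact continuous_id

lemma sphChart_self_ne_infty (x : OnePoint ℂ) :
    sphChart x x = ((finVal (sphChart x x) : ℂ) : OnePoint ℂ) := by
  induction x using OnePoint.rec with
  | infty => simp
  | coe v => simp

lemma sphChart_chart (x : OnePoint ℂ) : sphChart x (sphChart x x) = x := by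
  induction x using OnePoint.rec with
  | infty => simp
  | coe v => simp

/-- The theorem after moving infinity out of the domain by a homeomorphism `M`. -/
lemma equiv_circle_of_move {G : Set (OnePoint ℂ)} (hGo : IsOpen G) (hGc : IsConnected G)
    (hGs : ∀ x ∈ G, sphConj x ∈ G)
    (hcomp : ∀ x ∉ G, (connectedComponentIn Gᶜ x ∩ sphRealLine).Nonempty)
    (M : OnePoint ℂ ≃ₜ OnePoint ℂ) (hMc : ∀ x, M (sphConj x) = sphConj (M x))
    (hMR : ∀ x ∈ sphRealLine, M x ∈ sphRealLine) (hMinf : ∞ ∉ M '' G)
    (hMd : ∀ x ∈ G, DifferentiableAt ℂ (fun z : ℂ => finVal (M (sphChart x (z : OnePoint ℂ))))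
      (finVal (sphChart x x))) :
    ∃ Ω, IsCircleDomain Ω ∧ ConformallyEquiv G Ω := by
  set co := fun z : ℂ => (z : OnePoint ℂ) with hco
  set W := co ⁻¹' (M '' G) with hWdef
  have hcoW : co '' W = M '' G := image_preimage_eq_of_subset fun y hy => by
    obtain ⟨u, hu⟩ := OnePoint.ne_infty_iff_exists.mp (fun e : y = ∞ => hMinf (e ▸ hy))
    exact ⟨u, hu⟩
  have hWo : IsOpen W := (M.isOpenMap G hGo).preimage OnePoint.continuous_coe
  have hWc : IsPreconnected W := OnePoint.isOpenEmbedding_coe.isInducing.isPreconnected_image.mp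
    (by rw [show ((↑) : ℂ → OnePoint ℂ) = co from rfl, hcoW]
        exact hGc.isPreconnected.image M M.continuous.continuousOn)
  have hWs : ∀ z ∈ W, conj z ∈ W := by
    intro z hz
    obtain ⟨g, hg, hge⟩ := hz
    exact ⟨sphConj g, hGs g hg, by rw [hMc, hge]; rfl⟩
  obtain ⟨x₀, hx₀, hx₀i⟩ : ∃ x₀ ∈ W, x₀.im = 0 := by
    by_contra hno
    push Not at hno
    obtain ⟨g, hg⟩ := hGc.nonempty
    obtain ⟨z, hz⟩ : M g ∈ co '' W := hcoW ▸ mem_image_of_mem M hg
    have hz1 := hz.1
    obtain ⟨p, hp, hpp⟩ : ∃ p ∈ W, 0 < p.im := by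
      rcases lt_or_gt_of_ne (hno z hz1) with h | h
      · exact ⟨conj z, hWs z hz1, by simpa using h⟩
      · exact ⟨z, hz1, h⟩
    obtain ⟨q, hq, hqu, hqv⟩ := hWc {w | 0 < w.im} {w | w.im < 0}
      (isOpen_lt continuous_const Complex.continuous_im)
      (isOpen_lt Complex.continuous_im continuous_const)
      (fun w hw => (lt_or_gt_of_ne (hno w hw)).symm)
      ⟨p, hp, hpp⟩ ⟨conj p, hWs p hp, by simpa using hpp⟩
    exact lt_asymm (show 0 < q.im from hqu) hqv
  have hWcomp : ∀ a : ℂ, a ∉ W → (connectedComponentIn (co '' W)ᶜ (a : OnePoint ℂ) ∩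
      sphRealLine).Nonempty := by
    intro a ha
    rw [hcoW]
    have hx : M.symm (a : OnePoint ℂ) ∉ G := fun hh => ha ⟨_, hh, M.apply_symm_apply _⟩
    obtain ⟨q, hq, hqR⟩ := hcomp _ hx
    refine ⟨M q, ?_, hMR q hqR⟩
    refine (isPreconnected_connectedComponentIn.image M
      M.continuous.continuousOn).subset_connectedComponentIn ?_ ?_ (mem_image_of_mem M hq)
    · exact ⟨_, mem_connectedComponentIn hx, M.apply_symm_apply _⟩
    · rintro _ ⟨y, hy, rfl⟩ ⟨g, hg, hge⟩
      exact connectedComponentIn_subset _ _ hy (M.injective hge ▸ hg)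
  obtain ⟨F, hFi, hFc, hFd, hFΩ⟩ := exists_circle_map hWo hWc hWs hx₀ hx₀i hWcomp
  set Fs : OnePoint ℂ → OnePoint ℂ := fun y => OnePoint.rec ∞ F y with hFs
  have hFs' : ∀ z : ℂ, Fs (z : OnePoint ℂ) = F z := fun z => rfl
  have hrep : ∀ g ∈ G, ∃ z ∈ W, M g = (z : OnePoint ℂ) := fun g hg => by
    obtain ⟨z, hz, hze⟩ : M g ∈ co '' W := hcoW ▸ mem_image_of_mem M hg
    exact ⟨z, hz, hze.symm⟩
  refine ⟨F '' W, hFΩ, fun y => Fs (M y), ⟨?_, ?_, ?_⟩, ?_⟩
  · intro g hg
    obtain ⟨z, hz, hze⟩ := hrep g hg
    refine ⟨z, hz, ?_⟩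
    show F z = Fs (M g)
    rw [hze]
    exact (hFs' z).symm
  · intro g hg g' hg' e
    obtain ⟨z, hz, hze⟩ := hrep g hg
    obtain ⟨z', hz', hze'⟩ := hrep g' hg'
    simp only [hze, hze', hFs'] at e
    exact M.injective (by rw [hze, hze', hFi hz hz' e])
  · rintro _ ⟨z, hz, rfl⟩
    obtain ⟨g, hg, hge⟩ := hz
    exact ⟨g, hg, by simp only [hge]; exact hFs' z⟩
  · intro g hg
    obtain ⟨z, hz, hze⟩ := hrep g hg
    have hcF : ContinuousAt Fs (z : OnePoint ℂ) := by
      rw [OnePoint.continuousAt_coe]; exact hFc z hz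
    refine ⟨?_, ?_⟩
    · rw [← hze] at hcF
      exact hcF.comp M.continuous.continuousAt
    · set a := finVal (sphChart g g) with ha
      have hga : sphChart g (a : OnePoint ℂ) = g := by
        rw [ha, ← sphChart_self_ne_infty, sphChart_chart]
      have hval : finVal (M (sphChart g (a : OnePoint ℂ))) = z := by rw [hga, hze, finVal_coe]
      have hev : ∀ᶠ w : ℂ in 𝓝 a, M (sphChart g (w : OnePoint ℂ)) ∈ range co :=
        ((M.continuous.comp ((continuous_sphChart g).comp OnePoint.continuous_coe)).continuousAt).eventually_mem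
          (OnePoint.isOpen_range_coe.mem_nhds ⟨z, by
            show co z = M (sphChart g (a : OnePoint ℂ))
            rw [hga, hze]⟩)
      have hd : DifferentiableAt ℂ ((fun w => finVal (sphChart (F z) (F w))) ∘
          (fun w : ℂ => finVal (M (sphChart g (w : OnePoint ℂ))))) a := by
        refine DifferentiableAt.comp a ?_ (hMd g hg)
        rw [hval]
        exact hFd z hz
      refine hd.congr_of_eventuallyEq ?_
      filter_upwards [hev] with w hw
      obtain ⟨u, hu⟩ := hw
      simp only [Function.comp_apply, ← hu, hze, hFs', hco, finVal_coe]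

/-- Every domain symmetric about the real axis all of whose complementary components meet the
extended real axis is conformally equivalent to a circle domain. -/
theorem symmetric_koebe (G : Set (OnePoint ℂ)) (hGo : IsOpen G) (hGc : IsConnected G)
    (hGs : ∀ x ∈ G, sphConj x ∈ G)
    (hcomp : ∀ x ∉ G, (connectedComponentIn Gᶜ x ∩ sphRealLine).Nonempty) :
    ∃ Ω, IsCircleDomain Ω ∧ ConformallyEquiv G Ω := by
  by_cases huniv : G = univ
  · refine ⟨univ, ⟨isOpen_univ, huniv ▸ hGc, fun x hx => absurd (mem_univ x) hx⟩, id,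
      huniv ▸ bijOn_id _, fun x _ => ⟨continuousAt_id, ?_⟩⟩
    refine differentiableAt_id.congr_of_eventuallyEq (Filter.Eventually.of_forall fun z => ?_)
    induction x using OnePoint.rec with
    | infty => simp [sphInv_sphInv]
    | coe v => simp
  by_cases hinf : (∞ : OnePoint ℂ) ∈ G
  · obtain ⟨x, hx⟩ := (ne_univ_iff_exists_notMem G).mp huniv
    obtain ⟨q, hq, hqR⟩ := hcomp x hx
    have hqG : q ∉ G := connectedComponentIn_subset _ _ hq
    obtain ⟨e, rfl⟩ : ∃ e : ℝ, ((e : ℂ) : OnePoint ℂ) = q := by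
      rcases hqR with rfl | ⟨e, he⟩
      · exact absurd hinf hqG
      · exact ⟨e, he⟩
    set J : OnePoint ℂ ≃ₜ OnePoint ℂ :=
      { toFun := sphInv
        invFun := sphInv
        left_inv := sphInv_sphInv
        right_inv := sphInv_sphInv
        continuous_toFun := continuous_sphInv
        continuous_invFun := continuous_sphInv } with hJ
    set M := (Homeomorph.subLeft (e : ℂ)).onePointCongr.trans J with hM
    have hMcoe : ∀ z : ℂ, M (z : OnePoint ℂ) = sphInv (((e : ℂ) - z : ℂ) : OnePoint ℂ) :=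
      fun z => rfl
    have hMinfty : M ∞ = ((0:ℂ) : OnePoint ℂ) := rfl
    refine equiv_circle_of_move hGo hGc hGs hcomp M ?_ ?_ ?_ ?_
    · intro x
      induction x using OnePoint.rec with
      | infty => rw [sphConj_infty, hMinfty]; simp
      | coe v =>
        rw [sphConj_coe, hMcoe, hMcoe]
        rcases eq_or_ne v (e : ℂ) with rfl | hv
        · simp
        · have h1 : (e : ℂ) - v ≠ 0 := sub_ne_zero.mpr hv.symm
          have h2 : (e : ℂ) - conj v ≠ 0 := by
            have := (map_ne_zero (starRingEnd ℂ)).mpr h1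
            simpa using this
          rw [sphInv_coe h1, sphInv_coe h2, sphConj_coe]
          simp
    · rintro x (rfl | ⟨t, rfl⟩)
      · rw [hMinfty]; exact Or.inr ⟨0, by simp⟩
      · rw [hMcoe]
        rcases eq_or_ne ((e : ℂ) - t) 0 with h | h
        · rw [h, sphInv_zero]; exact Or.inl rfl
        · rw [sphInv_coe h]; exact Or.inr ⟨(e - t)⁻¹, by simp⟩
    · rintro ⟨g, hg, hge⟩
      apply hqG
      have : g = ((e : ℂ) : OnePoint ℂ) := by
        apply M.injective
        rw [hge, hMcoe, sub_self, sphInv_zero]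
      exact this ▸ hg
    · intro x hx
      induction x using OnePoint.rec with
      | infty =>
        simp only [sphChart_infty, sphInv_infty, finVal_coe]
        have hd : DifferentiableAt ℂ (fun z : ℂ => z / ((e : ℂ) * z - 1)) 0 :=
          differentiableAt_id.div ((differentiableAt_id.const_mul _).sub_const 1) (by simp)
        refine hd.congr_of_eventuallyEq ?_
        have hev : ∀ᶠ z : ℂ in 𝓝 0, (e : ℂ) * z - 1 ≠ 0 :=
          (show ContinuousAt (fun z : ℂ => (e : ℂ) * z - 1) 0 by fun_prop).eventually_ne (by simp)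
        filter_upwards [hev] with z hz
        rcases eq_or_ne z 0 with rfl | hz0
        · rw [sphInv_zero, hMinfty]; simp
        · have h1 : (e : ℂ) - z⁻¹ ≠ 0 := by
            intro h
            apply hz
            rw [sub_eq_zero.mp h, inv_mul_cancel₀ hz0, sub_self]
          rw [sphInv_coe hz0, hMcoe, sphInv_coe h1, finVal_coe]
          rw [eq_div_iff hz]
          field_simp
      | coe v =>
        simp only [sphChart_coe, id, finVal_coe]
        have h1 : (e : ℂ) - v ≠ 0 := sub_ne_zero.mpr fun h => hqG (h ▸ hx)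
        refine ((differentiableAt_id.const_sub (e : ℂ)).inv h1).congr_of_eventuallyEq ?_
        filter_upwards [(show ContinuousAt (fun z : ℂ => (e : ℂ) - z) v by fun_prop).eventually_ne h1]
          with z hz
        rw [hMcoe, sphInv_coe hz, finVal_coe]
        rfl
  · refine equiv_circle_of_move hGo hGc hGs hcomp (Homeomorph.refl _) (fun x => rfl)
      (fun x hx => hx) (by simpa using hinf) fun x hx => ?_
    induction x using OnePoint.rec with
    | infty => exact absurd hx hinf
    | coe v =>
      simp only [sphChart_coe, id, Homeomorph.refl_apply, finVal_coe]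
      exact differentiableAt_id

end Vale.Agent.P116
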