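import Mathlib
import Vale.Agent.P116.Transport

/-!
# An injective holomorphic map of the sphere is open
-/

open Set Filter Metric Complex
open scoped Topology ComplexConjugate OnePoint

namespace Vale.Agent.P116

lemma sphChart_ne_infty_iff_mem (x y : OnePoint ℂ) :
    sphChart x y ≠ ∞ ↔ y ∈ sphChart x '' (range fun z : ℂ => (z : OnePoint ℂ)) := by
  constructor
  · intro h
    obtain ⟨z, hz⟩ := OnePoint.ne_infty_iff_exists.mp h
    refine ⟨_, ⟨z, hz⟩, ?_⟩
    induction x using OnePoint.rec with
    | infty => simp [sphInv_sphInv]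
    | coe v => simp
  · rintro ⟨_, ⟨z, rfl⟩, rfl⟩
    induction x using OnePoint.rec with
    | infty => simp [sphInv_sphInv]
    | coe v => simp

lemma sphChart_sphChart (x y : OnePoint ℂ) : sphChart x (sphChart x y) = y := by
  induction x using OnePoint.rec with
  | infty => simp [sphInv_sphInv]
  | coe v => simp

lemma coe_finVal {y : OnePoint ℂ} (h : y ≠ ∞) : ((finVal y : ℂ) : OnePoint ℂ) = y := by
  obtain ⟨z, rfl⟩ := OnePoint.ne_infty_iff_exists.mp h
  rfl

/-- The changes of charts are holomorphic. -/
lemma differentiableAt_transition (x y : OnePoint ℂ) {w : ℂ}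
    (h : sphChart y (sphChart x (w : OnePoint ℂ)) ≠ ∞) :
    DifferentiableAt ℂ (fun v : ℂ => finVal (sphChart y (sphChart x (v : OnePoint ℂ)))) w := by
  have hinv : w ≠ 0 → DifferentiableAt ℂ (fun v : ℂ => finVal (sphInv (v : OnePoint ℂ))) w := by
    intro hw
    refine (differentiableAt_inv hw).congr_of_eventuallyEq ?_
    filter_upwards [isOpen_ne.mem_nhds hw] with v hv
    simp [sphInv_coe hv]
  induction x using OnePoint.rec with
  | infty =>
    induction y using OnePoint.rec with
    | infty => simp [sphInv_sphInv]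
    | coe u =>
      simp only [sphChart_infty, sphChart_coe, id] at h ⊢
      exact hinv fun e => h (by simp [e])
  | coe v =>
    induction y using OnePoint.rec with
    | infty =>
      simp only [sphChart_infty, sphChart_coe, id] at h ⊢
      exact hinv fun e => h (by simp [e])
    | coe u => simp

/-- An injective holomorphic map on an open set is open. -/
lemma image_mem_nhds_of_holAt {G : Set (OnePoint ℂ)} {f : OnePoint ℂ → OnePoint ℂ}
    (hGo : IsOpen G) (hf : ∀ x ∈ G, HolAt f x) (hi : InjOn f G) {x : OnePoint ℂ} (hx : x ∈ G) :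
    f '' G ∈ 𝓝 (f x) := by
  set ψ : ℂ → ℂ := fun w => finVal (sphChart (f x) (f (sphChart x (w : OnePoint ℂ)))) with hψ
  set a := finVal (sphChart x x) with ha
  have hxa : sphChart x (a : OnePoint ℂ) = x := by
    rw [ha, ← sphChart_self_ne_infty, sphChart_chart]
  set p : ℂ → OnePoint ℂ := fun w => sphChart x (w : OnePoint ℂ) with hp
  have hpc : Continuous p := (continuous_sphChart x).comp OnePoint.continuous_coe
  have hca : ContinuousAt (fun w => sphChart (f x) (f (p w))) a :=
    (continuous_sphChart (f x)).continuousAt.comp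
      (ContinuousAt.comp (by rw [show p a = x from hxa]; exact (hf x hx).1) hpc.continuousAt)
  have hne : sphChart (f x) (f x) ≠ ∞ := by
    rw [sphChart_self_ne_infty]; exact OnePoint.coe_ne_infty _
  have hev : ∀ᶠ w in 𝓝 a, p w ∈ G ∧ sphChart (f x) (f (p w)) ≠ ∞ :=
    (hpc.continuousAt.eventually_mem (hGo.mem_nhds (by rw [show p a = x from hxa]; exact hx))).and
      (hca.eventually_ne (by rw [show p a = x from hxa]; exact hne))
  have hd : ∀ᶠ w in 𝓝 a, DifferentiableAt ℂ ψ w := by
    filter_upwards [eventually_eventually_nhds.mpr hev] with w hw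
    obtain ⟨hwG, hwne⟩ := hw.self_of_nhds
    obtain ⟨hc, hA⟩ := hf (p w) hwG
    set q := p w with hq
    have hqne : sphChart q (sphChart x (w : OnePoint ℂ)) ≠ ∞ := by
      show sphChart q q ≠ ∞
      rw [sphChart_self_ne_infty]; exact OnePoint.coe_ne_infty _
    have hS := differentiableAt_transition x q hqne
    have hfq : sphChart (f q) (f q) ≠ ∞ := by
      rw [sphChart_self_ne_infty]; exact OnePoint.coe_ne_infty _
    have hT := differentiableAt_transition (f q) (f x) (w := finVal (sphChart (f q) (f q)))
      (by rw [coe_finVal hfq, sphChart_sphChart]; exact hwne)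
    have hval : finVal (sphChart q (sphChart x (w : OnePoint ℂ))) = finVal (sphChart q q) := rfl
    have hA' : DifferentiableAt ℂ
        ((fun v : ℂ => finVal (sphChart (f q) (f (sphChart q (v : OnePoint ℂ))))) ∘
          fun v : ℂ => finVal (sphChart q (sphChart x (v : OnePoint ℂ)))) w :=
      DifferentiableAt.comp w (by rw [hval]; exact hA) hS
    have hcomp : DifferentiableAt ℂ
        ((fun u : ℂ => finVal (sphChart (f x) (sphChart (f q) (u : OnePoint ℂ)))) ∘
          ((fun v : ℂ => finVal (sphChart (f q) (f (sphChart q (v : OnePoint ℂ))))) ∘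
            fun v : ℂ => finVal (sphChart q (sphChart x (v : OnePoint ℂ))))) w := by
      refine DifferentiableAt.comp w ?_ hA'
      simp only [Function.comp_apply, hval, coe_finVal (show sphChart q q ≠ ∞ from hqne),
        sphChart_sphChart]
      exact hT
    refine hcomp.congr_of_eventuallyEq ?_
    have e1 : ∀ᶠ v : ℂ in 𝓝 w, sphChart q (p v) ≠ ∞ :=
      ((continuous_sphChart q).comp hpc).continuousAt.eventually_ne hqne
    have e2 : ∀ᶠ v : ℂ in 𝓝 w, sphChart (f q) (f (p v)) ≠ ∞ :=
      ((continuous_sphChart (f q)).continuousAt.comp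
        (ContinuousAt.comp (g := f) (f := p) hc hpc.continuousAt)).eventually_ne hfq
    filter_upwards [e1, e2] with v hv1 hv2
    simp only [hp] at hv1 hv2
    simp only [Function.comp_apply, coe_finVal hv1, sphChart_sphChart, coe_finVal hv2, hψ]
  obtain ⟨ε, hε, hball⟩ := Metric.eventually_nhds_iff_ball.mp (hd.and hev)
  have han : AnalyticAt ℂ ψ a :=
    DifferentiableOn.analyticAt (s := ball a ε)
      (fun w hw => (hball w hw).1.differentiableWithinAt) (ball_mem_nhds a hε)
  rcases han.eventually_constant_or_nhds_le_map_nhds with hconst | hmap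
  · exfalso
    obtain ⟨δ, hδ, hδc⟩ := Metric.eventually_nhds_iff_ball.mp hconst
    set w : ℂ := a + ((min ε δ / 2 : ℝ) : ℂ) with hw
    have hpos : 0 < min ε δ / 2 := by positivity
    have hdist : dist w a = min ε δ / 2 := by
      rw [hw, dist_eq_norm, add_sub_cancel_left, Complex.norm_of_nonneg hpos.le]
    have hwe : w ∈ ball a ε := by
      rw [mem_ball, hdist]; linarith [min_le_left ε δ]
    have hwd : w ∈ ball a δ := by
      rw [mem_ball, hdist]; linarith [min_le_right ε δ]
    have hae : a ∈ ball a ε := mem_ball_self hε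
    have e : sphChart (f x) (f (p w)) = sphChart (f x) (f (p a)) := by
      rw [← coe_finVal (hball w hwe).2.2, ← coe_finVal (hball a hae).2.2]
      exact congrArg _ (hδc w hwd)
    have e' := congrArg (sphChart (f x)) e
    rw [sphChart_sphChart, sphChart_sphChart] at e'
    have e'' := congrArg (sphChart x) (hi (hball w hwe).2.1 (hball a hae).2.1 e')
    rw [hp, sphChart_sphChart, sphChart_sphChart, OnePoint.coe_eq_coe] at e''
    rw [e'', dist_self] at hdist
    linarith
  · have hball' : ψ '' ball a ε ∈ 𝓝 (ψ a) := hmap (image_mem_map (ball_mem_nhds a hε))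
    have hco : (fun z : ℂ => (z : OnePoint ℂ)) '' (ψ '' ball a ε) ∈
        𝓝 (sphChart (f x) (f x)) := by
      have := OnePoint.isOpenEmbedding_coe.isOpenMap.image_mem_nhds hball'
      simp only [hψ, hxa, coe_finVal hne] at this
      exact this
    refine mem_of_superset ((continuous_sphChart (f x)).continuousAt.preimage_mem_nhds hco) ?_
    rintro y ⟨_, ⟨w, hw, rfl⟩, hy⟩
    refine ⟨p w, (hball w hw).2.1, ?_⟩
    have hfin := (hball w hw).2.2
    simp only [hp] at hfin ⊢
    simp only [hψ, coe_finVal hfin] at hy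
    simpa [sphChart_sphChart] using congrArg (sphChart (f x)) hy

lemma isOpen_image_of_holAt {G : Set (OnePoint ℂ)} {f : OnePoint ℂ → OnePoint ℂ}
    (hGo : IsOpen G) (hf : ∀ x ∈ G, HolAt f x) (hi : InjOn f G) : IsOpen (f '' G) := by
  rw [isOpen_iff_mem_nhds]
  rintro _ ⟨x, hx, rfl⟩
  exact image_mem_nhds_of_holAt hGo hf hi hx

end Vale.Agent.P116
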