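import Mathlib
import Vale.Agent.P116.OpenMap

/-!
# Domains all of whose nondegenerate complementary components are symmetric
-/

open Set Filter Metric Complex
open scoped Topology ComplexConjugate OnePoint

namespace Vale.Agent.P116

lemma isClosed_sphRealLine : IsClosed sphRealLine := by
  have h : sphRealLine = {x | sphConj x = x} := by
    ext x
    induction x using OnePoint.rec with
    | infty => simp [sphRealLine]
    | coe v =>
      constructor
      · rintro (h | ⟨t, ht⟩)
        · exact absurd h (OnePoint.coe_ne_infty v)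
        · rw [mem_ofPred_eq, ← ht]; simp
      · intro h
        refine Or.inr ⟨v.re, ?_⟩
        simp only [mem_ofPred_eq, sphConj_coe, OnePoint.coe_eq_coe] at h
        simp [Complex.conj_eq_iff_re.mp h]
  rw [h]
  exact isClosed_eq (Complex.conjCLE.toHomeomorph.onePointCongr.continuous) continuous_id

/-- A preconnected set invariant under conjugation meets the extended real line. -/
lemma inter_realLine_of_invariant {C : Set (OnePoint ℂ)} (hC : IsPreconnected C)
    {x : OnePoint ℂ} (hx : x ∈ C) (hinv : ∀ y ∈ C, sphConj y ∈ C) :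
    (C ∩ sphRealLine).Nonempty := by
  by_contra h
  rw [not_nonempty_iff_eq_empty] at h
  have hsub : C ⊆ range fun z : ℂ => (z : OnePoint ℂ) := fun y hy => by
    obtain ⟨z, hz⟩ := OnePoint.ne_infty_iff_exists.mp
      (fun e : y = ∞ => eq_empty_iff_forall_notMem.mp h y ⟨hy, Or.inl e⟩)
    exact ⟨z, hz⟩
  set D := (fun z : ℂ => (z : OnePoint ℂ)) ⁻¹' C with hD
  have hDp : IsPreconnected D := OnePoint.isOpenEmbedding_coe.isInducing.isPreconnected_image.mp
    (by rw [image_preimage_eq_of_subset hsub]; exact hC)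
  have hne : ∀ z ∈ D, z.im ≠ 0 := fun z hz e => eq_empty_iff_forall_notMem.mp h _
    ⟨hz, Or.inr ⟨z.re, by
      simp only [OnePoint.coe_eq_coe]
      exact Complex.ext rfl (by simp [e])⟩⟩
  obtain ⟨z, hz⟩ := hsub hx
  have hzD : z ∈ D := show (z : OnePoint ℂ) ∈ C by simpa only [← hz] using hx
  have hconj : ∀ w ∈ D, conj w ∈ D := fun w hw => hinv _ hw
  obtain ⟨p, hp, hpp⟩ : ∃ p ∈ D, 0 < p.im := by
    rcases lt_or_gt_of_ne (hne z hzD) with h' | h'
    · exact ⟨conj z, hconj z hzD, by simpa using h'⟩
    · exact ⟨z, hzD, h'⟩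
  obtain ⟨q, -, hqu, hqv⟩ := hDp {w | 0 < w.im} {w | w.im < 0}
    (isOpen_lt continuous_const Complex.continuous_im)
    (isOpen_lt Complex.continuous_im continuous_const)
    (fun w hw => (lt_or_gt_of_ne (hne w hw)).symm)
    ⟨p, hp, hpp⟩ ⟨conj p, hconj p hp, by simpa using hpp⟩
  exact lt_asymm (show 0 < q.im from hqu) hqv

/-- In a compact Hausdorff space the union of the components which meet a closed set is closed. -/
lemma isClosed_components_meeting {X : Type*} [TopologicalSpace X] [T2Space X] {K A : Set X}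
    (hK : IsCompact K) (hA : IsClosed A) :
    IsClosed {x | x ∈ K ∧ (connectedComponentIn K x ∩ A).Nonempty} := by
  haveI : CompactSpace K := isCompact_iff_compactSpace.mp hK
  set m : K → ConnectedComponents K := ConnectedComponents.mk
  have hcl : IsClosed (m ⁻¹' (m '' (Subtype.val ⁻¹' A))) := by
    refine IsClosed.preimage ConnectedComponents.continuous_coe ?_
    exact (((hA.preimage continuous_subtype_val).isCompact).image
      ConnectedComponents.continuous_coe).isClosed
  have himg := (hcl.isCompact.image continuous_subtype_val).isClosed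
  convert himg using 1
  ext x
  constructor
  · rintro ⟨hx, y, hy, hyA⟩
    rw [connectedComponentIn_eq_image hx] at hy
    obtain ⟨y', hy', rfl⟩ := hy
    exact ⟨⟨x, hx⟩, ⟨y', hyA, ConnectedComponents.coe_eq_coe'.mpr hy'⟩, rfl⟩
  · rintro ⟨⟨x', hx'⟩, ⟨y, hy, he⟩, rfl⟩
    refine ⟨hx', y, ?_, hy⟩
    rw [connectedComponentIn_eq_image hx']
    exact ⟨y, ConnectedComponents.coe_eq_coe'.mp he, rfl⟩

/-- A point of a relatively open part of a compact set, whose preconnected subsets are
subsingletons, is a component of the whole set. -/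
lemma component_eq_singleton_of_open_part {X : Type*} [TopologicalSpace X] [T2Space X]
    [CompactSpace X] {K O : Set X} (hK : IsClosed K) (hO : IsOpen O)
    (htd : ∀ T ⊆ K ∩ O, IsPreconnected T → T.Subsingleton) {e : X} (heK : e ∈ K) (heO : e ∈ O) :
    connectedComponentIn K e = {e} := by
  obtain ⟨U, hUo, heU, hUcl⟩ : ∃ U, IsOpen U ∧ e ∈ U ∧ closure U ⊆ O := by
    obtain ⟨t, ht, htc, hts⟩ := exists_mem_nhds_isClosed_subset (hO.mem_nhds heO)
    exact ⟨interior t, isOpen_interior, mem_interior_iff_mem_nhds.mpr ht,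
      (closure_minimal interior_subset htc).trans hts⟩
  set Kc := K ∩ closure U with hKc
  have hKcc : IsCompact Kc := (hK.inter isClosed_closure).isCompact
  haveI : CompactSpace Kc := isCompact_iff_compactSpace.mp hKcc
  haveI : TotallyDisconnectedSpace Kc :=
    (totallyDisconnectedSpace_subtype_iff).mpr fun T hT hTp =>
      htd T (fun z hz => ⟨(hT hz).1, hUcl (hT hz).2⟩) hTp
  obtain ⟨V, hV, heV, hVU⟩ := compact_exists_isClopen_in_isOpen
    (hUo.preimage continuous_subtype_val)
    (show (⟨e, heK, subset_closure heU⟩ : Kc) ∈ Subtype.val ⁻¹' U from heU)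
  obtain ⟨W, hWo, hWV⟩ := isOpen_induced_iff.mp hV.isOpen
  set V' : Set X := Subtype.val '' V with hV'
  have hV'c : IsClosed V' := (hV.isClosed.isCompact.image continuous_subtype_val).isClosed
  have hmem : ∀ z ∈ K, z ∈ W ∩ U → z ∈ V' := fun z hz hzW =>
    ⟨⟨z, hz, subset_closure hzW.2⟩, by rw [← hWV]; exact hzW.1, rfl⟩
  have hCp : IsPreconnected (connectedComponentIn K e) := isPreconnected_connectedComponentIn
  have hCV : connectedComponentIn K e ⊆ V' := by
    intro z hz
    by_contra hzV
    obtain ⟨q, hq, hq1, hq2⟩ := hCp (W ∩ U) V'ᶜ (hWo.inter hUo) hV'c.isOpen_compl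
      (fun y hy => by
        by_cases hyV : y ∈ V'
        · obtain ⟨y', hy', rfl⟩ := hyV
          exact Or.inl ⟨by rw [← hWV] at hy'; exact hy', hVU hy'⟩
        · exact Or.inr hyV)
      ⟨e, mem_connectedComponentIn heK, by rw [← hWV] at heV; exact heV, heU⟩ ⟨z, hz, hzV⟩
    exact hq2 (hmem q (connectedComponentIn_subset _ _ hq) hq1)
  refine Subset.antisymm (fun z hz => ?_)
    (singleton_subset_iff.mpr (mem_connectedComponentIn heK))
  refine htd _ (fun y hy => ?_) hCp hz (mem_connectedComponentIn heK)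
  obtain ⟨y', -, rfl⟩ := hCV hy
  exact ⟨y'.2.1, hUcl y'.2.2⟩

/-- If a larger domain differs only by point components and is equivalent to a circle domain, so is
the domain itself. -/
lemma circle_of_point_components {G G' : Set (OnePoint ℂ)} (hGo : IsOpen G) (hGc : IsConnected G)
    (hsub : G ⊆ G') (hG'o : IsOpen G')
    (hpt : ∀ x ∈ G', x ∉ G → connectedComponentIn Gᶜ x = {x})
    (h : ∃ Ω, IsCircleDomain Ω ∧ ConformallyEquiv G' Ω) :
    ∃ Ω, IsCircleDomain Ω ∧ ConformallyEquiv G Ω := by
  obtain ⟨Ω', ⟨hΩo, hΩc, hΩcomp⟩, f, hbij, hhol⟩ := h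
  refine ⟨f '' G, ⟨isOpen_image_of_holAt hGo (fun x hx => hhol x (hsub hx)) (hbij.injOn.mono hsub),
    hGc.image f fun x hx => (hhol x (hsub hx)).1.continuousWithinAt, ?_⟩,
    f, (hbij.injOn.mono hsub).bijOn_image, fun x hx => hhol x (hsub hx)⟩
  set g := Function.invFunOn f G' with hg
  have hinv : InvOn g f G' Ω' := hbij.invOn_invFunOn
  have hgc : ContinuousOn g Ω' := by
    rw [_root_.continuousOn_iff']
    intro O hO
    refine ⟨f '' (O ∩ G'), isOpen_image_of_holAt (hO.inter hG'o) (fun x hx => hhol x hx.2)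
      (hbij.injOn.mono inter_subset_right), ?_⟩
    ext y
    constructor
    · rintro ⟨hy, hyΩ⟩
      exact ⟨⟨g y, ⟨hy, (hbij.symm hinv.symm).mapsTo hyΩ⟩, hinv.2 hyΩ⟩, hyΩ⟩
    · rintro ⟨⟨x, ⟨hxO, hxG⟩, rfl⟩, hyΩ⟩
      exact ⟨by rw [mem_preimage, hinv.1 hxG]; exact hxO, hyΩ⟩
  set Ω := f '' G with hΩ
  have hΩsub : Ω ⊆ Ω' := hbij.image_eq ▸ image_mono hsub
  have htd : ∀ T ⊆ Ωᶜ ∩ Ω', IsPreconnected T → T.Subsingleton := by
    intro T hT hTp
    have hgT : IsPreconnected (g '' T) := hTp.image g (hgc.mono fun y hy => (hT hy).2)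
    have hin : g '' T ⊆ Gᶜ := by
      rintro _ ⟨y, hy, rfl⟩ hG
      exact (hT hy).1 ⟨g y, hG, hinv.2 (hT hy).2⟩
    intro y hy z hz
    have hy' := (hbij.symm hinv.symm).mapsTo (hT hy).2
    have hone := hgT.subset_connectedComponentIn (mem_image_of_mem g hy) hin
      (mem_image_of_mem g hz)
    rw [hpt (g y) hy' (hin (mem_image_of_mem g hy)), mem_singleton_iff] at hone
    rw [← hinv.2 (hT hy).2, ← hinv.2 (hT hz).2, hone]
  have hΩcl : IsClosed Ωᶜ :=
    (isOpen_image_of_holAt hGo (fun x hx => hhol x (hsub hx)) (hbij.injOn.mono hsub)).isClosed_compl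
  intro y hy
  by_cases hyΩ' : y ∈ Ω'
  · exact Or.inl (component_eq_singleton_of_open_part hΩcl hΩo htd hy hyΩ')
  · have hC : connectedComponentIn Ωᶜ y = connectedComponentIn Ω'ᶜ y := by
      refine Subset.antisymm (isPreconnected_connectedComponentIn.subset_connectedComponentIn
        (mem_connectedComponentIn hy) ?_) (connectedComponentIn_mono y (compl_subset_compl.mpr hΩsub))
      intro z hz hzΩ'
      have hzK := connectedComponentIn_subset _ _ hz
      have h1 := component_eq_singleton_of_open_part hΩcl hΩo htd hzK hzΩ'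
      rw [← connectedComponentIn_eq hz] at h1
      have h2 := mem_connectedComponentIn (F := Ωᶜ) hy
      rw [h1, mem_singleton_iff] at h2
      exact hyΩ' (h2 ▸ hzΩ')
    rw [hC]
    exact hΩcomp y hyΩ'

/-- Every domain each of whose nondegenerate complementary components is invariant under complex
conjugation is conformally equivalent to a circle domain. -/
theorem symmetric_components_koebe (G : Set (OnePoint ℂ)) (hGo : IsOpen G) (hGc : IsConnected G)
    (hcomp : ∀ x ∉ G, connectedComponentIn Gᶜ x = {x} ∨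
      ∀ y ∈ connectedComponentIn Gᶜ x, sphConj y ∈ connectedComponentIn Gᶜ x) :
    ∃ Ω, IsCircleDomain Ω ∧ ConformallyEquiv G Ω := by
  set L := {x | x ∈ Gᶜ ∧ (connectedComponentIn Gᶜ x ∩ sphRealLine).Nonempty} with hL
  have hLc : IsClosed L :=
    isClosed_components_meeting hGo.isClosed_compl.isCompact isClosed_sphRealLine
  have hsub : G ⊆ Lᶜ := fun x hx hxL => hxL.1 hx
  have hpt : ∀ x ∈ Lᶜ, x ∉ G → connectedComponentIn Gᶜ x = {x} := fun x hx hxG => by
    refine (hcomp x hxG).resolve_right fun h => hx ⟨hxG, ?_⟩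
    exact inter_realLine_of_invariant isPreconnected_connectedComponentIn
      (mem_connectedComponentIn hxG) h
  have hdense : Lᶜ ⊆ closure G := by
    intro x hx
    by_contra hcl
    have hxG : x ∉ G := fun h => hcl (subset_closure h)
    obtain ⟨z, hz⟩ : (range fun z : ℂ => (z : OnePoint ℂ)).Nonempty := range_nonempty _
    have hopen : IsOpen (sphChart x ⁻¹' (range fun z : ℂ => (z : OnePoint ℂ))) :=
      OnePoint.isOpen_range_coe.preimage (continuous_sphChart x)
    set a := finVal (sphChart x x) with ha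
    have hxa : sphChart x (a : OnePoint ℂ) = x := by
      rw [ha, ← sphChart_self_ne_infty, sphChart_chart]
    have hpc : Continuous fun w : ℂ => sphChart x (w : OnePoint ℂ) :=
      (continuous_sphChart x).comp OnePoint.continuous_coe
    obtain ⟨r, hr, hball⟩ := Metric.mem_nhds_iff.mp (hpc.continuousAt.preimage_mem_nhds
      (by rw [hxa]; exact isClosed_closure.isOpen_compl.mem_nhds hcl))
    have hin := ((convex_ball a r).isPreconnected.image _
      hpc.continuousOn).subset_connectedComponentIn ⟨a, mem_ball_self hr, hxa⟩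
      (show (fun w : ℂ => sphChart x (w : OnePoint ℂ)) '' ball a r ⊆ Gᶜ by
        rintro _ ⟨w, hw, rfl⟩ hwG
        exact hball hw (subset_closure hwG))
    have hb : a + ((r / 2 : ℝ) : ℂ) ∈ ball a r := by
      rw [mem_ball, dist_eq_norm, add_sub_cancel_left, Complex.norm_of_nonneg (by linarith)]
      linarith
    have he := hin (mem_image_of_mem _ hb)
    rw [hpt x hx hxG, mem_singleton_iff] at he
    have he' := congrArg (sphChart x) (he.trans hxa.symm)
    rw [sphChart_sphChart, sphChart_sphChart, OnePoint.coe_eq_coe, add_eq_left,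
      Complex.ofReal_eq_zero] at he'
    linarith
  have hcompL : ∀ x ∈ L, connectedComponentIn Gᶜ x ⊆ L := fun x hx y hy =>
    ⟨connectedComponentIn_subset _ _ hy, (connectedComponentIn_eq hy) ▸ hx.2⟩
  refine circle_of_point_components hGo hGc hsub hLc.isOpen_compl hpt
    (symmetric_koebe Lᶜ hLc.isOpen_compl (hGc.subset_closure hsub hdense) ?_ ?_)
  · intro x hx hxL
    apply hx
    have hconj : ∀ w, sphConj (sphConj w) = w := fun w => by
      induction w using OnePoint.rec with
      | infty => rfl
      | coe v => simp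
    rcases hcomp _ hxL.1 with h1 | h1
    · obtain ⟨q, hq, hqR⟩ := hxL.2
      rw [h1, mem_singleton_iff] at hq
      have : sphConj (sphConj x) = sphConj x := by
        rw [← hq]
        rcases hqR with rfl | ⟨t, rfl⟩ <;> simp
      rw [hconj] at this
      rw [this]
      exact hxL
    · have := h1 _ (mem_connectedComponentIn hxL.1)
      rw [hconj] at this
      exact hcompL _ hxL this
  · intro x hx
    rw [notMem_compl_iff] at hx
    obtain ⟨q, hq, hqR⟩ := hx.2
    refine ⟨q, ?_, hqR⟩
    rw [compl_compl]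
    exact isPreconnected_connectedComponentIn.subset_connectedComponentIn
      (mem_connectedComponentIn hx.1) (hcompL x hx) hq

end Vale.Agent.P116
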